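import Crest.Agent.X212.Dfl49.Hom
import Crest.Agent.X212.Bki64.Lim
import Crest.Agent.X212.One97.Ext
import Crest.Agent.X212.Mp86.C0G

/-!
# Row 212, DFLAT (helper49), file 5: flat configurations: FLAT, STD, UNIQ
-/

set_option autoImplicit false
set_option linter.unusedSectionVars false
noncomputable section
open Set Function Filter Topology MeasureTheory
open scoped ContDiff Manifold InnerProductSpace

namespace Crest.Agent.X212.Dfl49
open An Sob92 Pj41 Tmp64 Cyf70 Nd18 Bki64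

section gen
variable {E : Type} [NormedAddCommGroup E] [NormedSpace ℝ E] [FiniteDimensional ℝ E]
  [MeasurableSpace E] [BorelSpace E]
  {HM : Type} [TopologicalSpace HM] {I : ModelWithCorners ℝ E HM} [I.Boundaryless]
  {M : Type} [TopologicalSpace M] [ChartedSpace HM M] [IsManifold I ∞ M]
  [MeasurableSpace M] {ι : Type} [Fintype ι] {lam : Type} [Fintype lam]
  {B : Base M ι lam} {G : Geo I M ι lam} {O S : Set M} {r r' r'' : ℕ}

/-- **FLAT**: almost anti-self-dual and level `≤ 0` -/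
theorem flat [BorelSpace M] [T2Space M] [SecondCountableTopology M] (hB : B.OK I) (hG : G.OK B) {m : Md M ι lam} {W : m.Cn}
    (H : m.OK I B) (C : m.IsConn B G W) (hS : IsOpen S)
    (hi : IntegrableOn (fun x => ‖m.Fg G.F W x‖ ^ 2) S G.F.μ) {θ : ℝ} (hθ : θ < 1 / 2)
    (h1 : ∫ x in S, ‖m.p2 B x (m.Fg G.F W x)‖ ^ 2 ∂G.F.μ ≤ θ * ∫ x in S, ‖m.Fg G.F W x‖ ^ 2 ∂G.F.μ)
    (h2 : ∫ x in S, m.kd B G.F W x ∂G.F.μ ≤ 0) : ∀ x ∈ S, m.Fg G.F W x = 0 := by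
  have := openPos G.F.toPre
  have c1 := (Mp86.sm_Fg hB hG H C).continuous
  have c0 : Continuous (m.kd B G.F W) := by
    have := fun a b c d => (hB.so a b c d).continuous
    simp only [funext (Loc66.kd_eq (B := B) m G.F W), Base.st]
    generalize m.Fg G.F W = f at c1
    fun_prop
  have c2 : Continuous fun x => ‖m.p2 B x (m.Fg G.F W x)‖ ^ 2 :=
    (((c1.norm.pow 2).sub (c0.const_mul (128 * Real.pi ^ 2))).div_const 2).congr fun x => by
      simp only [Pi.sub_apply, Pi.pow_apply, Wz78.norm_Fg_sq hG C hB]; ring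
  have i2 : IntegrableOn (fun x => ‖m.p2 B x (m.Fg G.F W x)‖ ^ 2) S G.F.μ :=
    hi.mono' c2.aestronglyMeasurable (.of_forall fun x => by
      rw [norm_pow, norm_norm]
      exact pow_le_pow_left₀ (norm_nonneg _) (Mp86.norm_p2 hB m x _) 2)
  have e : ∫ x in S, m.kd B G.F W x ∂G.F.μ = (128 * Real.pi ^ 2)⁻¹ *
      (∫ x in S, ‖m.Fg G.F W x‖ ^ 2 ∂G.F.μ - 2 * ∫ x in S, ‖m.p2 B x (m.Fg G.F W x)‖ ^ 2 ∂G.F.μ) := by
    rw [← integral_const_mul, ← integral_sub hi (i2.const_mul 2), ← integral_const_mul]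
    refine integral_congr_ae (.of_forall fun x => ?_)
    simp only [Wz78.norm_Fg_sq hG C hB]
    field_simp
    ring
  have n : 0 ≤ ∫ x in S, ‖m.Fg G.F W x‖ ^ 2 ∂G.F.μ := integral_nonneg fun x => by positivity
  rw [e] at h2
  have k := nonpos_of_mul_nonpos_right h2 (by positivity)
  have z := (setIntegral_eq_zero_iff_of_nonneg_ae (.of_forall fun x => by positivity) hi).1
    (le_antisymm (by nlinarith) n)
  exact fun x hx => by
    simpa using Measure.eqOn_open_of_ae_eq z hS (c1.norm.pow 2).continuousOn continuousOn_const hx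

/-- flat with vanishing spinor -/
structure Fz (F : Fr I M ι) (c : Cfg M ι lam r) (S : Set M) : Prop where
  F : ∀ x ∈ S, c.m.Fg F c.W x = 0
  Φ : ∀ x ∈ S, c.Φ x = 0

/-- parallel isomorphisms -/
structure PI (F : Fr I M ι) (c : Cfg M ι lam r) (c' : Cfg M ι lam r') (S : Set M)
    (u : M → CL c.m.V c'.m.V) : Prop where
  iso : Iso0 I c.m c'.m S u
  par : Par0 F c.W c'.W S u

variable {F : Fr I M ι} {c : Cfg M ι lam r} {c' : Cfg M ι lam r'} {c'' : Cfg M ι lam r''}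
  {u : M → CL c.m.V c'.m.V} {v : M → CL c'.m.V c''.m.V}

theorem Fz.mono (h : Fz F c S) (k : O ⊆ S) : Fz F c O :=
  ⟨fun x hx => h.F x (k hx), fun x hx => h.Φ x (k hx)⟩

theorem PI.mono (h : PI F c c' S u) (k : O ⊆ S) : PI F c c' O u := ⟨h.iso.mono k, h.par.mono k⟩

theorem PI.trans (h : PI F c c' S u) (h' : PI F c' c'' S v) : PI F c c'' S fun x => v x ∘L u x :=
  ⟨h.iso.trans h'.iso, h.par.trans h'.par h.iso.su h'.iso.su⟩

theorem PI.symm (h : PI G.F c c' S u) (a : AdmOn c B G S) (a' : AdmOn c' B G S) :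
    PI G.F c' c S fun x => ad (u x) :=
  ⟨h.iso.symm a.ok a'.ok, h.par.symm h.iso.su a.conn.sk a'.conn.sk⟩

theorem PI.flat (h : PI G.F c c' S u) (hS : IsOpen S) (a : AdmOn c B G S) (a' : AdmOn c' B G S)
    {x : M} (hx : x ∈ S) (f : c.m.Fg G.F c.W x = 0) : c'.m.Fg G.F c'.W x = 0 := by
  ext1 s
  rw [Loc66.Fg_loc h.iso hS a.ok a'.ok (a.conn.sm · x hx) (a'.conn.sm · x hx) h.par hx, f]
  simp

theorem PI.eq0 {c' : Cfg M ι lam r} {u : M → CL c.m.V c'.m.V} (h : PI F c c' S u) (f : Fz F c S)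
    (f' : Fz F c' S) (z : c'.z = c.z) : Eq0 F c c' S u :=
  ⟨h.iso, h.par, fun x hx => by rw [f.Φ x hx, f'.Φ x hx, map_zero], z⟩

theorem PI.cl (h : PI F c c' S u) (hS : IsOpen S) (f : Fz F c S) (f' : ∀ x ∈ S, c'.Φ x = 0)
    (ζ : M → Circle) (k : ℕ) {η : ℝ} (hη : 0 ≤ η) : Cl F c c' u ζ S k η :=
  Cl.of_eq hS h.iso (fun a x hx => h.par x hx a)
    (fun x hx => by simp [Bki64.dP, f.Φ x hx, f' x hx, cs]) hη

theorem two_of (hB : B.OK I) (hG : G.F.P = B.P) (hS : IsOpen S) (a : AdmOn c B G S)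
    (a' : AdmOn c' B G S) : Two B G c.W c'.W S := ⟨hB, hG, hS, a.ok, a'.ok, a.conn, a'.conn⟩

/-- **UNIQ** -/
theorem PI.ext (h : PI G.F c c' O u) (hB : B.OK I) (hG : G.F.P = B.P) (hS : IsOpen S)
    (a : AdmOn c B G S) (a' : AdmOn c' B G S) (f : ∀ x ∈ S, c.m.Fg G.F c.W x = 0)
    (f' : ∀ x ∈ S, c'.m.Fg G.F c'.W x = 0) (hs : Sur O S) (hO : IsOpen O) (k : O ⊆ S) :
    ∃ v, PI G.F c c' S v ∧ EqOn v u O :=
  let ⟨v, h1, h2, h3⟩ := (two_of hB hG hS a a').uniq f f' hs hO k h.iso h.par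
  ⟨v, ⟨h1, h2⟩, h3⟩

theorem pi_of_cl (h : Cl G.F c c' u (fun _ => 1) S 0 0) (a : AdmOn c B G S) : PI G.F c c' S u :=
  ⟨h.iso, fun x hx b => by
    have := dA_u h.iso h.op a hx b
    rw [show dA G.F c c' u b x = 0 from norm_le_zero_iff.1 ((h.A b).Dw [] le_rfl x hx),
      ContinuousLinearMap.zero_comp] at this
    exact this.symm⟩

end gen

theorem exists_sqz {T : Set ℝ} {t : ℝ} (h : T ∈ 𝓝 t) : ∃ θ : ℝ → ℝ, ∃ ε > 0, ContDiff ℝ ∞ θ ∧
    (∀ s, θ s ∈ T) ∧ ∀ s ∈ Ioo (t - ε) (t + ε), θ s = s := by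
  obtain ⟨ε, hε, h1⟩ := Metric.mem_nhds_iff.1 h
  let b : ContDiffBump t := ⟨ε / 2, ε, half_pos hε, half_lt_self hε⟩
  refine ⟨fun s => t + b s * (s - t), ε / 2, half_pos hε,
    contDiff_const.add (b.contDiff.mul (contDiff_id.sub contDiff_const)), fun s => h1 ?_,
    fun s hs => ?_⟩
  · rw [Metric.mem_ball, Real.dist_eq, add_sub_cancel_left, abs_mul, abs_of_nonneg b.nonneg]
    by_cases k : ε ≤ dist s t
    · rwa [b.zero_of_le_dist k, zero_mul]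
    · exact (mul_le_of_le_one_left (abs_nonneg _) b.le_one).trans_lt (not_le.1 k)
  · simp only [b.one_of_mem_closedBall (Real.closedBall_eq_Icc ▸ Ioo_subset_Icc_self hs)]
    ring

variable {E3 : Type} [NormedAddCommGroup E3] [NormedSpace ℝ E3] [FiniteDimensional ℝ E3]
  [MeasurableSpace E3] [BorelSpace E3]
  {H3 : Type} [TopologicalSpace H3] {I3 : ModelWithCorners ℝ E3 H3} [I3.Boundaryless]
  {Y : Type} [TopologicalSpace Y] [ChartedSpace H3 Y] [IsManifold I3 ∞ Y] [T2Space Y]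
  [MeasurableSpace Y] [BorelSpace Y] [SecondCountableTopology Y] [CompactSpace Y]
  {κ : Type} [Fintype κ] {lam : Type} [Fintype lam] {D : YD I3 Y κ lam} {β β' : YC Y κ lam}
  {r r' : ℕ} {T : Set ℝ}

/-- the curvature of a `t`-invariant configuration does not depend on time -/
theorem Fg_cy (hβ : D.Adm β) (y : Y) (s t : ℝ) :
    (cy β).m.Fg D.Z (cy β).W (y, s) = (cy β).m.Fg D.Z (cy β).W (y, t) := by
  have k : ∀ a b, D.Z.D a ((cy β).W b) (y, s) = D.Z.D a ((cy β).W b) (y, t) := fun a b => by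
    have sm : Sm I3 (β.W b) := fun _ => sm_slice (t := 0) (hβ.adm.conn.cc.sm b _)
    cases a with
    | none => exact (congrFun (D_none_fst _ sm) _).trans (congrFun (D_none_fst _ sm) (y, t)).symm
    | some a =>
      exact (congrFun (D_some_fst _ sm a) _).trans (congrFun (D_some_fst _ sm a) (y, t)).symm
  have k2 : ∀ a b j, D.Z.c a b j (y, s) = D.Z.c a b j (y, t) := fun a b j => by
    cases a <;> cases b <;> cases j <;> rfl
  simp only [Md.Fg, Wz78.curv, ← Pre.D_def, k, k2]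
  rfl

/-- a flat configuration on a band is a flat `t`-invariant configuration -/
theorem exists_cy (hD : D.OK) {c : Cfg (Y × ℝ) (Option κ) lam r} (hT : IsOpen T)
    (hc : T.OrdConnected) (hn : T.Nonempty) (a : AdmOn c D.B D.G (univ ×ˢ T))
    (f : ∀ x ∈ univ ×ˢ T, c.m.Fg D.Z c.W x = 0) :
    ∃ (β : YC Y κ lam) (u : Y × ℝ → CL c.m.V β.m.V), D.Adm β ∧ Fz D.Z (cy β) univ ∧
      PI D.Z c (cy β) (univ ×ˢ T) u := by
  obtain ⟨t, ht⟩ := hn
  obtain ⟨θ, ε, hε, h1, h2, h3⟩ := exists_sqz (hT.mem_nhds ht)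
  have y := One97.yd_cy D
  let c0 : Cfg (Y × ℝ) (Option κ) lam 0 := ⟨c.m, c.W, fun _ => 0, 0⟩
  have a1 : (sqC θ c0).Adm D.B D.G := y.adm_sq_of_band h1 h2
    ⟨a.ok, a.conn, fun _ _ => contMDiffAt_const, fun _ _ => map_zero _, .inl rfl⟩
  have sub : Ioo (t - ε) (t + ε) ⊆ T := fun s hs => h3 s hs ▸ h2 s
  have m : t ∈ Ioo (t - ε) (t + ε) := ⟨by linarith, by linarith⟩
  have o := win_op (Y := Y) t ε
  have fx : ∀ x ∈ win Y t ε, sq θ x = x := fun x hx => Prod.ext rfl (h3 _ hx.2)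
  have a2 := (admOn_univ.2 a1).mono (subset_univ (win Y t ε))
  have p1 : PI D.Z c (sqC θ c0) (win Y t ε) (sqC θ c0).m.p :=
    ⟨One97.iso_fix (f := sq θ) (Iso0.refl a2.ok) fx, fun x hx b => by
      have e : (sqC θ c0).W b x = c.W b x := by
        change sw θ b x.2 • c.W b (sq θ x) = _
        rw [fx x hx, show sw θ b x.2 = 1 from ?_, one_smul]
        cases b
        exacts [(EventuallyEq.deriv_eq (f := id) (Filter.Eventually.mono
          (isOpen_Ioo.mem_nhds hx.2) h3)).trans (deriv_id _), rfl]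
      have := a2.conn.par0_refl x hx b
      rwa [← e]⟩
  have f1 := fun x hx => p1.flat (G := D.G) o (a.mono (prod_mono_right sub)) a2 hx (f x ⟨trivial, sub hx.2⟩)
  obtain ⟨u, -, -, k⟩ := y.exists_frz hD.B a1 ordConnected_Ioo m
    (fun z s hs b => by rw [f1 (z, s) ⟨trivial, hs⟩]; rfl)
    fun z s _ => by
      change dv _ _ (fun _ => (0 : (sqC θ c0).m.V)) _ + (sqC θ c0).W none (z, s) 0 = 0
      simp
  let β : YC Y κ lam := pb (fun y => (y, 0)) (frz t (sqC θ c0))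
  have eW : (cy β).W = (frz t (sqC θ c0)).W := funext fun b => funext fun x =>
    (inv_frz t (sqC θ c0)).Wi b x.1 0 x.2
  have hβ : D.Adm β := ⟨by
    rw [show cy β = frz t (sqC θ c0) from congrArg (fun W => (⟨(frz t (sqC θ c0)).m, W,
      (frz t (sqC θ c0)).Φ, (frz t (sqC θ c0)).z⟩ : Cfg _ _ _ 0)) eW]
    exact y.adm_sq contDiff_const a1, fun z => frz_none t (z, 0)⟩
  have a3 := admOn_univ.2 hβ.adm
  have p2 : PI D.Z (sqC θ c0) (cy β) (win Y t ε) u := ⟨k.iso, eW ▸ k.par⟩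
  have f2 : ∀ x, (cy β).m.Fg D.Z (cy β).W x = 0 := fun x => (Fg_cy hβ x.1 x.2 t).trans
    (p2.flat (G := D.G) o a2 (a3.mono (subset_univ _)) ⟨trivial, m⟩ (f1 _ ⟨trivial, m⟩))
  obtain ⟨v, hv, -⟩ := (p1.trans p2).ext (G := D.G) hD.B hD.G.P (isOpen_univ.prod hT) a
    (a3.mono (subset_univ _)) f (fun x _ => f2 x)
    (sur_slab isOpen_Ioo hT ordConnected_Ioo hc ⟨t, m⟩ sub) o (prod_mono_right sub)
  exact ⟨β, v, hβ, ⟨fun x _ => f2 x, fun _ _ => rfl⟩, hv⟩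

/-- **STD** on the cylinder -/
theorem std_cyl (hD : D.OK) (hβ : D.Adm β) {l : Filter ℝ} [l.NeBot] (hl : IsEnd l)
    {c : Cfg (Y × ℝ) (Option κ) lam r} (hT : IsOpen T) (hc : T.OrdConnected) (hm : T ∈ l)
    (a : AdmOn c D.B D.G (univ ×ˢ T)) (f : Fz D.Z c (univ ×ˢ T)) {u : Y × ℝ → CL c.m.V β.m.V}
    {ζ : Circle} {J : Set ℝ} (h : ∀ k, ∀ η > 0, ∃ S ∈ l, S ⊆ J ∧ D.Cls c β u ζ S k η) :
    Fz D.Z (cy β) univ ∧ ∃ v, PI D.Z c (cy β) (univ ×ˢ T) v := by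
  obtain ⟨γ, w, h1, h2, h3⟩ := exists_cy hD hT hc (nonempty_of_mem hm) a f.F
  have h' : ∀ k, ∀ η > 0, ∃ S ∈ l, S ⊆ T ∧ D.Cls c β u ζ S k η := fun k η hη =>
    let ⟨S, s1, _, s3⟩ := h k η hη
    ⟨S ∩ T, inter_mem s1 hm, inter_subset_right, s3.op.inter hT,
      ⟨s3.m.su.mono (prod_mono_right inter_subset_left), fun x hx => s3.m.uu x ⟨hx.1, hx.2.1⟩,
        fun x hx => s3.m.uu' x ⟨hx.1, hx.2.1⟩, fun x hx => s3.m.J x ⟨hx.1, hx.2.1⟩,
        fun x hx => s3.m.ρ x ⟨hx.1, hx.2.1⟩, fun x hx => s3.m.j x ⟨hx.1, hx.2.1⟩⟩,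
      fun a w hw x hx => s3.A a w hw x ⟨hx.1, hx.2.1⟩, fun w hw x hx => s3.P w hw x ⟨hx.1, hx.2.1⟩⟩
  obtain ⟨g, hg⟩ := stb_of_eta h1 hβ one_pos (ξ := 1) (ξ' := ζ) fun η hη => by
    obtain ⟨s, s1, s2⟩ := ((cn_of_lim hβ hl a h' hη 1).and (hl.ev hm 1)).exists
    have e : win Y s 1 ⊆ univ ×ˢ T := prod_mono_right (Ioo_subset_Icc_self.trans s2)
    exact ⟨r, c, s, w, u, 1, ζ, a.mono e, (h3.mono e).cl (win_op _ _) (f.mono e)
      (fun x _ => h2.Φ x trivial) _ _ hη.le, s1, by simpa using hη.le, by simpa using hη.le⟩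
  have p : PI D.Z (cy γ) (cy β) univ fun x => g x.1 := ⟨hg.iso, fun x _ b => hg.par b x⟩
  exact ⟨⟨fun x hx => p.flat (G := D.G) isOpen_univ (admOn_univ.2 h1.adm) (admOn_univ.2 hβ.adm) hx
    (h2.F x hx), fun x _ => (hg.Φ x.1).symm.trans (by
      rw [show γ.Φ x.1 = 0 from h2.Φ x trivial]; simp [cs]; rfl)⟩, _, h3.trans (p.mono (subset_univ _))⟩

theorem pi_of_eqv (hD : D.OK) (hβ : D.Adm β) (hβ' : D.Adm β') (h : D.Eqv β β') :
    ∃ g, PI D.Z (cy β) (cy β') univ g :=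
  let ⟨g, _, k⟩ := h
  ⟨g, Iso0.of_mEq isOpen_univ k.m (OK.on hβ.adm.ok _) (OK.on hβ'.adm.ok _),
    (par0_iff ((IsConn.on hβ'.adm.conn _).proj' hD.B)).2 k.W⟩

variable {E : Type} [NormedAddCommGroup E] [NormedSpace ℝ E] [FiniteDimensional ℝ E]
  [MeasurableSpace E] [BorelSpace E]
  {HM : Type} [TopologicalSpace HM] {I : ModelWithCorners ℝ E HM} [I.Boundaryless]
  {M : Type} [TopologicalSpace M] [ChartedSpace HM M] [IsManifold I ∞ M] [MeasurableSpace M]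
  [T2Space M] [BorelSpace M] {B : Base M (Option κ) lam} {G : Geo I M (Option κ) lam}
  (K : Nk D B G) {c : Cfg M (Option κ) lam r} {c' : Cfg M (Option κ) lam r'} {S : Set M}

theorem nk_image (h : T ⊆ K.J) : K.ψ '' (univ ×ˢ T) = K.tm ⁻¹' T := by
  ext x
  constructor
  · rintro ⟨z, hz, rfl⟩
    rw [mem_preimage, K.tm_ψ z (K.mem_src.2 (h hz.2))]; exact hz.2
  · intro hx
    have k : x ∈ K.ψ.target := K.tgt ▸ h hx
    exact ⟨K.ψ.symm x, ⟨trivial, (K.snd_symm k).symm ▸ hx⟩, K.ψ.right_inv k⟩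

/-- bands of a neck -/
theorem sur_nk {A : Set ℝ} (hA : IsOpen A) (hT : IsOpen T) (cA : A.OrdConnected)
    (cT : T.OrdConnected) (ne : A.Nonempty) (hAT : A ⊆ T) (h : T ⊆ K.J) :
    Sur (K.tm ⁻¹' A) (K.tm ⁻¹' T) := by
  rw [← nk_image K h, ← nk_image K (hAT.trans h)]
  exact (sur_slab hA hT cA cT ne hAT).image K.ψ (fun x hx => K.mem_src.2 (h hx.2))
    (prod_mono_right hAT)

variable {K}

theorem nk_maps (h : T ⊆ K.J) (k : K.tm ⁻¹' T ⊆ S) : univ ×ˢ T ⊆ K.ψ.source ∩ K.ψ ⁻¹' S :=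
  fun _ hx => ⟨K.mem_src.2 (h hx.2), k (nk_image K h ▸ mem_image_of_mem _ hx)⟩

theorem Fz.pb (f : Fz G.F c S) (h : T ⊆ K.J) (k : K.tm ⁻¹' T ⊆ S) : Fz D.Z (K.pb c) (univ ×ˢ T) :=
  ⟨fun _ hx => (K.rel.Fg (nk_maps h k hx).1 c.W).trans (f.F _ (nk_maps h k hx).2),
    fun _ hx => f.Φ _ (nk_maps h k hx).2⟩

theorem PI.push {v : Y × ℝ → CL c.m.V c'.m.V} (p : PI D.Z (K.pb c) (K.pb c') (univ ×ˢ T) v)
    (h : T ⊆ K.J) : PI G.F c c' (K.tm ⁻¹' T) fun x => v (K.ψ.symm x) := by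
  have tg : ∀ x ∈ K.tm ⁻¹' T, x ∈ K.ψ.target := fun x hx => K.tgt ▸ h hx
  have mp : MapsTo K.ψ.symm (K.tm ⁻¹' T) (univ ×ˢ T) := fun x hx =>
    ⟨trivial, (K.snd_symm (tg x hx)).symm ▸ hx⟩
  have ri := fun x hx => K.ψ.right_inv (tg x hx)
  refine ⟨⟨fun x hx => K.rel'.sm (tg x hx) (p.iso.su _ (mp hx)), fun x hx => ?_,
    fun x hx => p.iso.J _ (mp hx), fun x hx b => ?_, fun x hx s => ?_⟩, fun x hx b => ?_⟩
  · simpa only [Nk.pb, Nd18.pb, pbM, ri x hx] using! p.iso.iso _ (mp hx)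
  · simpa only [Nk.pb, Nd18.pb, pbM, ri x hx] using! p.iso.ρ _ (mp hx) b
  · simpa only [Nk.pb, Nd18.pb, pbM, ri x hx] using! p.iso.j _ (mp hx) s
  · rw [K.rel'.D (tg x hx) b (u' := v) (.of_forall fun _ => rfl)]
    simpa only [Nk.pb, Nd18.pb, pbM, ri x hx] using! p.par _ (mp hx) b

variable {l : Filter ℝ} [l.NeBot] {ζ ζ' : Circle}

theorem lim_pi (hD : D.OK) (hβ : D.Adm β) (hl : IsEnd l) (hS : IsOpen S) (a : AdmOn c B G S)
    (f : Fz G.F c S) (hT : IsOpen T) (hc : T.OrdConnected) (hm : T ∈ l) (h : T ⊆ K.J)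
    (k : K.tm ⁻¹' T ⊆ S) (L : K.Lim c β ζ l) :
    Fz D.Z (cy β) univ ∧ ∃ v, PI D.Z (K.pb c) (cy β) (univ ×ˢ T) v :=
  let ⟨_, hu⟩ := L
  std_cyl hD hβ hl hT hc hm ((One97.admOn_pb K hS a).mono (nk_maps h k)) (f.pb h k) hu

/-- **STD**: a flat configuration is its limit near the end, with every phase -/
theorem std (hD : D.OK) (hβ : D.Adm β) (hl : IsEnd l) (hS : IsOpen S) (a : AdmOn c B G S)
    (f : Fz G.F c S) (hT : IsOpen T) (hc : T.OrdConnected) (hm : T ∈ l) (h : T ⊆ K.J)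
    (k : K.tm ⁻¹' T ⊆ S) (L : K.Lim c β ζ l) : Fz D.Z (cy β) univ ∧ K.Std c β ζ' l :=
  let ⟨h1, v, h2⟩ := lim_pi hD hβ hl hS a f hT hc hm h k L
  ⟨h1, v, T, hm, h, (h2.cl (isOpen_univ.prod hT) (f.pb h k) (fun x _ => h1.Φ x trivial) _ 0
    le_rfl).cls hβ hT ((One97.admOn_pb K hS a).mono (nk_maps h k))⟩

/-- **UNIQ**: flat configurations with equivalent limits are equivalent -/
theorem uniq_lim (hD : D.OK) (hB : B.OK I) (hG : G.F.P = B.P) (hβ : D.Adm β) (hβ' : D.Adm β')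
    (hl : IsEnd l) (hS : IsOpen S) (a : AdmOn c B G S) (a' : AdmOn c' B G S) (f : Fz G.F c S)
    (f' : Fz G.F c' S) (hT : IsOpen T) (hc : T.OrdConnected) (hm : T ∈ l) (h : T ⊆ K.J)
    (k : K.tm ⁻¹' T ⊆ S) (hs : Sur (K.tm ⁻¹' T) S) (L : K.Lim c β ζ l) (L' : K.Lim c' β' ζ' l)
    (e : D.Eqv β β') : ∃ v, PI G.F c c' S v := by
  obtain ⟨-, v, p⟩ := lim_pi hD hβ hl hS a f hT hc hm h k L
  obtain ⟨-, v', p'⟩ := lim_pi hD hβ' hl hS a' f' hT hc hm h k L'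
  obtain ⟨g, q⟩ := pi_of_eqv hD hβ hβ' e
  have := (p.trans (q.mono (subset_univ _))).trans (p'.symm (G := D.G)
    ((One97.admOn_pb K hS a').mono (nk_maps h k)) ((admOn_univ.2 hβ'.adm).mono (subset_univ _)))
  exact ((PI.push this h).ext hB hG hS a a' f.F f'.F hs (hT.preimage K.cont) k).imp fun _ h => h.1

end Crest.Agent.X212.Dfl49
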