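import Crest.Agent.X212.Dfl49.Prim
import Crest.Agent.X212.Dfl49.Cfg
import Crest.Agent.X212.Nka63.B
import Crest.Agent.X212.Lns95.Pos
import Crest.Agent.X212.Wz78.Boch

/-!
# Row 212, DFLAT (helper49), file 8: the decaying kernel at a flat configuration
-/

set_option autoImplicit false
set_option linter.unusedSectionVars false
noncomputable section
open Set Filter Topology MeasureTheory
open scoped ContDiff Manifold InnerProductSpace

namespace Crest.Agent.X212.Dfl49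
open An Sob92 Wz78 Rdc90 Kah60 Cyf70 Nd18 Pj41 Map77

variable {E : Type} [NormedAddCommGroup E] [NormedSpace ℝ E] [FiniteDimensional ℝ E]
  [MeasurableSpace E] [BorelSpace E]
  {HM : Type} [TopologicalSpace HM] {I : ModelWithCorners ℝ E HM} [I.Boundaryless]
  {M : Type} [TopologicalSpace M] [ChartedSpace HM M] [IsManifold I ∞ M] [MeasurableSpace M]
  {V : Type} [NormedAddCommGroup V] [InnerProductSpace ℝ V] [FiniteDimensional ℝ V]

section rel
variable {E' : Type} [NormedAddCommGroup E'] [NormedSpace ℝ E'] [FiniteDimensional ℝ E']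
  [MeasurableSpace E'] [BorelSpace E']
  {HM' : Type} [TopologicalSpace HM'] {I' : ModelWithCorners ℝ E' HM'} [I'.Boundaryless]
  {M' : Type} [TopologicalSpace M'] [ChartedSpace HM' M'] [IsManifold I' ∞ M'] [MeasurableSpace M']
  {ι : Type} [Fintype ι] {F : Fr I M ι} {F' : Fr I' M' ι} {ψ : M → M'} {O S : Set M} {S' : Set M'}
  {A : ι → M' → V →L[ℝ] V} {Q : M' → V →L[ℝ] V} {α : ι → M' → V}

theorem Clo.pull (h : Clo F' S' A Q α) (r : FRel F F' ψ O) (hS : IsOpen S)
    (k : S ⊆ O ∩ ψ ⁻¹' S') :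
    Clo F S (fun a x => A a (ψ x)) (fun x => Q (ψ x)) fun a x => α a (ψ x) := by
  refine ⟨⟨hS, fun a x hx => r.sm (k hx).1 (h.sA a _ (k hx).2), fun a x hx => ?_,
    fun x hx => r.sm (k hx).1 (h.sQ _ (k hx).2), fun a x hx => ?_, fun a b x hx => ?_⟩,
    fun a x hx => r.sm (k hx).1 (h.sα a _ (k hx).2), fun a x hx => ?_,
    fun a x hx => h.qα a _ (k hx).2, fun a b x hx => ?_⟩
  · simp only [r.P (k hx).1, h.pA a _ (k hx).2]
  · rw [← h.nQ a _ (k hx).2, nabE, nabE, ← Pre.D_def, r.D (k hx).1 a (u' := Q)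
      (.of_forall fun _ => rfl), Pre.D_def]
  · rw [r.curv (k hx).1 (A' := A) fun _ => .of_forall fun _ => rfl, h.cQ a b _ (k hx).2]
  · simp only [r.P (k hx).1, h.pα a _ (k hx).2]
  · simp only [← h.cl a b _ (k hx).2, ed, r.c (k hx).1, fun a b => r.nab (k hx).1
      (A := fun a x => A a (ψ x)) (A' := A) a (u := fun x => α b (ψ x)) (u' := α b) rfl
      (.of_forall fun _ => rfl)]

theorem PR.pull {ξ : M' → V} {x : M} (h : PR F' A Q α ξ (ψ x)) (r : FRel F F' ψ O) (hx : x ∈ O)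
    {A' : ι → M → V →L[ℝ] V} {Q' : M → V →L[ℝ] V} {α' : ι → M → V} (eA : ∀ a, A' a x = A a (ψ x))
    (eQ : Q' x = Q (ψ x)) (eα : ∀ a, α' a x = α a (ψ x)) : PR F A' Q' α' (fun y => ξ (ψ y)) x :=
  ⟨r.sm hx h.sm, eQ ▸ h.mem, fun a => by
    rw [r.nab hx a (eA a) (.of_forall fun _ => rfl), h.eq, eα]⟩

end rel

variable [T2Space M] [BorelSpace M] [SecondCountableTopology M]
  {E3 : Type} [NormedAddCommGroup E3] [NormedSpace ℝ E3] [FiniteDimensional ℝ E3]
  [MeasurableSpace E3] [BorelSpace E3]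
  {H3 : Type} [TopologicalSpace H3] {I3 : ModelWithCorners ℝ E3 H3} [I3.Boundaryless]
  {Y : Type} [TopologicalSpace Y] [ChartedSpace H3 Y] [IsManifold I3 ∞ Y] [T2Space Y]
  [MeasurableSpace Y] [BorelSpace Y] [SecondCountableTopology Y] [CompactSpace Y]
  {κ : Type} [Fintype κ] {lam : Type} [Fintype lam] {D : YD I3 Y κ lam}
  {B : Base M (Option κ) lam} {G : Geo I M (Option κ) lam}

/-- the times of an end -/
abbrev Te (σ T : ℝ) : Set ℝ := {s | T < σ * s}

/-- `S` is a compact part together with the end `σ tm > T` of the neck `K` -/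
structure One (K : Nk D B G) (σ T : ℝ) (S : Set M) : Prop where
  sg : σ = 1 ∨ σ = -1
  op : IsOpen S
  J : Te σ T ⊆ K.J
  sub : K.tm ⁻¹' Te σ T ⊆ S
  cpt : ∀ R, IsCompact (S ∩ {x | σ * K.tm x ≤ R})

/-- exponential decay along the end -/
def Dcy {N : Type} [NormedAddCommGroup N] (K : Nk D B G) (σ T δ C : ℝ) (f : M → N) : Prop :=
  ∀ x, T < σ * K.tm x → ‖f x‖ ≤ C * Real.exp (-δ * (σ * K.tm x))

theorem isOpen_Te (σ T : ℝ) : IsOpen (Te σ T) := isOpen_lt continuous_const (by fun_prop)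

theorem ord_Te (σ T : ℝ) : (Te σ T).OrdConnected :=
  (convex_halfSpace_gt (LinearMap.mul ℝ ℝ σ).isLinear T).ordConnected

namespace One
variable {K : Nk D B G} {σ T δ C : ℝ} {S : Set M} (h : One K σ T S)
include h

theorem sq : σ * σ = 1 := by rcases h.sg with k | k <;> simp [k]

theorem dp {x : M} (hx : T + 1 < σ * K.tm x) : x ∈ K.dp 1 := by
  have k : ∀ ε : ℝ, |ε| = 1 → K.tm x + ε ∈ K.J := fun ε hε => h.J (by
    have := neg_abs_le ε
    have := le_abs_self ε
    rcases h.sg with k | k <;> simp only [k, mem_ofPred] at hx ⊢ <;> linarith)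
  exact ⟨fun a ha => by linarith [(k (-1) (by simp)).1 a ha],
    fun b hb => by linarith [(k 1 (by simp)).2 b hb]⟩

theorem clopen : IsClopen S := by
  refine ⟨?_, h.op⟩
  rw [show S = (S ∩ {x | σ * K.tm x ≤ T + 1}) ∪ {x | T + 1 ≤ σ * K.tm x} from
    Subset.antisymm (fun x hx => (le_total (σ * K.tm x) (T + 1)).imp (⟨hx, ·⟩) id)
      (union_subset inter_subset_left fun x hx => h.sub ((lt_add_one T).trans_le hx))]
  exact (h.cpt _).isClosed.union (isClosed_le continuous_const (continuous_const.mul K.cont))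

/-- cut-off functions -/
theorem cut : ∃ χ, Cut I S χ ∧ ∃ c, ∀ n x, gr2 G.F.toPre (χ n) x ≤ c := by
  obtain ⟨A, hA⟩ := bd_st
  obtain ⟨c, -, hc⟩ := Nka63.cbs_bd D
  have b : ∀ n : ℕ, G.F.CBs (fun x => Real.smoothTransition (n + 1 - σ * K.τ x))
      fun k => c k * A k := fun n => hc K (fun t => Real.smoothTransition (n + 1 - σ * t)) A (by
    rcases h.sg with k | k
    · simpa [k] using hA.refl (n + 1)
    · simpa [k, add_comm] using hA.shift (n + 1))
  have su : ∀ n : ℕ, tsupport (S.indicator fun x => Real.smoothTransition (n + 1 - σ * K.τ x)) ⊆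
      S ∩ {x | σ * K.tm x ≤ max (n + 1 : ℝ) (T + 1)} := fun n =>
    closure_minimal (fun x hx => by
      have k : x ∈ S := by_contra fun e => hx (indicator_of_notMem e _)
      refine ⟨k, by_contra fun e => hx ?_⟩
      simp only [mem_ofPred, not_le, max_lt_iff] at e
      rw [indicator_of_mem k, K.τ_eq (h.dp e.2), Real.smoothTransition.zero_of_nonpos
        (by linarith [e.1])]) (h.cpt _).isClosed
  refine ⟨fun n => S.indicator fun x => Real.smoothTransition (n + 1 - σ * K.τ x),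
    ⟨fun n => sm_ind h.clopen (b n).1, fun n => (h.cpt _).of_isClosed_subset (isClosed_tsupport _)
      (su n), fun n => (su n).trans inter_subset_left, fun x hx => ⟨S ∩ {y | σ * K.τ y <
        σ * K.τ x + 1}, (h.op.inter (isOpen_lt (continuous_const.mul K.sm_τ.continuous)
          continuous_const)).mem_nhds ⟨hx, lt_add_one (σ * K.τ x)⟩, ?_⟩⟩,
    ∑ _ : Option κ, c 1 * A 1 * (c 1 * A 1), fun n x => Finset.sum_le_sum fun a _ => ?_⟩
  · filter_upwards [tendsto_natCast_atTop_atTop.eventually_ge_atTop (σ * K.τ x + 1)] with n hn y hy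
    rw [indicator_of_mem hy.1, Real.smoothTransition.one_of_one_le (by linarith [hy.2.out])]
  · rcases ind_ev h.clopen (fun x => Real.smoothTransition (n + 1 - σ * K.τ x)) x with ⟨-, k⟩ | ⟨-, k⟩
    · rw [Pre.D_def, dv_congr k]
      exact mul_self_le_mul_self_of_le_of_neg_le (abs_le.1 ((b n).2 1 [a] le_rfl x)).2
        (neg_le.1 (abs_le.1 ((b n).2 1 [a] le_rfl x)).1)
    · simpa [Pre.D_def, dv_congr k] using mul_self_nonneg _

theorem int {N : Type} [NormedAddCommGroup N] [NormedSpace ℝ N] {f : M → N} (hf : ContinuousOn f S)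
    (hδ : 0 < δ) (d : Dcy K σ T δ C f) : IntegrableOn f S G.F.μ := by
  have := G.F.fin
  have o := (isOpen_Te σ T).preimage K.cont
  have i : IntegrableOn (fun s => C * Real.exp (-δ * (σ * s))) (Te σ T) := by
    refine Integrable.const_mul ?_ C
    rcases h.sg with k | k
    · simpa [k, Te] using! integrableOn_exp_mul_Ioi (neg_lt_zero.2 hδ) T
    · simpa [k, Te] using! (integrableOn_exp_mul_Iic hδ (-T)).mono_set
        (t := Iic (-T)) (s := {s | T < -s}) fun s hs => mem_Iic.2 (le_neg.1 (le_of_lt hs))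
  refine IntegrableOn.mono_set (t := (S ∩ {x | σ * K.tm x ≤ T}) ∪ K.tm ⁻¹' Te σ T)
    (((hf.mono inter_subset_left).integrableOn_compact (h.cpt T)).union ?_)
    fun x hx => (le_or_gt (σ * K.tm x) T).imp (⟨hx, ·⟩) id
  refine (Nka63.integrable_tm K ((integrable_indicator_iff (isOpen_Te σ T).measurableSet).2 i)
    fun s hs => indicator_of_notMem (fun e => hs (h.J e)) _).integrableOn.mono'
    ((hf.mono h.sub).aestronglyMeasurable o.measurableSet)
    (ae_restrict_of_forall_mem o.measurableSet fun x hx => ?_)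
  rw [indicator_of_mem (show K.tm x ∈ Te σ T from hx)]
  exact d x hx

theorem small {N : Type} [NormedAddCommGroup N] [NormedSpace ℝ N] {f : M → N}
    (hf : ContinuousOn f S) (hδ : 0 < δ) (d : Dcy K σ T δ C f) :
    ∃ χ, Cut I S χ ∧ Small G.F.toPre χ fun x => ‖f x‖ ^ 2 :=
  let ⟨χ, h1, _, h2⟩ := h.cut
  ⟨χ, h1, small_of_int h1 h.op h2 (h.int (δ := δ + δ) (C := C * C) (hf.norm.pow 2) (add_pos hδ hδ)
    fun x hx => by
      rw [norm_pow, norm_norm, neg_add, add_mul, Real.exp_add, mul_mul_mul_comm, ← pow_two]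
      exact pow_le_pow_left₀ (norm_nonneg _) (d x hx) 2)⟩

theorem cpt_of {N : Type} [NormedAddCommGroup N] {f : M → N} (hδ : 0 < δ) (d : Dcy K σ T δ C f)
    (ε : ℝ) (hε : ε > 0) : ∃ L, IsCompact L ∧ L ⊆ S ∧ ∀ x ∈ S, x ∉ L → ‖f x‖ ≤ ε := by
  have t : Tendsto (fun s => C * Real.exp (-δ * s)) atTop (𝓝 0) := by
    simpa using (Real.tendsto_exp_atBot.comp
      (tendsto_id.const_mul_atTop_of_neg (neg_lt_zero.2 hδ))).const_mul C
  obtain ⟨R, hR⟩ := eventually_atTop.1 ((t.eventually_le_const hε).and (eventually_gt_atTop T))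
  refine ⟨_, h.cpt R, inter_subset_left, fun x hx k => ?_⟩
  have := hR _ (not_le.1 fun e => k ⟨hx, e⟩).le
  exact (d x this.2).trans this.1

/-- a closed decaying form has a decaying primitive -/
theorem prim {A : Option κ → M → V →L[ℝ] V} {Q : M → V →L[ℝ] V} {α : Option κ → M → V}
    (c : Clo G.F S A Q α) (hs : Sur (K.tm ⁻¹' Te σ T) S) (sk : ∀ a, ∀ x ∈ S, Skew (A a x))
    (hδ : 0 < δ) (d : ∀ a, Dcy K σ T δ C (α a)) :
    ∃ ξ, (∀ x ∈ S, PR G.F A Q α ξ x) ∧ Dcy K σ T δ (|C| / δ) ξ := by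
  have mp := nk_maps h.J h.sub
  have t : Tendsto (fun n : ℕ => Real.exp (-δ * (σ * (σ * (T + 1 + n))))) atTop (𝓝 0) := by
    simp only [← mul_assoc σ, h.sq, one_mul]
    exact Real.tendsto_exp_atBot.comp ((tendsto_atTop_add_const_left _ _
      tendsto_natCast_atTop_atTop).const_mul_atTop_of_neg (neg_lt_zero.2 hδ))
  obtain ⟨ξ, hξ⟩ := (c.pull K.rel (isOpen_univ.prod (isOpen_Te σ T)) mp).prim (isOpen_Te σ T)
    (ord_Te σ T) (fun a x hx => sk a _ (mp hx).2) (f := fun s => C * Real.exp (-δ * (σ * s)))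
    (g := fun s => -σ * (C / δ) * Real.exp (-δ * (σ * s))) (fun s _ => by
      refine ((((hasDerivAt_id' s).const_mul σ).const_mul (-δ)).exp.const_mul
        (-σ * (C / δ))).congr_deriv ?_
      linear_combination (C * Real.exp (-δ * (σ * s))) * (h.sq + (σ * σ) * mul_inv_cancel₀ hδ.ne'))
    (fun a x hx => by
      have := d a (K.ψ x)
      rw [K.tm_ψ x (mp hx).1] at this
      exact this hx.2) (τ := fun n => σ * (T + 1 + n))
    (fun n => by
      rw [mem_ofPred, ← mul_assoc, h.sq]; linarith [(Nat.cast_nonneg n : (0 : ℝ) ≤ n)])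
    (by simpa using t.const_mul C) (by simpa using t.const_mul (-σ * (C / δ)))
  have tg : ∀ x ∈ K.tm ⁻¹' Te σ T, x ∈ K.ψ.target := fun x hx => K.tgt ▸ h.J hx
  have m : ∀ x ∈ K.tm ⁻¹' Te σ T, K.ψ.symm x ∈ univ ×ˢ Te σ T := fun x hx =>
    ⟨trivial, (K.snd_symm (tg x hx)).symm ▸ hx⟩
  obtain ⟨η, e1, e2⟩ := c.ext hs ((isOpen_Te σ T).preimage K.cont) fun x hx =>
    (hξ _ (m x hx)).1.pull K.rel' (tg x hx) (fun a => by rw [K.ψ.right_inv (tg x hx)])
      (by rw [K.ψ.right_inv (tg x hx)]) fun a => by rw [K.ψ.right_inv (tg x hx)]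
  refine ⟨η, e1, fun x hx => (congrArg norm (e2 hx)).trans_le ((hξ _ (m x hx)).2.trans_eq ?_)⟩
  rw [K.snd_symm (tg x hx), abs_mul, abs_mul, abs_div, abs_of_pos hδ, abs_of_pos (Real.exp_pos _)]
  rcases h.sg with k | k <;> simp [k]

variable (hB : B.OK I) (hG : G.OK B) {m : Md M (Option κ) lam} {W : m.Cn} (H : m.OK I B)
  (c : m.IsConn B G W)
include hB hG H c

section form
variable (fl : ∀ x ∈ S, m.Fg G.F W x = 0) {α : M → Fm (Option κ) m.A} (sα : ∀ x ∈ S, SA I α x)
  (pα : ∀ x ∈ S, m.p1 B x (α x) = α x) (hδ : 0 < δ) (d : Dcy K σ T δ C α)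
  (asd : ∀ x ∈ S, m.p2 B x (WithLp.toLp 2 fun s =>
    ed I G.F.e G.F.c (m.adW W) (fun a y => α y a) s.1 s.2 x) = 0)
include fl sα pα hδ d asd

/-- decaying forms with anti-self-dual differential are closed -/
theorem clo : Clo G.F S (m.adW W) m.pg fun a y => α y a := by
  have := openPos G.F.toPre
  have L := lc_gam G.F
  have fr := frm G.F
  have sg := Std94.sm_pg hB H
  have cn : Con I G.F.P (m.adW W) := hG.P ▸ con_adW c
  have s1 : ∀ a, ∀ x ∈ S, SA I (fun y => α y a) x := fun a x hx => (sα x hx).clm (pj _ a)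
  have q1 : ∀ a, ∀ x ∈ S, m.pg x (α x a) = α x a := fun a x hx =>
    pα x hx ▸ (bdOf_ok hB H).g_p1 x _ a
  have p1 : ∀ x ∈ S, ∀ a, ∑ b, G.F.P a b x • α x b = α x a := fun x hx a => by
    rw [hG.P, ← pα x hx]; exact (bdOf_ok hB H).P_p1 x _ a
  have cv : ∀ a b, ∀ x ∈ S, ∀ ξ, curv I G.F.e G.F.c (m.adW W) a b x (m.pg x ξ) = 0 :=
    fun a b x hx ξ => by rw [curv_adW_g hB hG H c a b (pg_mem x ξ), fl x hx]; simp [adc_apply]
  obtain ⟨χ, k1, k2⟩ := h.small (fun x hx => (sα x hx).continuousAt.continuousWithinAt) hδ d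
  refine ⟨⟨h.op, fun a x _ => cn.sm a x, fun a x _ => cn.proj a x, fun x _ => sg x,
    fun a x _ => by rw [pg_par H c sg, zero_mul], fun a b x hx => ContinuousLinearMap.ext (cv a b x hx)⟩,
    s1, fun a x hx => p1 x hx a, q1, fun a b x hx => closed_of_asd (riem_of_vol hG.vol) cn
      (adW_skw c) hB.so (hG.P ▸ vol_of hB) h.op k1 s1 p1
      (fun x hx a b j => q1 j x hx ▸ cv a b x hx _) (fun x hx j k => ?_)
      (by simpa only [PiLp.norm_sq_eq_of_L2] using k2) hx a b⟩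
  have ev := h.op.eventually_mem hx
  have g1 : ∀ a b, m.pg x (nab I G.F.e (m.adW W) a (fun y => α y b) x) =
      nab I G.F.e (m.adW W) a (fun y => α y b) x := fun a b => by
    rw [← pg_nab H c sg a (s1 b x hx)]
    exact nab_congr a (ev.mono fun y hy => q1 b y hy)
  have g2 : ∀ s : Option κ × Option κ,
      m.pg x (ed I G.F.e G.F.c (m.adW W) (fun a y => α y a) s.1 s.2 x) =
      ed I G.F.e G.F.c (m.adW W) (fun a y => α y a) s.1 s.2 x := fun s => by
    simp only [ed, map_sub, map_sum, map_smul, g1, q1 _ x hx]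
  have a2 := a2_fix (B := B) (x := x)
    (T := fun a b => ed I G.F.e G.F.c (m.adW W) (fun a y => α y a) a b x)
    (fun a b => ed_anti L (p1 x hx) a b) (fun a b => hG.P ▸ ed_proj L fr (sep G.F) cn
      (s1 · x hx) (ev.mono p1) a b) (j, k)
  have e := congrArg (fun η : Fm (Option κ × Option κ) m.A => η (j, k)) (asd x hx)
  simp only [Md.p2, Wz78.idx_apply, g2, Base.sd, div_eq_inv_mul, mul_smul, ← Finset.smul_sum,
    add_smul, Finset.sum_add_distrib, a2, PiLp.zero_apply] at e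
  simp only [Base.st, div_eq_inv_mul, mul_smul, ← Finset.smul_sum, Fintype.sum_prod_type] at e
  linear_combination (norm := module) (4 : ℝ) • e

variable (hs : Sur (K.tm ⁻¹' Te σ T) S)
include hs

/-- **REG**, first form: the decaying kernel of `d⁺` consists of gauge directions -/
theorem exact : ∃ ξ, (∀ x ∈ S, PR G.F (m.adW W) m.pg (fun a y => α y a) ξ x) ∧
    Dcy K σ T δ (|C| / δ) ξ :=
  h.prim (h.clo hB hG H c fl sα pα hδ d asd) hs (fun a x _ => adW_skw c a x) hδ fun a x hx =>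
    (PiLp.norm_apply_le _ a).trans (d x hx)

/-- **REG**: with a gauge row (with any drift) the decaying kernel vanishes -/
theorem reg {w : M → ℝ} (sw : ∀ x ∈ S, SA I w x) (row : ∀ x ∈ S,
    dv1 I G.F.e G.F.dv (m.adW W) (fun a y => α y a) x + ∑ a, G.F.D a w x • α x a = 0) :
    ∀ x ∈ S, α x = 0 := fun _ hx =>
  have := openPos G.F.toPre
  let ⟨_, h1, h2⟩ := h.exact hB hG H c fl sα pα hδ d asd hs
  fm_ext fun a => zero_of_prim (fun a x _ => (con_adW c).sm a x) (fun a x _ => adW_skw c a x) h.op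
    (fun x hx => (h1 x hx).sm) (fun x hx => (h1 x hx).eq) sw row (h.cpt_of hδ h2) hx a

end form

/-- **DIR** -/
theorem dir0 (fl : ∀ x ∈ S, m.p2 B x (m.Fg G.F W x) = 0) (hp : ∀ x ∈ S, ∃ e > 0, Lns95.PosP B G e x)
    {φ : M → m.V} (sφ : ∀ x ∈ S, SA I φ x) (pφ : ∀ x ∈ S, m.pp B x (φ x) = φ x) (hδ : 0 < δ)
    (d : Dcy K σ T δ C φ) (hD : ∀ x ∈ S, dir I G.F.e m.ρ W φ x = 0) : ∀ x ∈ S, φ x = 0 := by
  have := openPos G.F.toPre
  obtain ⟨χ, k1, k2⟩ := h.small (fun x hx => (sφ x hx).continuousAt.continuousWithinAt) hδ d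
  have k : ∀ x ∈ S, ∃ e > 0, e * ‖φ x‖ ^ 2 ≤ ⟪wK I G.F.e G.F.c m.ρ W x (φ x), φ x⟫_ℝ :=
    fun x hx => (hp x hx).imp fun e he => ⟨he.1, by
      rw [inner_wK hB hG H c (pφ x hx), ← p2_mu hB, ← inner_p2 hB, fl x hx, inner_zero_left,
        real_inner_self_eq_norm_sq, mul_zero, add_zero]
      exact (he.2.fP hB).le hB H _⟩
  intro x hx
  obtain ⟨e, e1, e2⟩ := k x hx
  rw [(dir_zero (riem_of_vol hG.vol) (hG.P ▸ c.cc) c.sk H.ρsk k1 sφ
    (fun x hx => by rw [← pφ x hx, ← mul_apply_eq_comp, p_pp H]) hD (fun x hx =>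
      let ⟨e, e1, e2⟩ := k x hx
      le_trans (by positivity) e2) k2 hx).1] at e2
  exact norm_eq_zero.1 (pow_eq_zero_iff two_ne_zero |>.1 (le_antisymm
    (nonpos_of_mul_nonpos_right e2 e1) (sq_nonneg _)))

/-- **KER**: the gauge fixed linearisation at a flat connection, with a drift in the gauge row,
has no decaying kernel -/
theorem ker (fl : ∀ x ∈ S, m.Fg G.F W x = 0) (hp : ∀ x ∈ S, ∃ e > 0, Lns95.PosP B G e x)
    (hs : Sur (K.tm ⁻¹' Te σ T) S) {u : M → Cf (Option κ) (Fin m.N)} (su : ∀ x ∈ S, SA I u x)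
    (pu : ∀ x, (bdOf B m).pC x (u x) = u x) (hδ : 0 < δ) (d : Dcy K σ T δ C u) {w : M → ℝ}
    (sw : ∀ x ∈ S, SA I w x) (e : ∀ x ∈ S, ((bdOf B m).full G.F (base W 0)).app G.F u x +
      i1 _ _ (∑ a, G.F.D a w x • fa (u x) a) = 0) : ∀ x ∈ S, u x = 0 := by
  have cp := cp_of hB hG H c
  have R := riem_of_vol hG.vol
  have p1 := fun x => cp.P_fa (pu x)
  have n : ∀ x, ‖fa (u x)‖ ≤ ‖u x‖ ∧ ‖fp (u x)‖ ≤ ‖u x‖ := fun x =>
    ⟨WithLp.norm_fst_le _ _, WithLp.norm_snd_le _ _⟩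
  have a := h.reg hB hG H c fl (α := fun x => fa (u x)) (fun x hx => (su x hx).clm fa)
    (fun x _ => p1_of (pu x)) hδ (fun x hx => (n x).1.trans (d x hx)) (fun x hx => by
      have := congrArg (fun v => s2 _ _ (s2 _ _ v)) (e x hx)
      simp only [map_add, cp.full_crv (su x hx) pu, s2_i1, map_zero, add_zero] at this
      simpa [ed_cov (α := fun a y => fa (u y) a) (lc_gam G.F) (p1 x), rk1] using! this) hs sw fun x hx => by
      have := congrArg (fun v => f2 _ _ v) (e x hx)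
      simp only [map_add, cp.full_row (su x hx) pu, f2_i1, map_zero, R.dft (lc_gam G.F)] at this
      rw [dv1_cov (lc_gam G.F) (frm G.F) (fun k => dv_gam hG.vol x k) (p1 x)]
      simpa [rk1] using! this
  have b := h.dir0 hB hG H c (fun x hx => by rw [fl x hx, map_zero]) hp (φ := fun x => fp (u x))
    (fun x hx => (su x hx).clm fp) (fun x _ => sp_of (pu x)) hδ (fun x hx => (n x).2.trans (d x hx))
    fun x hx => by
      have := congrArg (fun v => f2 _ _ (s2 _ _ v)) (e x hx)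
      simpa [cp.full_dir (su x hx) pu] using! this
  exact fun x hx => ext2 (a x hx) (b x hx)

end One

end Crest.Agent.X212.Dfl49
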