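import Crest.Agent.X212.Hz56.Pc

/-!
# Row 212, DFLAT (helper49), file 2: local systems, extension of sections

`LS S Gd`: the good germs of functions form a covering space of `S`.
`Sur O S`: every section of a local system on `S` over `O` extends to `S`.
-/

set_option autoImplicit false
set_option linter.unusedSectionVars false
noncomputable section
open Set Function Filter Topology

namespace Crest.Agent.X212.Dfl49

variable {X Z Y : Type} [TopologicalSpace X] [TopologicalSpace Z] [TopologicalSpace Y] {F : Type}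

/-- a local system on `S` -/
structure LS (S : Set X) (Gd : X → (X → F) → Prop) : Prop where
  germ : ∀ x s s', Gd x s → s' =ᶠ[𝓝 x] s → Gd x s'
  idn : ∀ x ∈ S, ∀ s s', Gd x s → Gd x s' → (∃ᶠ y in 𝓝 x, s y = s' y) → s =ᶠ[𝓝 x] s'
  loc : ∀ x ∈ S, ∃ W ∈ 𝓝 x, ∀ y ∈ W, ∀ s, Gd y s → ∃ s', (∀ z ∈ W, Gd z s') ∧ s' y = s y

/-- sections over `O` extend to `S` -/
def Sur (O S : Set X) : Prop := ∀ (F : Type) (Gd : X → (X → F) → Prop), LS S Gd →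
  ∀ s, (∀ x ∈ O, Gd x s) → ∃ s', (∀ x ∈ S, Gd x s') ∧ EqOn s' s O

variable {O U S C : Set X} {Gd : X → (X → F) → Prop} {s s' : X → F}

theorem LS.mono (h : LS S Gd) (hU : U ⊆ S) : LS U Gd :=
  ⟨h.germ, fun x hx => h.idn x (hU hx), fun x hx => h.loc x (hU hx)⟩

/-- the identity theorem -/
theorem LS.eqOn (h : LS S Gd) (hC : IsPreconnected C) (hS : C ⊆ S) (h1 : ∀ x ∈ C, Gd x s)
    (h2 : ∀ x ∈ C, Gd x s') {x : X} (hx : x ∈ C) (e : s x = s' x) : EqOn s s' C := by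
  have k := hC.subset_left_of_subset_union (u := {y | ∀ᶠ z in 𝓝 y, s z = s' z})
    (v := {y | ∀ᶠ z in 𝓝 y, ¬ s z = s' z}) isOpen_setOfPred_eventually_nhds
    isOpen_setOfPred_eventually_nhds
    (disjoint_left.2 fun y a b => (b.self_of_nhds) a.self_of_nhds)
    (fun y hy => by
      by_cases q : ∃ᶠ z in 𝓝 y, s z = s' z
      · exact Or.inl (h.idn y (hS hy) _ _ (h1 y hy) (h2 y hy) q)
      · exact Or.inr (not_frequently.1 q))
    ⟨x, hx, h.idn x (hS hx) _ _ (h1 x hx) (h2 x hx) fun q => q.self_of_nhds e⟩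
  exact fun y hy => (k hy).self_of_nhds

theorem LS.eqOn_dense (h : LS S Gd) (hC : IsOpen C) (hS : C ⊆ S) (h1 : ∀ x ∈ C, Gd x s)
    (h2 : ∀ x ∈ C, Gd x s') (hd : C ⊆ closure U) (e : EqOn s s' (C ∩ U)) : EqOn s s' C :=
  fun x hx => (h.idn x (hS hx) _ _ (h1 x hx) (h2 x hx)
    ((mem_closure_iff_frequently.1 (hd hx)).mp
      (mem_of_superset (hC.mem_nhds hx) fun _ a b => e ⟨a, b⟩))).self_of_nhds

/-- gluing -/
theorem LS.glue (h : LS S Gd) {ι : Type} {W : ι → Set X} (ho : ∀ i, IsOpen (W i)) {t : ι → X → F}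
    (hg : ∀ i, ∀ x ∈ W i, Gd x (t i)) (he : ∀ i j, EqOn (t i) (t j) (W i ∩ W j)) (s₀ : X → F) :
    ∃ s, ∀ i, EqOn s (t i) (W i) ∧ ∀ x ∈ W i, Gd x s := by
  classical
  have e : ∀ i, EqOn (fun x => if k : ∃ i, x ∈ W i then t k.choose x else s₀ x) (t i) (W i) :=
    fun i x hx => by
      have k : ∃ i, x ∈ W i := ⟨i, hx⟩
      exact (dif_pos k).trans (he _ _ ⟨k.choose_spec, hx⟩)
  exact ⟨_, fun i => ⟨e i, fun x hx => h.germ x _ _ (hg i x hx)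
    (mem_of_superset ((ho i).mem_nhds hx) (e i))⟩⟩

theorem LS.glue₂ (h : LS S Gd) (hO : IsOpen O) (hU : IsOpen U) (h1 : ∀ x ∈ O, Gd x s)
    (h2 : ∀ x ∈ U, Gd x s') (e : EqOn s s' (O ∩ U)) :
    ∃ t, EqOn t s O ∧ EqOn t s' U ∧ ∀ x ∈ O ∪ U, Gd x t := by
  obtain ⟨t, ht⟩ := h.glue (ι := Bool) (W := fun b => cond b O U) (t := fun b => cond b s s')
    (by rintro (_ | _); exacts [hU, hO]) (by rintro (_ | _); exacts [h2, h1])
    (by
      rintro (_ | _) (_ | _)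
      exacts [fun _ _ => rfl, fun x hx => (e ⟨hx.2, hx.1⟩).symm, e, fun _ _ => rfl]) s
  exact ⟨t, (ht true).1, (ht false).1, fun x hx => hx.elim ((ht true).2 x) ((ht false).2 x)⟩

theorem Sur.refl (S : Set X) : Sur S S := fun _ _ _ s hs => ⟨s, hs, fun _ _ => rfl⟩

theorem Sur.trans (h : Sur O U) (h' : Sur U S) (h1 : O ⊆ U) (h2 : U ⊆ S) : Sur O S :=
  fun F Gd k s hs => by
    obtain ⟨a, ha, e⟩ := h F Gd (k.mono h2) s hs
    obtain ⟨b, hb, e'⟩ := h' F Gd k a ha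
    exact ⟨b, hb, fun x hx => (e' (h1 hx)).trans (e hx)⟩

/-- adding an open set -/
theorem Sur.union (h : Sur (O ∩ U) U) (hO : IsOpen O) (hU : IsOpen U) : Sur O (O ∪ U) :=
  fun F Gd k s hs => by
    obtain ⟨a, ha, e⟩ := h F Gd (k.mono subset_union_right) s fun x hx => hs x hx.1
    obtain ⟨t, h1, -, h3⟩ := k.glue₂ hO hU hs ha e.symm
    exact ⟨t, h3, h1⟩

/-- a locally non-separating set -/
theorem sur_nsep (hS : IsOpen S) (hU : IsOpen U) (hUS : U ⊆ S) (hd : S ⊆ closure U)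
    (hn : ∀ x ∈ S, x ∉ U → Hz56.NSep U x) : Sur U S := fun F Gd k s hs => by
  have a : ∀ x : S, ∃ W t, IsOpen W ∧ x.1 ∈ W ∧ W ⊆ S ∧ (∀ z ∈ W, Gd z t) ∧ EqOn t s (W ∩ U) := by
    rintro ⟨x, hx⟩
    by_cases hxU : x ∈ U
    · exact ⟨U, s, hU, hxU, hUS, hs, fun _ _ => rfl⟩
    obtain ⟨W, hW, hl⟩ := k.loc x hx
    obtain ⟨V, h1, h2, h3, h4⟩ := hn x hx hxU _ (inter_mem hW (hS.mem_nhds hx))
    obtain ⟨y, hy⟩ := mem_closure_iff_nhds.1 (hd hx) V (h1.mem_nhds h2)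
    obtain ⟨t, ht, e⟩ := hl y (h3 hy.1).1 s (hs y hy.2)
    exact ⟨V, t, h1, h2, fun z hz => (h3 hz).2, fun z hz => ht z (h3 hz).1,
      k.eqOn h4 (fun z hz => hUS hz.2) (fun z hz => ht z (h3 hz.1).1) (fun z hz => hs z hz.2) hy e⟩
  choose W t h1 h2 h3 h4 h5 using a
  obtain ⟨b, hb⟩ := k.glue h1 h4 (fun i j => k.eqOn_dense ((h1 i).inter (h1 j))
    (fun z hz => h3 i hz.1) (fun z hz => h4 i z hz.1) (fun z hz => h4 j z hz.2)
    (fun z hz => hd (h3 i hz.1)) fun z hz => (h5 i ⟨hz.1.1, hz.2⟩).trans (h5 j ⟨hz.1.2, hz.2⟩).symm) s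
  exact ⟨b, fun x hx => (hb ⟨x, hx⟩).2 x (h2 _), fun x hx =>
    ((hb ⟨x, hUS hx⟩).1 (h2 _)).trans (h5 _ ⟨h2 ⟨x, hUS hx⟩, hx⟩)⟩

theorem sur_th2 (h : Hz56.Th2 U) : Sur U univ :=
  sur_nsep isOpen_univ h.op (subset_univ _) (fun x _ => h.dense x) fun x _ => h.nsep x

/-- transport along a partial homeomorphism -/
theorem Sur.image {O S : Set Z} (h : Sur O S) (e : OpenPartialHomeomorph Z X) (hS : S ⊆ e.source)
    (hO : O ⊆ S) : Sur (e '' O) (e '' S) := fun F Gd k s hs => by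
  have c : ∀ z ∈ e.source, Tendsto e.symm (𝓝 (e z)) (𝓝 z) := fun z hz => e.tendsto_symm hz
  have c' : ∀ z ∈ e.source, Tendsto e (𝓝 z) (𝓝 (e z)) := fun z hz => e.continuousAt hz
  have r : ∀ z ∈ e.source, ∀ u : X → F, (u ∘ e) ∘ e.symm =ᶠ[𝓝 (e z)] u := fun z hz u =>
    (e.eventually_right_inverse' hz).mono fun y hy => congrArg u hy
  have k' : LS S fun z (t : Z → F) => z ∈ e.source → Gd (e z) (t ∘ e.symm) := by
    refine ⟨fun z t t' h1 h2 hz => k.germ _ _ _ (h1 hz) (c z hz h2), fun z hz t t' h1 h2 h3 => ?_,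
      fun z hz => ?_⟩
    · have := k.idn _ (mem_image_of_mem e hz) _ _ (h1 (hS hz)) (h2 (hS hz))
        ((c' z (hS hz)).frequently (h3.mp ((e.eventually_left_inverse (hS hz)).mono
          fun y hy q => by simpa only [comp_apply, hy] using q)))
      filter_upwards [c' z (hS hz) this, e.eventually_left_inverse (hS hz)] with y h4 h5
      simpa only [mem_preimage, mem_ofPred_eq, comp_apply, h5] using h4
    · obtain ⟨W, hW, hl⟩ := k.loc _ (mem_image_of_mem e hz)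
      refine ⟨e ⁻¹' W ∩ e.source, inter_mem (c' z (hS hz) hW) (e.open_source.mem_nhds (hS hz)),
        fun y hy t ht => ?_⟩
      obtain ⟨u, hu, e1⟩ := hl _ hy.1 _ (ht hy.2)
      exact ⟨u ∘ e, fun w hw _ => k.germ _ _ _ (hu _ hw.1) (r w hw.2 u),
        by simpa only [comp_apply, e.left_inv hy.2] using e1⟩
  obtain ⟨t, ht, e1⟩ := h F _ k' (s ∘ e) fun z hz q =>
    k.germ _ _ _ (hs _ (mem_image_of_mem e hz)) (r z q s)
  refine ⟨t ∘ e.symm, ?_, ?_⟩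
  · rintro _ ⟨z, hz, rfl⟩; exact ht z hz (hS hz)
  · rintro _ ⟨z, hz, rfl⟩
    simpa only [comp_apply, e.left_inv (hS (hO hz))] using e1 hz

theorem Sur.image' {O S : Set Z} (h : Sur O S) {f : Z → X} (hf : IsOpenEmbedding f) (hO : O ⊆ S) :
    Sur (f '' O) (f '' S) := by
  rcases isEmpty_or_nonempty Z with q | q
  · rw [eq_empty_of_isEmpty O, eq_empty_of_isEmpty S]; exact Sur.refl _
  · exact h.image (hf.toOpenPartialHomeomorph f) (subset_univ _) hO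

/-- **slabs** -/
theorem sur_slab {A J : Set ℝ} (hA : IsOpen A) (hJ : IsOpen J) (cA : A.OrdConnected)
    (cJ : J.OrdConnected) (ne : A.Nonempty) (hAJ : A ⊆ J) :
    Sur ((univ : Set Y) ×ˢ A) (univ ×ˢ J) := fun F Gd k s hs => by
  -- vertical identity theorem
  have vert : ∀ {T : Set ℝ} {a b : Y × ℝ → F} {y : Y}, T.OrdConnected → T ⊆ J →
      (∀ t ∈ T, Gd (y, t) a) → (∀ t ∈ T, Gd (y, t) b) → ∀ t ∈ T, a (y, t) = b (y, t) →
      ∀ t ∈ T, a (y, t) = b (y, t) := fun {T a b y} h1 h2 h3 h4 t ht e t' ht' =>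
    k.eqOn (C := (fun t => (y, t)) '' T) (h1.isPreconnected.image _ (by fun_prop))
      (by rintro _ ⟨r, hr, rfl⟩; exact ⟨trivial, h2 hr⟩)
      (by rintro _ ⟨r, hr, rfl⟩; exact h3 r hr) (by rintro _ ⟨r, hr, rfl⟩; exact h4 r hr)
      (mem_image_of_mem _ ht) e (mem_image_of_mem _ ht')
  let P : Set Y → Set ℝ → (Y × ℝ → F) → Prop := fun V T a => IsOpen V ∧ IsOpen T ∧
    T.OrdConnected ∧ A ⊆ T ∧ T ⊆ J ∧ (∀ z ∈ V ×ˢ T, Gd z a) ∧ EqOn a s (V ×ˢ A)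
  have main : ∀ y : Y, ∀ t ∈ J, ∃ V T a, P V T a ∧ y ∈ V ∧ t ∈ T := fun y => by
    let R : Set ℝ := {t | ∃ V T a, P V T a ∧ y ∈ V ∧ t ∈ T}
    have oR : IsOpen R := isOpen_iff_forall_mem_open.2 fun t ⟨V, T, a, h1, h2, h3⟩ =>
      ⟨T, fun r hr => ⟨V, T, a, h1, h2, hr⟩, h1.2.1, h3⟩
    refine cJ.isPreconnected.subset_of_closure_inter_subset oR
      ⟨ne.some, hAJ ne.some_mem, univ, A, s, ⟨isOpen_univ, hA, cA, Subset.rfl, hAJ, hs,
        fun _ _ => rfl⟩, trivial, ne.some_mem⟩ ?_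
    rintro t ⟨ht, htJ⟩
    obtain ⟨W, hW, hl⟩ := k.loc (y, t) ⟨trivial, htJ⟩
    obtain ⟨V₀, hV₀, T₀, hT₀, hW'⟩ := mem_nhds_prod_iff.1 hW
    obtain ⟨ε, hε, hb⟩ := Metric.mem_nhds_iff.1 (inter_mem hT₀ (hJ.mem_nhds htJ))
    obtain ⟨r, hr, V, T, a, ⟨p1, p2, p3, p4, p5, p6, p7⟩, hy, hrT⟩ :=
      mem_closure_iff_nhds.1 ht _ (Metric.ball_mem_nhds t hε)
    have hrW : (y, r) ∈ W := hW' ⟨mem_of_mem_nhds hV₀, (hb hr).1⟩
    obtain ⟨b, hb1, hb2⟩ := hl _ hrW a (p6 _ ⟨hy, hrT⟩)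
    have q := k.idn (y, r) ⟨trivial, p5 hrT⟩ _ _ (hb1 _ hrW) (p6 _ ⟨hy, hrT⟩)
      fun q => q.self_of_nhds hb2
    have q' : ∀ᶠ y' in 𝓝 y, b (y', r) = a (y', r) :=
      (show Tendsto (fun y' : Y => (y', r)) (𝓝 y) (𝓝 (y, r)) from
        (by fun_prop : Continuous fun y' : Y => (y', r)).tendsto y) q
    obtain ⟨V', h1, h2, h3⟩ := mem_nhds_iff.1 (inter_mem (inter_mem q' hV₀) (p1.mem_nhds hy))
    have cB : (Metric.ball t ε).OrdConnected := (convex_ball t ε).ordConnected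
    obtain ⟨c, c1, -, c3⟩ := k.glue₂ (O := V' ×ˢ T) (U := V' ×ˢ Metric.ball t ε) (s := a) (s' := b)
      (h2.prod p2) (h2.prod Metric.isOpen_ball) (fun z hz => p6 z ⟨(h1 hz.1).2, hz.2⟩)
      (fun z hz => hb1 z (hW' ⟨(h1 hz.1).1.2, (hb hz.2).1⟩)) fun z hz =>
        vert (p3.inter cB) (fun w hw => p5 hw.1) (fun w hw => p6 _ ⟨(h1 hz.1.1).2, hw.1⟩)
          (fun w hw => hb1 _ (hW' ⟨(h1 hz.1.1).1.2, (hb hw.2).1⟩)) r ⟨hrT, hr⟩
          (h1 hz.1.1).1.1.symm z.2 ⟨hz.1.2, hz.2.2⟩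
    refine ⟨V', T ∪ Metric.ball t ε, c, ⟨h2, p2.union Metric.isOpen_ball,
      (p3.isPreconnected.union r hrT hr cB.isPreconnected).ordConnected,
      p4.trans subset_union_left, union_subset p5 fun w hw => (hb hw).2,
      fun z hz => c3 z ?_, fun z hz => (c1 ⟨hz.1, p4 hz.2⟩).trans (p7 ⟨(h1 hz.1).2, hz.2⟩)⟩, h3,
      Or.inr (Metric.mem_ball_self hε)⟩
    exact hz.2.elim (fun w => Or.inl ⟨hz.1, w⟩) fun w => Or.inr ⟨hz.1, w⟩
  have : Nonempty (Y × ℝ → F) := ⟨s⟩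
  choose! V T a hP hy ht using main
  obtain ⟨b, hb⟩ := k.glue (ι := (univ ×ˢ J : Set (Y × ℝ)))
    (W := fun z => V z.1.1 z.1.2 ×ˢ T z.1.1 z.1.2) (t := fun z => a z.1.1 z.1.2)
    (fun z => (hP _ _ z.2.2).1.prod (hP _ _ z.2.2).2.1) (fun z => (hP _ _ z.2.2).2.2.2.2.2.1)
    (fun z w x hx => by
      obtain ⟨-, -, p3, p4, p5, p6, p7⟩ := hP _ _ z.2.2
      obtain ⟨-, -, q3, q4, -, q6, q7⟩ := hP _ _ w.2.2
      exact vert (p3.inter q3) (fun r hr => p5 hr.1) (fun r hr => p6 _ ⟨hx.1.1, hr.1⟩)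
        (fun r hr => q6 _ ⟨hx.2.1, hr.2⟩) ne.some ⟨p4 ne.some_mem, q4 ne.some_mem⟩
        ((p7 (x := (x.1, ne.some)) ⟨hx.1.1, ne.some_mem⟩).trans
          (q7 (x := (x.1, ne.some)) ⟨hx.2.1, ne.some_mem⟩).symm) x.2 ⟨hx.1.2, hx.2.2⟩) s
  refine ⟨b, fun z hz => (hb ⟨z, hz⟩).2 z ⟨hy _ _ hz.2, ht _ _ hz.2⟩, fun z hz => ?_⟩
  have hz' : z ∈ (univ ×ˢ J : Set (Y × ℝ)) := ⟨trivial, hAJ hz.2⟩
  exact ((hb ⟨z, hz'⟩).1 ⟨hy _ _ hz'.2, ht _ _ hz'.2⟩).trans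
    ((hP _ _ hz'.2).2.2.2.2.2.2 ⟨hy _ _ hz'.2, hz.2⟩)

/-- **caps**: `c` is a collar of the end whose range has a thin complement -/
theorem sur_cap {c : Y × ℝ → X} (hc : IsOpenEmbedding c) (h : Hz56.Th2 (range c)) {A : Set ℝ}
    (hA : IsOpen A) (cA : A.OrdConnected) (ne : A.Nonempty) : Sur (c '' (univ ×ˢ A)) univ := by
  have := (sur_slab (Y := Y) hA isOpen_univ cA ordConnected_univ ne (subset_univ _)).image' hc
    (prod_mono Subset.rfl (subset_univ _))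
  rw [univ_prod_univ, image_univ] at this
  exact this.trans (sur_th2 h) (image_subset_range _ _) (subset_univ _)

end Crest.Agent.X212.Dfl49
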