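import Crest.Agent.X212.Dfl49.Top
import Crest.Agent.X212.Dfl49.Ker
import Crest.Agent.X212.Cht98.Jb
import Crest.Agent.X212.Rf65.Rs

/-!
# Row 212, DFLAT (helper49), file 11: the inside of a broken wall as a piece with one end
-/

set_option autoImplicit false
set_option linter.unusedSectionVars false
noncomputable section
open Set Function Filter Topology Metric
open scoped ContDiff Manifold InnerProductSpace Real

namespace Crest.Agent.X212.Dfl49
open An M Nd18 Cht98 Pj41 Sob92 Std94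
open Met55 (pd_ld pd_ld' ld_bij)

section pc
variable {Wi : Type} {X : Mf 4} {A κ lam : Type} [Fintype A] [Fintype κ] [Fintype lam]
  [DecidableEq lam] {M : Mark X A κ} {W : World M} {L : ML M lam} {Λ : Lns W L} {m c : M.Cl}
  {p : Prm A} {a : A} {b : Bool} {σ : Set A}

variable (M) in
/-- no other wall of `σ` meets the side `b` of `a` -/
def Only (σ : Set A) (a : A) (b : Bool) : Prop :=
  ∀ a' ∈ σ, a' = a ∨ (M.sys.w a').band ⊆ (M.sys.w a).sd (!b)

theorem Only.mono {τ : Set A} (o : Only M σ a b) (h : τ ⊆ σ) : Only M τ a b := fun a' k => o a' (h k)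

theorem Only.off (o : Only M σ a b) {x : X.M} (hx : x ∈ (M.sys.w a).sd b) : x ∉ M.sys.cores σ :=
  fun h => by
    obtain ⟨a', h1, h2⟩ := mem_iUnion₂.1 h
    rcases o a' h1 with rfl | k
    exacts [h2 b hx, (M.sys.w a).not_mem_sd hx (k ((M.sys.w a').core_subset h2))]

theorem Only.src (o : Only M c.1 a b) (C : Caps M) : (M.sys.w a).sd b ⊆ (C.φ c).source :=
  fun _ hx => (C.mem_src c).2 (o.off hx)

theorem Only.pc (o : Only M c.1 a b) (hp : ¬M.pin a) (C : Caps M) {ρ : Reg A}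
    (h : M.sys.Piece c.1 ρ) (e : ρ a = some b) : C.pc c ρ = C.φ c '' (M.sys.w a).sd b := by
  have k : ∀ a' b', ρ a' = some b' → a' = a := fun a' b' e' =>
    (o a' (h.bd_subset (Sys.mem_bd_of e'))).resolve_right fun k =>
      let ⟨_, hx⟩ := (M.sys.w a').ne b'
      (M.sys.w a).not_mem_sd (h.adj a' b' e' hx a b e) (k hx.1)
  have u : M.sys.U ρ = (M.sys.w a).sd b := Subset.antisymm (fun _ hx => hx a b e) fun x hx a' b' e' => by
    obtain rfl := k a' b' e'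
    obtain rfl := Option.some.inj (e.symm.trans e')
    exact hx
  rw [Caps.pc, u, union_eq_left]
  rintro _ ⟨a', b', h1, h2, -⟩
  exact (hp (k a' b' h2 ▸ h1)).elim

theorem Only.isOpen (o : Only M c.1 a b) (C : Caps M) : IsOpen (C.φ c '' (M.sys.w a).sd b) :=
  (C.φ c).toOpenPartialHomeomorph.isOpen_image_of_subset_source ((M.sys.w a).op_sd b) (o.src C)

variable {S : Xs Wi κ lam} {g : S.Y.M ≃ₘ^∞⟮S.Y.I, (M.bn a).Y.I⟯ (M.bn a).Y.M}
  {K : Nk S.D (Λ.B m c) (Λ.G m c p)} (h : Act m c a (some b) p) (hK : IsNk a (some b) g K) {T : ℝ}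
include h hK

theorem nk_J : K.J = Jv (np 1 b) (nq 1 b) := by
  rw [isNk_J h hK, show p.2 a = 1 from h.2.1.2 h.2.2.2]; rfl

theorem te_sub (hT : 0 ≤ T) : Te (-pm b) T ⊆ K.J := fun s (hs : T < _) => by
  rw [nk_J h hK]
  cases b
  · simp [Jv, np_false, nq_one, pm] at hs ⊢; linarith
  · simp [Jv, nq_true, np_one, pm] at hs ⊢; linarith

/-- the end in the band -/
theorem nk_end {J : Set ℝ} (hJ : J ⊆ K.J) : K.tm ⁻¹' J = W.nj c a '' (univ ×ˢ (li 1 b '' J)) := by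
  have e : ∀ q : S.Y.M × ℝ, q.2 ∈ J → K.ψ q = W.nj c a (g q.1, li 1 b q.2) := fun q hq => by
    rw [isNk_ψ h hK (hJ hq), show p.2 a = 1 from h.2.1.2 h.2.2.2]; rfl
  rw [← nk_image K hJ]
  refine Subset.antisymm ?_ ?_
  · rintro _ ⟨q, hq, rfl⟩
    exact ⟨_, ⟨trivial, _, hq.2, rfl⟩, (e q hq.2).symm⟩
  · rintro _ ⟨⟨y, _⟩, ⟨-, s, hs, rfl⟩, rfl⟩
    exact ⟨(g.symm y, s), ⟨trivial, hs⟩, by rw [e _ hs, g.apply_symm_apply]⟩

/-- **ONE** -/
theorem one_W (o : Only M c.1 a b) (hT : 0 ≤ T) : One K (-pm b) T (W.φ c '' (M.sys.w a).sd b) := by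
  have := M.cpt
  have h1 : p.2 a = 1 := h.2.1.2 h.2.2.2
  have d : ∀ s, s ∈ dom 1 b ↔ 0 < pm b * s := fun s => by cases b <;> simp [dom, pm]
  refine ⟨by cases b <;> simp [pm], o.isOpen W.toCaps, te_sub h hK hT, ?_, fun R => ?_⟩
  · rw [nk_end h hK (te_sub h hK hT)]
    rintro _ ⟨⟨y, _⟩, ⟨-, s, hs, rfl⟩, rfl⟩
    exact ⟨_, (M.bn a).j_mem_sd.2 ((d _).1 (li_mem le_rfl (nk_J h hK ▸ te_sub h hK hT hs)).2), rfl⟩
  obtain ⟨ε, ⟨k0, k1⟩, k2⟩ := exists_deep R
  have s : {x | ε ≤ pm b * (M.bn a).s x} ⊆ (M.sys.w a).sd b := fun x hx =>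
    (M.bn a).mem_sd.2 (k0.trans_le hx)
  have e : W.φ c '' (M.sys.w a).sd b ∩ {x | -pm b * K.tm x ≤ R} =
      W.φ c '' {x | ε ≤ pm b * (M.bn a).s x} ∩ {x | -pm b * K.tm x ≤ R} := by
    refine Subset.antisymm ?_ (inter_subset_inter_left _ (image_mono s))
    rintro _ ⟨⟨x, hx, rfl⟩, k⟩
    refine ⟨⟨x, not_lt.1 fun k' : _ < ε => ?_, rfl⟩, k⟩
    have k3 := (M.bn a).mem_sd.1 hx
    have k4 : |(M.bn a).s x| < ε := by
      rwa [← abs_of_pos k3, abs_mul, abs_pm, one_mul] at k'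
    obtain ⟨y, hy⟩ := (M.bn a).exists_of_abs_s_lt (k4.trans_le (by linarith))
    have := isNk_tm_nj h hK (s := (M.bn a).s x) (h1 ▸ ⟨abs_lt.1 (k4.trans_le k1), (d _).2 k3⟩) y
    rw [Caps.nj, comp_apply, hy, h1] at this
    exact (k2 b _ ((d _).2 k3) k4).not_ge (by simpa [this] using k)
  rw [e]
  exact ((isClosed_le continuous_const (continuous_const.mul (M.bn a).contMDiff_s.continuous)).isCompact.image_of_continuousOn
    ((W.φ c).contMDiffOn.continuousOn.mono (s.trans (o.src W.toCaps)))).inter_right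
    (isClosed_le (continuous_const.mul K.cont) continuous_const)

end pc

section dd
open G75 Rf65
variable {κ lam : Type} [Fintype κ] [Fintype lam] [DecidableEq lam] {Lm : LM κ lam}
  {S : Scene Lm} {i : S.L} {R : S.A} {θ : (S.M.bn R).Y.M → Circle} {ϖ : (S.M.bn R).Y.M → V3}
  {Ξ : PartialDiffeomorph ((𝓡 1).prod 𝓘(ℝ, V3)) S.X.I (Circle × V3) S.X.M ∞} {ρ : ℝ → ℝ} {r : ℝ}
  (d : DD S i R θ ϖ Ξ ρ r)
include d

theorem dd_src : univ ×ˢ ball 0 (ρ 0) ⊆ Ξ.source :=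
  (prod_mono subset_rfl (ball_subset_ball (d.pos 0).2.le)).trans d.src

theorem dd_tgt : (S.M.sys.w R).sd false ⊆ Ξ.target :=
  d.sd ▸ image_subset_iff.2 fun _ h => Ξ.map_source (dd_src d h)

theorem dd_sh (J : Set ℝ) : Ξ '' (univ ×ˢ sh (ρ '' J)) = (S.M.bn R).j '' (univ ×ˢ J) := by
  refine Subset.antisymm ?_ ?_
  · rintro _ ⟨⟨z, v⟩, ⟨-, s, hs, e⟩, rfl⟩
    have h0 : 0 < ‖v‖ := e ▸ (d.pos s).1
    obtain ⟨y, h1, h2⟩ := d.pr.surj z (‖v‖⁻¹ • v) (norm_smul_inv_norm (norm_pos_iff.1 h0))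
    exact ⟨(y, s), ⟨trivial, hs⟩, by simp [d.jj, h1, h2, e, smul_smul, h0.ne']⟩
  · rintro _ ⟨q, hq, rfl⟩
    exact ⟨_, ⟨trivial, q.2, hq.2, by simp [norm_smul, d.pr.nrm, abs_of_pos (d.pos _).1]⟩, (d.jj q).symm⟩

variable {Wi : Type} {W : World S.M} {Λ : Lns W (S.N i)} {m c : S.M.Cl} {p : Prm S.A}
  (o : Only S.M c.1 R false)
include o

/-- **SUR, CT** -/
theorem sur_W {S' : Xs Wi κ lam} {g : S'.Y.M ≃ₘ^∞⟮S'.Y.I, (S.M.bn R).Y.I⟯ (S.M.bn R).Y.M}
    {K : Nk S'.D (Λ.B m c) (Λ.G m c p)} (h : Act m c R (some false) p)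
    (hK : IsNk R (some false) g K) {T : ℝ} (hT : 0 ≤ T) :
    Sur (K.tm ⁻¹' Te (-pm false) T) (W.φ c '' (S.M.sys.w R).sd false) ∧
      Ct (K.tm ⁻¹' Te (-pm false) T) (W.φ c '' (S.M.sys.w R).sd false) := by
  have t := nk_J h hK ▸ te_sub h hK hT
  have oJ : IsOpen (li 1 false '' Te (-pm false) T) :=
    (lenH le_rfl false).symm.isOpen_image_of_subset_source (isOpen_Te _ _) t
  have cJ : IsPreconnected (li 1 false '' Te (-pm false) T) :=
    (ord_Te _ _).isPreconnected.image _ ((lenH le_rfl false).symm.continuousOn.mono t)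
  have := sur_ct ((d.up.mono (subset_univ _)).isOpen_image oJ)
    (cJ.image ρ d.up.continuous.continuousOn).ordConnected
    ((Nonempty.image _ ⟨T + 1, by simp [pm]⟩).image _) (b := ρ 0) (by
      rintro _ ⟨_, ⟨s, hs, rfl⟩, rfl⟩
      exact ⟨(d.pos _).1, d.up.strictMono ((li_mem le_rfl (t hs)).2.resolve_left (lt_irrefl _))⟩)
    d.pr.nrm d.pr.oe.isOpenEmbedding d.pr.surj
    (Ξ.toOpenPartialHomeomorph.trans (W.φ c).toOpenPartialHomeomorph) fun x hx =>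
      ⟨dd_src d hx, o.src W.toCaps (d.sd ▸ mem_image_of_mem _ hx)⟩
  rw [nk_end h hK (te_sub h hK hT), image_comp, ← dd_sh d, d.sd, ← image_comp (W.φ c),
    ← image_comp (W.φ c)]
  exact this

omit o in
/-- the coordinates are independent -/
theorem dd_inj {E' H' : Type} [NormedAddCommGroup E'] [NormedSpace ℝ E'] [TopologicalSpace H']
    {I' : ModelWithCorners ℝ E' H'} {Z : Type} [TopologicalSpace Z] [ChartedSpace H' Z] {f : Z → S.X.M}
    {z : Z} (hf : IsLocalDiffeomorphAt I' S.X.I ∞ f z) (hz : f z ∈ Ξ.target) (ξ : E')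
    (h1 : dv I' (fun _ => ξ) (fun y => ((Ξ.symm (f y)).1 : ℂ)) z = 0)
    (h2 : dv I' (fun _ => ξ) (fun y => (Ξ.symm (f y)).2) z = 0) : ξ = 0 := by
  have l := Cyl58.ld_comp (pd_ld' hz) hf
  have md := l.mdifferentiableAt (by simp)
  have : Fact (Module.finrank ℝ ℂ = 1 + 1) := ⟨Complex.finrank_real_complex⟩
  have e1 := mfderiv_comp z ((Line51.contMDiff_coe _).mdifferentiableAt (by simp)) md.fst
  have e2 := mfderiv_comp z mdifferentiableAt_fst md
  have e3 := mfderiv_comp z mdifferentiableAt_snd md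
  rw [mfderiv_fst] at e2
  rw [mfderiv_snd] at e3
  refine (ld_bij l).1 (Eq.trans (b := (0, 0)) (Prod.ext (injective_mvfderiv_subtypeVal_sphere (E := ℂ) (n := 1)
    (Ξ.symm (f z)).1 ?_) ((DFunLike.congr_fun e3 ξ).symm.trans h2)) (map_zero _).symm)
  exact ((congrArg _ (DFunLike.congr_fun e2 ξ).symm).trans
    ((DFunLike.congr_fun e1 ξ).symm.trans h1)).trans (map_zero _).symm

/-- **FRS** -/
theorem frs_W (m : S.M.Cl) : Frs (W.Z c).I (Λ.B m c) (W.φ c '' (S.M.sys.w R).sd false) := by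
  obtain ⟨s, -, hs, -⟩ := d.mrk
  have k : ∀ z ∈ W.φ c '' (S.M.sys.w R).sd false, z ∈ (W.φ c).target ∧
      (W.φ c).symm z ∈ (S.M.sys.w R).sd false := by
    rintro _ ⟨x, hx, rfl⟩
    exact ⟨(W.φ c).map_source (o.src W.toCaps hx),
      ((W.φ c).left_inv (o.src W.toCaps hx)).symm ▸ hx⟩
  have l := fun z hz => pd_ld' (k z hz).1
  have l' := fun z hz => (Cyl58.ld_comp (pd_ld' (dd_tgt d (k z hz).2)) (l z hz)).contMDiffAt
  have u := ((hs.mono subset_union_left).trans ((Λ.uni m c).mono (o.src W.toCaps))).comp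
    (J := (W.Z c).I) ⟨fun z hz => (l z hz).contMDiffAt, fun z hz => (k z hz).2⟩
  refine frs_crd (W.Z c).dim (Λ.B_ok m c) (W.L m c).F0 rfl (o.isOpen W.toCaps)
    (θ := fun z => ((Ξ.symm ((W.φ c).symm z)).1 : ℂ)) (v := fun z => (Ξ.symm ((W.φ c).symm z)).2)
    (s := fun z => Line51.rl (Λ.v m c ((W.φ c).symm z) * s ((W.φ c).symm z))
      (EuclideanSpace.single (.inl ()) 1))
    (fun z hz => (Line51.contMDiff_coe _).comp z (l' z hz).fst) (fun z _ => Circle.norm_coe _)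
    (fun z hz => (l' z hz).snd) (fun z hz => dd_inj d (l z hz) (dd_tgt d (k z hz).2))
    (fun z hz => (smAt _ z).app (Line51.fsm_rl (u.sm z hz)) ((smAt _ z).const _))
    (fun z hz => ?_) fun z hz => ?_
  · rw [← sq_eq_sq₀ (norm_nonneg _) zero_le_one, ← real_inner_self_eq_norm_sq, ← inner_ad_left,
      ← Line51.rl_ad, ← ContinuousLinearMap.comp_apply, ← Line51.rl_comp, (u.iso z hz).src,
      Line51.rl_one]
    simp
  · have := congrArg Line51.rl (u.iso z hz).left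
    erw [Line51.rl_comp, (W.φ c).right_inv (k z hz).1] at this
    exact DFunLike.congr_fun this _

end dd

end Crest.Agent.X212.Dfl49
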