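import Crest.Agent.X212.Dfl49.Fro
import Crest.Agent.X212.Dfl49.Sur
import Crest.Agent.X212.Met55.Fr
import Crest.Agent.X212.Wz78.Par

/-!
# Row 212, DFLAT (helper49), file 3: parallel sections of flat subbundles form a local system
-/

set_option autoImplicit false
set_option linter.unusedSectionVars false
noncomputable section
open Set Function Filter Topology Module
open scoped ContDiff Manifold

namespace Crest.Agent.X212.Dfl49
open An Sob92 Wz78 Met55 Pj41

variable {E : Type} [NormedAddCommGroup E] [NormedSpace ℝ E] [FiniteDimensional ℝ E]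
  [MeasurableSpace E] [BorelSpace E]
  {HM : Type} [TopologicalSpace HM] {I : ModelWithCorners ℝ E HM} [I.Boundaryless]
  {M : Type} [TopologicalSpace M] [ChartedSpace HM M] [IsManifold I ∞ M]
  [MeasurableSpace M] {ι : Type} [Fintype ι]
  {E' : Type} [NormedAddCommGroup E'] [NormedSpace ℝ E'] [FiniteDimensional ℝ E']
  {V N : Type} [NormedAddCommGroup V] [NormedSpace ℝ V] [CompleteSpace V]
  [NormedAddCommGroup N] [NormedSpace ℝ N]

variable (I) in
/-- a parametrisation of an open set by a vector space -/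
structure Pq (q : E' → M) (u : M → E') : Prop where
  sq : ContMDiff 𝓘(ℝ, E') I ∞ q
  su : ∀ z, SA I u (q z)
  uq : ∀ z, u (q z) = z
  qu : ∀ z, ∀ᶠ y in 𝓝 (q z), q (u y) = y

variable (I) in
theorem exists_pq (x : M) {O : Set M} (hO : O ∈ 𝓝 x) :
    ∃ (q : EuclideanSpace ℝ (Fin (finrank ℝ E)) → M) (u : M → _), Pq I q u ∧ q 0 = x ∧
      ∀ z, q z ∈ O := by
  let L : EuclideanSpace ℝ (Fin (finrank ℝ E)) ≃L[ℝ] E :=
    ContinuousLinearEquiv.ofFinrankEq (by simp)
  let φ := extChartAt I x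
  have h1 : ∀ᶠ y in 𝓝 (L.symm (φ x)), L y ∈ φ.target ∧ φ.symm (L y) ∈ O := by
    have t : Tendsto L (𝓝 (L.symm (φ x))) (𝓝 (φ x)) := by
      simpa using L.continuous.tendsto (L.symm (φ x))
    exact t.eventually (inter_mem (extChartAt_target_mem_nhds x) (extChartAt_preimage_mem_nhds hO))
  obtain ⟨r, hr, h2⟩ := Metric.nhds_basis_ball.eventually_iff.1 h1
  let b := OpenPartialHomeomorph.univBall (L.symm (φ x)) r
  have bs : b.source = univ := OpenPartialHomeomorph.univBall_source _ r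
  have bt : b.target = Metric.ball _ r := OpenPartialHomeomorph.univBall_target _ hr
  have hb : ∀ z, b z ∈ Metric.ball (L.symm (φ x)) r := fun z => bt ▸ b.map_source (bs ▸ trivial)
  have hs : ∀ z, φ.symm (L (b z)) ∈ φ.source := fun z => φ.map_target (h2 (hb z)).1
  have e1 : ∀ z, L.symm (φ (φ.symm (L (b z)))) = b z := fun z => by
    rw [φ.right_inv (h2 (hb z)).1, L.symm_apply_apply]
  have s1 : ∀ z, SA I (fun y => L.symm (φ y)) (φ.symm (L (b z))) := fun z =>
    L.symm.contDiff.contMDiff.contMDiffAt.comp _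
      (contMDiffAt_extChartAt' (by simpa [φ] using hs z))
  refine ⟨fun z => φ.symm (L (b z)), fun y => b.symm (L.symm (φ y)), ⟨?_, fun z => ?_, fun z => ?_,
    fun z => ?_⟩, ?_, fun z => (h2 (hb z)).2⟩
  · exact (contMDiffOn_extChartAt_symm x).comp_contMDiff
      (L.contDiff.comp OpenPartialHomeomorph.contDiff_univBall).contMDiff fun z => (h2 (hb z)).1
  · refine ContMDiffAt.comp (g := b.symm) (I' := 𝓘(ℝ, _)) _ ?_ (s1 z)
    rw [e1]
    exact (OpenPartialHomeomorph.contDiffOn_univBall_symm.contDiffAt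
      (Metric.isOpen_ball.mem_nhds (hb z))).contMDiffAt
  · rw [e1, b.left_inv (bs ▸ trivial)]
  · filter_upwards [extChartAt_source_mem_nhds' (hs z), (s1 z).continuousAt.eventually
      (Metric.isOpen_ball.mem_nhds (e1 z ▸ hb z))] with y k1 k2
    rw [b.right_inv (bt ▸ k2), L.apply_symm_apply, φ.left_inv k1]
  · show φ.symm (L (b 0)) = x
    rw [OpenPartialHomeomorph.univBall_apply_zero, L.apply_symm_apply,
      φ.left_inv (mem_extChartAt_source x)]

namespace Pq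
variable {q : E' → M} {u : M → E'} (h : Pq I q u) (F : Fr I M ι)
include h

theorem mem_nhds (z : E') : range q ∈ 𝓝 (q z) := (h.qu z).mono fun _ hy => ⟨_, hy⟩

theorem ld (z : E') : IsLocalDiffeomorphAt I 𝓘(ℝ, E') ∞ u (q z) :=
  Cyl58.ld_of_inverse (U := range q) (V := univ) (g := q)
    (isOpen_iff_mem_nhds.2 (by rintro _ ⟨z, rfl⟩; exact h.mem_nhds z)) isOpen_univ
    (by rintro _ ⟨z, rfl⟩; exact (h.su z).contMDiffWithinAt) h.sq.contMDiffOn (mapsTo_univ _ _)
    (fun z _ => mem_range_self z) (by rintro _ ⟨z, rfl⟩; rw [h.uq]) (fun z _ => h.uq z)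
    (mem_range_self z)

theorem cd {w : M → N} (hw : ∀ z, SA I w (q z)) : ContDiff ℝ ∞ (w ∘ q) :=
  contMDiff_iff_contDiff.1 fun z => ContMDiffAt.comp z (hw z) (h.sq z)

omit h in
/-- the frame in the coordinates -/
def ε (q : E' → M) (u : M → E') (a : ι) (z : E') : E' := dv I (F.e a) u (q z)

theorem sm_ε (a : ι) : ContDiff ℝ ∞ (ε F q u a) :=
  h.cd (w := dv I (F.e a) u) fun z => (frm F).sD a (h.su z)

theorem dv_eq {w : M → N} {z : E'} (hw : MDifferentiableAt I 𝓘(ℝ, N) w (q z)) (a : ι) :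
    dv I (F.e a) w (q z) = fderiv ℝ (w ∘ q) z (ε F q u a z) := by
  have d : DifferentiableAt ℝ (w ∘ q) z :=
    (hw.comp z ((h.sq z).mdifferentiableAt (by simp))).differentiableAt
  have := dv_comp (e := F.e a) (h.su z).md (g := w ∘ q) (g' := fderiv ℝ (w ∘ q) z)
    (by rw [h.uq]; exact d.hasFDerivAt)
  rw [ε, ← this]
  exact dv_congr ((h.qu z).mono fun y hy => (congrArg w hy).symm)

theorem sp (z : E') : Sp fun a => ε F q u a z :=
  (pre_sp F.toPre (q z)).map (A := dmp I 𝓘(ℝ, E') u (q z)) (ld_bij (h.ld z)).2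

theorem isP (z : E') : IsP (fun a => ε F q u a z) (Matrix.of fun a b => F.P a b (q z)) :=
  (fr_isP F (q z)).map (A := dmp I 𝓘(ℝ, E') u (q z)) (ld_bij (h.ld z)).1

theorem ext {z : E'} {T : E' →L[ℝ] N} (hT : ∀ a, T (ε F q u a z) = 0) (v : E') : T v = 0 := by
  obtain ⟨c, rfl⟩ := h.sp F z v
  simp [map_sum, hT]

theorem br (a b : ι) (z : E') :
    fderiv ℝ (ε F q u b) z (ε F q u a z) - fderiv ℝ (ε F q u a) z (ε F q u b z) =
      ∑ k, F.c a b k (q z) • ε F q u k z := by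
  have := (frm F).brV a b (h.su z)
  rwa [h.dv_eq F ((frm F).sD b (h.su z)).md, h.dv_eq F ((frm F).sD a (h.su z)).md] at this

/-- a one-form in the coordinates -/
theorem exists_form {A : ι → M → N} (sA : ∀ a z, SA I (A a) (q z))
    (pA : ∀ a z, ∑ b, F.P a b (q z) • A b (q z) = A a (q z)) :
    ∃ B : E' → E' →L[ℝ] N, ContDiff ℝ ∞ B ∧ ∀ z a, B z (ε F q u a z) = A a (q z) := by
  let b := finBasis ℝ E'
  have s1 : ∀ z, MSm 𝓘(ℝ, E') (fun z => fm b fun a => ε F q u a z) z := fun z i a =>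
    ((b.coord i).toContinuousLinearMap.contDiff.comp (h.sm_ε F a)).contMDiff z
  have s2 : ∀ z, MSm 𝓘(ℝ, E') (fun z => ri b fun a => ε F q u a z) z := fun z =>
    (s1 z).transpose.mul (((s1 z).mul (s1 z).transpose).inv (h.sp F z).det_pos.ne')
  refine ⟨fun z => ∑ i, (b.coord i).toContinuousLinearMap.smulRight
    (∑ a, ri b (fun a => ε F q u a z) a i • A a (q z)), ?_, fun z a => ?_⟩
  · refine ContDiff.sum fun i _ => ContDiff.smulRight contDiff_const (ContDiff.sum fun a _ => ?_)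
    exact (contMDiff_iff_contDiff.1 fun z => s2 z a i).smul (h.cd (sA a))
  · rw [← pA a z]
    have e := (h.isP F z).eq_prj (h.sp F z) b
    have e' : ∀ c, F.P a c (q z) = prj b (fun a => ε F q u a z) c a := fun c => by
      rw [← e, F.P_symm]; rfl
    simp only [e', prj, Matrix.mul_apply, fm_apply, _root_.sum_apply,
      ContinuousLinearMap.smulRight_apply, Finset.smul_sum, Finset.sum_smul, smul_smul]
    rw [Finset.sum_comm]
    exact Finset.sum_congr rfl fun c _ => Finset.sum_congr rfl fun i _ => by rw [mul_comm]; rfl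

variable {A : ι → M → V →L[ℝ] V} {B : E' → E' →L[ℝ] V →L[ℝ] V}

theorem nab_eq (e : ∀ z a, B z (ε F q u a z) = A a (q z)) {s : M → V} {z : E'}
    (hs : MDifferentiableAt I 𝓘(ℝ, V) s (q z)) (a : ι) : nab I F.e A a s (q z) =
      fderiv ℝ (s ∘ q) z (ε F q u a z) + B z (ε F q u a z) ((s ∘ q) z) := by
  rw [nab, h.dv_eq F hs, e]; rfl

theorem nabE_eq (e : ∀ z a, B z (ε F q u a z) = A a (q z)) {Q : M → V →L[ℝ] V} {z : E'}
    (hs : SA I Q (q z)) (a : ι) : nabE I F.e A a Q (q z) = Nc B (Q ∘ q) z (ε F q u a z) := by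
  rw [nabE, h.dv_eq F hs.md, Nc, e]; rfl

theorem curv_eq (sB : ContDiff ℝ ∞ B) (e : ∀ z a, B z (ε F q u a z) = A a (q z))
    (sA : ∀ a z, SA I (A a) (q z)) (a b : ι) (z : E') :
    curv I F.e F.c A a b (q z) = Rc B z (ε F q u a z) (ε F q u b z) := by
  have k : ∀ a b, dv I (F.e a) (A b) (q z) = fderiv ℝ B z (ε F q u a z) (ε F q u b z) +
      B z (fderiv ℝ (ε F q u b) z (ε F q u a z)) := fun a b => by
    rw [h.dv_eq F (sA b z).md, show A b ∘ q = fun z => B z (ε F q u b z) from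
      _root_.funext fun z => (e z b).symm,
      fderiv_clm_apply (sB.differentiable (by simp) z) ((h.sm_ε F b).differentiable (by simp) z)]
    simp [add_comm]
  have k2 := congrArg (B z) (h.br F a b z)
  simp only [map_sub, map_sum, map_smul, e] at k2
  rw [curv, k, k, ← k2, Rc, e, e]; abel

end Pq

/-- `Q` cuts out a flat part of the connection `A` over `S` -/
structure Flt (F : Fr I M ι) (S : Set M) (A : ι → M → V →L[ℝ] V) (Q : M → V →L[ℝ] V) : Prop where
  op : IsOpen S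
  sA : ∀ a, ∀ x ∈ S, SA I (A a) x
  pA : ∀ a, ∀ x ∈ S, ∑ b, F.P a b x • A b x = A a x
  sQ : ∀ x ∈ S, SA I Q x
  nQ : ∀ a, ∀ x ∈ S, nabE I F.e A a Q x * Q x = 0
  cQ : ∀ a b, ∀ x ∈ S, curv I F.e F.c A a b x * Q x = 0

/-- a parallel section of `Q` at `x` -/
structure PA (F : Fr I M ι) (A : ι → M → V →L[ℝ] V) (Q : M → V →L[ℝ] V) (s : M → V) (x : M) :
    Prop where
  sm : SA I s x
  mem : Q x (s x) = s x
  par : ∀ a, nab I F.e A a s x = 0

variable {F : Fr I M ι} {S O : Set M} {A : ι → M → V →L[ℝ] V} {Q : M → V →L[ℝ] V}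

theorem PA.congr {s s' : M → V} {x : M} (h : PA F A Q s x) (e : s' =ᶠ[𝓝 x] s) : PA F A Q s' x :=
  ⟨h.sm.congr_of_eventuallyEq e, by rw [e.eq_of_nhds, h.mem], fun a => by
    rw [nab_congr a e, h.par]⟩

/-- parallel sections are determined by one value, locally -/
theorem par_uniq {x : M} (sA : ∀ᶠ y in 𝓝 x, ∀ a, SA I (A a) y ∧ ∑ b, F.P a b y • A b y = A a y)
    {s s' : M → V} (h : ∀ᶠ y in 𝓝 x, SA I s y ∧ ∀ a, nab I F.e A a s y = 0)
    (h' : ∀ᶠ y in 𝓝 x, SA I s' y ∧ ∀ a, nab I F.e A a s' y = 0) (e : s x = s' x) :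
    s =ᶠ[𝓝 x] s' := by
  obtain ⟨q, u, hq, rfl, hm⟩ := exists_pq I x (sA.and (h.and h'))
  obtain ⟨B, sB, eB⟩ := hq.exists_form F (fun a z => ((hm z).1 a).1) fun a z => ((hm z).1 a).2
  have sd : ∀ z, SA I (fun y => s y - s' y) (q z) := fun z => (hm z).2.1.1.sub (hm z).2.2.1
  have := par_zero (s := (fun y => s y - s' y) ∘ q) sB.continuous
    ((hq.cd sd).differentiable (by simp)) (fun z k => hq.ext F
      (T := fderiv ℝ ((fun y => s y - s' y) ∘ q) z + (B z).flip (((fun y => s y - s' y) ∘ q) z))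
      (fun a => by
        have := hq.nab_eq F eB (sd z).md a
        rw [nab_sub a (hm z).2.1.1 (hm z).2.2.1, (hm z).2.1.2, (hm z).2.2.2, sub_zero] at this
        exact this.symm) k) (z₀ := 0) (sub_eq_zero.2 e)
  filter_upwards [hq.mem_nhds 0]
  rintro _ ⟨z, rfl⟩
  exact sub_eq_zero.1 (this z)

/-- local existence of parallel sections -/
theorem Flt.exists_loc (h : Flt F S A Q) {x : M} (hx : x ∈ S) : ∃ W ∈ 𝓝 x, IsOpen W ∧ W ⊆ S ∧
    ∀ y ∈ W, ∀ v, Q y v = v → ∃ s, s y = v ∧ ∀ z ∈ W, PA F A Q s z := by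
  obtain ⟨q, u, hq, rfl, hm⟩ := exists_pq I x (h.op.mem_nhds hx)
  obtain ⟨B, sB, eB⟩ := hq.exists_form F (fun a z => h.sA a _ (hm z)) fun a z => h.pA a _ (hm z)
  refine ⟨range q, hq.mem_nhds 0, isOpen_iff_mem_nhds.2 (by rintro _ ⟨z, rfl⟩; exact hq.mem_nhds z),
    range_subset_iff.2 hm, ?_⟩
  rintro _ ⟨z₀, rfl⟩ v hv
  let mR : (V →L[ℝ] V) → (V →L[ℝ] V) →L[ℝ] V →L[ℝ] V := fun T => (ContinuousLinearMap.mul ℝ _).flip T
  obtain ⟨σ, s1, s2, s3, s4⟩ := frob (B := B) (Q := Q ∘ q) sB (hq.cd fun z => h.sQ _ (hm z))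
    (fun z k => by
      have := hq.ext F (z := z) (T := mR (Q (q z)) ∘L (fderiv ℝ (Q ∘ q) z +
        (mR (Q (q z)) ∘L B z - ContinuousLinearMap.mul ℝ _ (Q (q z)) ∘L B z)))
        (fun a => by
          have := h.nQ a _ (hm z)
          rw [hq.nabE_eq F eB (h.sQ _ (hm z))] at this
          exact this) k
      exact this)
    (fun z k l => by
      obtain ⟨c, rfl⟩ := hq.sp F z k
      obtain ⟨d, rfl⟩ := hq.sp F z l
      have e : ∀ a b, Rc B z (Pq.ε F q u a z) (Pq.ε F q u b z) * (Q ∘ q) z = 0 := fun a b => by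
        rw [← hq.curv_eq F sB eB fun a z => h.sA a _ (hm z)]; exact h.cQ a b _ (hm z)
      have : Rc B z (∑ a, c a • Pq.ε F q u a z) (∑ a, d a • Pq.ε F q u a z) =
          ∑ a, ∑ b, (c a * d b) • Rc B z (Pq.ε F q u a z) (Pq.ε F q u b z) := by
        simp only [Rc, map_sum, map_smul, _root_.sum_apply, smul_apply, Finset.sum_mul,
          Finset.mul_sum, smul_mul_assoc, mul_smul_comm, smul_add, smul_sub,
          Finset.sum_add_distrib, Finset.sum_sub_distrib, Finset.smul_sum, smul_smul]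
        congr 2 <;> (rw [Finset.sum_comm]; simp only [mul_comm (d _)])
      rw [this]
      simp only [Finset.sum_mul, smul_mul_assoc, e, smul_zero, Finset.sum_const_zero]) z₀ hv
  have e0 : (σ ∘ u) ∘ q = σ := _root_.funext fun z => congrArg σ (hq.uq z)
  refine ⟨σ ∘ u, (congrFun e0 z₀).trans s2, ?_⟩
  rintro _ ⟨z, rfl⟩
  have k : SA I (σ ∘ u) (q z) := s1.contMDiff.contMDiffAt.comp _ (hq.su z)
  refine ⟨k, ?_, fun a => ?_⟩
  · rw [show (σ ∘ u) (q z) = σ z from congrFun e0 z]; exact s3 z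
  · rw [hq.nab_eq F eB k.md, e0, s4]

theorem Flt.ls (h : Flt F S A Q) : LS S fun x s => ∀ᶠ y in 𝓝 x, PA F A Q s y := by
  refine ⟨fun x s s' h1 h2 => ?_, fun x hx s s' h1 h2 h3 => ?_, fun x hx => ?_⟩
  · filter_upwards [h1, h2.eventually_nhds] with y k1 k2 using k1.congr k2
  · refine par_uniq (F := F) (A := A) (mem_of_superset (h.op.mem_nhds hx) fun y hy a =>
      ⟨h.sA a y hy, h.pA a y hy⟩) (h1.mono fun y hy => ⟨hy.sm, hy.par⟩)
      (h2.mono fun y hy => ⟨hy.sm, hy.par⟩) ?_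
    exact tendsto_nhds_unique_of_frequently_eq h1.self_of_nhds.sm.continuousAt
      h2.self_of_nhds.sm.continuousAt h3
  · obtain ⟨W, h1, h2, -, h4⟩ := h.exists_loc hx
    refine ⟨W, h1, fun y hy s hs => ?_⟩
    obtain ⟨t, k1, k2⟩ := h4 y hy _ hs.self_of_nhds.mem
    exact ⟨t, fun z hz => mem_of_superset (h2.mem_nhds hz) k2, k1⟩

/-- **EXT**: parallel sections extend -/
theorem Flt.ext (h : Flt F S A Q) (hS : Sur O S) (hO : IsOpen O) {s : M → V}
    (hs : ∀ x ∈ O, PA F A Q s x) : ∃ t, (∀ x ∈ S, PA F A Q t x) ∧ EqOn t s O := by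
  obtain ⟨t, h1, h2⟩ := hS V _ h.ls s fun x hx => mem_of_superset (hO.mem_nhds hx) hs
  exact ⟨t, fun x hx => (h1 x hx).self_of_nhds, h2⟩

/-- the identity theorem -/
theorem par_eqOn {C : Set M} (hS : IsOpen S) (hC : IsPreconnected C) (hCS : C ⊆ S)
    (sA : ∀ a, ∀ x ∈ S, SA I (A a) x) (pA : ∀ a, ∀ x ∈ S, ∑ b, F.P a b x • A b x = A a x)
    {s s' : M → V} (h : ∀ y ∈ S, SA I s y ∧ ∀ a, nab I F.e A a s y = 0)
    (h' : ∀ y ∈ S, SA I s' y ∧ ∀ a, nab I F.e A a s' y = 0) {x : M} (hx : x ∈ C)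
    (e : s x = s' x) : EqOn s s' C := by
  have u : ∀ y ∈ S, s y = s' y → s =ᶠ[𝓝 y] s' := fun y hy => par_uniq (F := F) (A := A)
    (mem_of_superset (hS.mem_nhds hy) fun z hz a => ⟨sA a z hz, pA a z hz⟩)
    (mem_of_superset (hS.mem_nhds hy) h) (mem_of_superset (hS.mem_nhds hy) h')
  have k := hC.subset_left_of_subset_union (u := {y | ∀ᶠ z in 𝓝 y, s z = s' z})
    (v := {y | ∀ᶠ z in 𝓝 y, ¬ s z = s' z}) isOpen_setOfPred_eventually_nhds
    isOpen_setOfPred_eventually_nhds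
    (disjoint_left.2 fun y a b => (b.self_of_nhds) a.self_of_nhds)
    (fun y hy => by
      by_cases q : s y = s' y
      · exact Or.inl (u y (hCS hy) q)
      · exact Or.inr (((h y (hCS hy)).1.continuousAt.prodMk
          (h' y (hCS hy)).1.continuousAt).eventually (isClosed_diagonal.isOpen_compl.mem_nhds q)))
    ⟨x, hx, u x (hCS hx) e⟩
  exact fun y hy => (k hy).self_of_nhds

end Crest.Agent.X212.Dfl49
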