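import Crest.Agent.X212.Dfl49.Ex
import Crest.Agent.X212.Clr59.Ys

/-!
# Row 212, DFLAT (helper49), file 19: limits and parallel unit sections of flat fillers
-/

set_option autoImplicit false
set_option linter.unusedSectionVars false
noncomputable section
open Set Function Filter Topology
open scoped ContDiff Manifold InnerProductSpace

namespace Crest.Agent.X212.Dfl49
open An Sob92 Pj41 Tmp64 Cyf70 Nd18 Wz78
open Clr59 (PS Ad ps_iso ps_par ad_cy)
open Rf65 (ParY dz)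
open Bki64 (IsEnd)

variable {E3 : Type} [NormedAddCommGroup E3] [NormedSpace ℝ E3] [FiniteDimensional ℝ E3]
  [MeasurableSpace E3] [BorelSpace E3]
  {H3 : Type} [TopologicalSpace H3] {I3 : ModelWithCorners ℝ E3 H3} [I3.Boundaryless]
  {Y : Type} [TopologicalSpace Y] [ChartedSpace H3 Y] [IsManifold I3 ∞ Y] [T2Space Y]
  [MeasurableSpace Y] [BorelSpace Y] [SecondCountableTopology Y] [CompactSpace Y]
  {κ : Type} [Fintype κ] {lam : Type} [Fintype lam] {D : YD I3 Y κ lam} {β : YC Y κ lam}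
  {r : ℕ} {T : Set ℝ}
  {E : Type} [NormedAddCommGroup E] [NormedSpace ℝ E] [FiniteDimensional ℝ E]
  [MeasurableSpace E] [BorelSpace E]
  {HM : Type} [TopologicalSpace HM] {I : ModelWithCorners ℝ E HM} [I.Boundaryless]
  {M : Type} [TopologicalSpace M] [ChartedSpace HM M] [IsManifold I ∞ M] [MeasurableSpace M]
  [T2Space M] [BorelSpace M]
  {B : Base M (Option κ) lam} {G : Geo I M (Option κ) lam} {K : Nk D B G} {S : Set M}
  {c : Cfg M (Option κ) lam r} {l : Filter ℝ} {v : Y × ℝ → CL c.m.V β.m.V}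

theorem adm_pb (a : c.Adm B G) (h : T ⊆ K.J) : AdmOn (K.pb c) D.B D.G (univ ×ˢ T) :=
  (One97.admOn_pb K isOpen_univ (admOn_univ.2 a)).mono (nk_maps h (subset_univ _))

theorem lims_pi (hβ : Rdc90.Bs D β) (a : c.Adm B G) (hT : IsOpen T) (hm : T ∈ l) (h : T ⊆ K.J)
    (f : Fz D.Z (K.pb c) (univ ×ˢ T)) (p : PI D.Z (K.pb c) (cy β) (univ ×ˢ T) v) (ζ : Circle) :
    K.Lim c β ζ l ∧ ∀ d, K.ELim d c β ζ l :=
  have k : ∀ T' ⊆ T, IsOpen T' → ∀ k η, 0 ≤ η → D.Cls (K.pb c) β v ζ T' k η := fun _ s o k _ hη =>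
    ((p.mono (prod_mono_right s)).cl (isOpen_univ.prod o) (f.mono (prod_mono_right s))
      (fun x _ => hβ.zr x.1) _ k hη).cls hβ.adm o (adm_pb a (s.trans h))
  ⟨⟨v, fun j η hη => ⟨T, hm, h, k T Subset.rfl hT j η hη.le⟩⟩, fun _ => ⟨v, T, hm, h,
    k T Subset.rfl hT 0 1 zero_le_one, fun j => ⟨0, fun _ hs => k _ hs isOpen_Ioo j _ (zero_mul _).ge⟩⟩⟩

theorem pi_std [l.NeBot] (hβ : Rdc90.Bs D β) (hl : IsEnd l) (hS : IsOpen S) (a : c.Adm B G)
    (f : Fz G.F c S) (hT : IsOpen T) (hc : T.OrdConnected) (hm : T ∈ l) (h : T ⊆ K.J)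
    (k : K.tm ⁻¹' T ⊆ S) (H : K.Std c β 1 l) : ∃ v, PI D.Z (K.pb c) (cy β) (univ ×ˢ T) v :=
  let ⟨_, _, s1, s2, s3⟩ := H
  have a' := adm_pb a s2
  (lim_pi hβ.ok hβ.adm hl hS ((admOn_univ.2 a).mono (subset_univ _)) f hT hc hm h k
    (lims_pi hβ a (s3.op.inter hT) (inter_mem s1 hm) (inter_subset_right.trans h)
      ((f.pb h k).mono (prod_mono_right inter_subset_right))
      ((pi_of_cl (Bki64.cl_of_cls hβ.adm a' s3) a').mono (prod_mono_right inter_subset_left)) 1).1).2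

theorem unit_par [ConnectedSpace Y] (hβ : Rdc90.Bs D β) (h : dz D β ≠ 0) :
    ∃ ξ, ParY D β ξ ∧ ∀ y, ‖ξ y‖ = 4 := by
  have := Module.nontrivial_of_finrank_pos (Nat.pos_of_ne_zero fun e => h (Clr59.dz_def.trans e))
  obtain ⟨⟨ξ, p⟩, n⟩ := exists_ne (0 : Clr59.parS D β)
  obtain ⟨y, hy⟩ := ne_iff.1 fun e : ξ = 0 => n (Subtype.ext e)
  refine ⟨_, (Clr59.parS D β).smul_mem (4 / ‖ξ y‖) p, fun z => ?_⟩
  rw [Pi.smul_apply, norm_smul, Clr59.norm_par hβ.ok hβ.adm p z y, norm_div, norm_norm,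
    div_mul_cancel₀ _ (norm_ne_zero_iff.2 hy)]
  norm_num

theorem skw_cj {a b : Type} [Fintype a] [Fintype b] {X : En b} (h : Skw X) (v : CL (Eu a) (Eu b)) :
    Skw (Pj41.ad v ∘L X ∘L v) := fun s t => by
  simp only [ContinuousLinearMap.comp_apply]
  rw [inner_ad_left, h, inner_ad_right, real_inner_comm]

theorem un_pi (hB : B.OK I) (hG : G.F.P = B.P) (hβ : Rdc90.Bs D β) (hS : IsOpen S)
    (co : IsPreconnected S) (a : c.Adm B G) (f : ∀ x ∈ S, c.m.Fg G.F c.W x = 0) (hT : IsOpen T)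
    (hn : (K.tm ⁻¹' T).Nonempty) (h : T ⊆ K.J) (k : K.tm ⁻¹' T ⊆ S) (hs : Sur (K.tm ⁻¹' T) S)
    (p : PI D.Z (K.pb c) (cy β) (univ ×ˢ T) v) {ξ : Y → β.m.A} (x : ParY D β ξ)
    (n : ∀ y, ‖ξ y‖ = 4) : ∃ η, ParS G.F c S η ∧ ∀ z ∈ S, ‖η z‖ = 4 := by
  have A := ad_cy hβ.ok hβ.adm
  have q := ps_par hβ.ok hβ.adm x
  have q0 : PI D.Z (cy β) (cy β) univ fun z => opL (ξ z.1) := ⟨q.iso A A isOpen_univ fun z _ =>
    (Std94.inner_hs' _ _).symm.trans ((real_inner_self_eq_norm_sq _).trans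
      ((congrArg (· ^ 2) (n z.1)).trans (by norm_num))), q.par⟩
  have a' := (admOn_univ.2 a).mono (subset_univ S)
  obtain ⟨w, w1, w2⟩ := (((p.trans (q0.mono (subset_univ _))).trans (p.symm (adm_pb a h)
    ((admOn_univ.2 hβ.adm.adm).mono (subset_univ _)))).push h).ext hB hG hS a' a' f f hs
    (hT.preimage K.cont) k
  have C : Ad B G c.W := ⟨hB, hG, a.ok, a.conn⟩
  have u := ps_iso C C hS w1.iso w1.par
  obtain ⟨z, hz⟩ := hn
  have sk : Skw (w z) := w2 hz ▸ skw_cj (g_skw (x.mem _)) _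
  have e := (u.lin u (-2)).eqOn (u.trn C C) C C hS co Subset.rfl (k hz)
    (ContinuousLinearMap.ext fun s => ext_inner_right ℝ fun t => by
      simp [Eqv71.inner_trn, inner_add_left, inner_smul_left, sk s t]; ring)
  refine ⟨fun y => hsL (w y), ⟨fun y hy => (SA.clm hsL (u.sm y hy)).contMDiffWithinAt,
    fun y hy => Std94.Fx.mem_of_itx (u.it y hy) fun s t => ?_, fun b y hy => ?_⟩, fun y hy => ?_⟩
  · have := congrArg (fun S : En _ => ⟪S s, t⟫_ℝ) (e hy)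
    simp [Eqv71.inner_trn, inner_add_left, inner_smul_left] at this
    linarith
  · rw [hsL_nab b (u.sm y hy), nabE, ← add_sub_assoc]
    exact (congrArg _ (u.par y hy b)).trans (map_zero _)
  · have := Std94.hs_of_iso (Std94.pmx a.ok y) (by rw [← ad_trn]; exact (w1.iso.iso y hy).src)
    rw [← Std94.inner_hs, real_inner_self_eq_norm_sq] at this
    nlinarith [norm_nonneg (hsL (w y))]

end Crest.Agent.X212.Dfl49
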