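import Crest.Agent.X212.Dfl49.Cok
import Crest.Agent.X212.Rinv39.Cj

/-!
# Row 212, DFLAT (helper49), file 15: kernel and cokernel in the weighted frame
-/

set_option autoImplicit false
set_option linter.unusedSectionVars false
noncomputable section
open Set Filter Topology MeasureTheory Function
open scoped ContDiff Manifold InnerProductSpace

namespace Crest.Agent.X212.Dfl49
open An Sob92 Wz78 Rdc90 Kah60 Cyf70 Nd18 Map77 Nk89 Ell97

section abs
variable {X Y : ℕ → Type*} [∀ k, NormedAddCommGroup (X k)] [∀ k, InnerProductSpace ℝ (X k)]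
  [∀ k, NormedAddCommGroup (Y k)] [∀ k, InnerProductSpace ℝ (Y k)]
  [∀ k, CompleteSpace (X k)] [∀ k, CompleteSpace (Y k)] (P : Pair X Y)

theorem closed_down (n : ℕ) (h : IsClosed (range (P.L (2 * n)))) : IsClosed (range (P.L 0)) := by
  induction n with
  | zero => exact h
  | succ n ih =>
    have e : ∀ w, P.swap.Q (2 * n) (P.L (2 * n + 2) w) = P.L (2 * n) (P.Q (2 * n + 1) w) := fun w => by
      rw [Half.Q_apply, Half.Q_apply, map_add, ← P.Li, ← P.Li]; rfl
    refine ih ?_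
    rw [show range (P.L (2 * n)) = P.swap.G (2 * n) ⁻¹' range (P.L (2 * n + 2)) from
      Subset.antisymm (by
        rintro _ ⟨u, rfl⟩
        exact ⟨P.G _ u, (P.swap.Q_bij _).1 (by rw [e, P.Q_G, P.swap.Q_G])⟩)
      fun y ⟨w, hw⟩ => ⟨_, (e w).symm.trans (by rw [hw, P.swap.Q_G])⟩]
    exact h.preimage (P.swap.G _).continuous

theorem idx0 (n : ℕ) {d : ℤ} (h : Fred93.Fr (P.L (2 * n)) d) (k1 : ∀ u, P.L 0 u = 0 → u = 0)
    (k2 : ∀ v, P.Ls 0 v = 0 → v = 0) : d = 0 :=
  h.unique (.of_bijective ⟨(injective_iff_map_eq_zero _).2 fun u hu => dn1_inj P.i_inj _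
    ((k1 _ (by rw [P.L_dn1, hu, map_zero])).trans (map_zero _).symm),
    (P.surj_iff (closed_down P n h.1.isClosed_range) _).2 k2⟩)

end abs

variable {E : Type} [NormedAddCommGroup E] [NormedSpace ℝ E] [FiniteDimensional ℝ E]
  [MeasurableSpace E] [BorelSpace E]
  {HM : Type} [TopologicalSpace HM] {I : ModelWithCorners ℝ E HM} [I.Boundaryless]
  {M : Type} [TopologicalSpace M] [ChartedSpace HM M] [IsManifold I ∞ M] [MeasurableSpace M]
  [T2Space M] [BorelSpace M] [SecondCountableTopology M]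

section wt
variable {ι : Type} [Fintype ι] {V W : Type} [NormedAddCommGroup V] [InnerProductSpace ℝ V]
  [FiniteDimensional ℝ V] [NormedAddCommGroup W] [InnerProductSpace ℝ W] [FiniteDimensional ℝ W]
  {F G : Fr I M ι} {ψ : M → ℝ}

/-- weighted decay -/
structure Wd (F : Fr I M ι) (ψ : M → ℝ) (u : M → V) : Prop where
  sm : Sm I u
  int : Integrable (fun x => Real.exp (2 * ψ x) * ‖u x‖ ^ 2) F.μ
  sup : ∃ C, ∀ x, ‖u x‖ ≤ C * Real.exp (-ψ x)

theorem wd_of (w : Wt F G ψ) (hD : ∀ a, F.Cb (F.D a ψ)) {C C' : ℕ → ℝ} (hF : F.Tame C)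
    (hG : G.Tame C') {u : M → V} (hu : Sm I u) (h : FL G.toPre 4 u) : Wd F ψ u := by
  have := FiniteDimensional.complete ℝ V
  obtain ⟨D, hD⟩ := Prm93.Cb_unif hD
  obtain ⟨g, hg⟩ := exists_Is (p := triv M V) (Exh.of_tame hG) hu h fun _ => rfl
  have ac : F.μ ≪ G.μ := by
    rw [w.toWtP.symm.μ]; exact withDensity_absolutelyContinuous _ _
  have hT := w.toWtP.rep_cj 4 (triv M V) hD
  have i : Is F.toPre 4 _ (w.toWtP.cj 4 _ hD g) fun z => Real.exp (ψ z) • u z := by
    obtain ⟨s, h1, h2⟩ := exists_seq_ae g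
    refine ae_eq_of_tendsto (((F.toL2 4 _).continuous.tendsto _).comp
      (((w.toWtP.cj 4 _ hD).continuous.tendsto _).comp h1)) ?_
    filter_upwards [ac.ae_le h2, ac.ae_le hg,
      ae_all_iff.2 fun n => toL2_toH (F := F.toPre) (k := 4) ⟨_, RepT_mem hT (s n)⟩] with y a b c
    have e := fun n => RepT_toH hT (s n)
    simp only [ContinuousLinearEquiv.coe_coe] at e
    simp only [comp_apply, e, c]
    exact (b ▸ a).const_smul _
  have n := norm_val_le (Sup.of_tame hF) le_rfl (w.toWtP.cj 4 _ hD g)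
  simp only [i.val_eq (Sup.of_tame hF) le_rfl ((sm_exp w.sm).smul hu).continuous, norm_smul,
    Real.norm_of_nonneg (Real.exp_pos _).le, ← le_div_iff₀' (Real.exp_pos _), div_eq_mul_inv,
    ← Real.exp_neg] at n
  refine ⟨hu, ?_, _, n⟩
  simpa only [norm_smul, mul_pow, Real.norm_eq_abs, sq_abs, ← Real.exp_nat_mul, Nat.cast_ofNat]
    using (memLp_two_iff_integrable_sq_norm i.memLp.1).1 i.memLp

/-- the index vanishes if there are no decaying solutions -/
theorem idx_wd (w : Wt F G ψ) (hD : ∀ a, F.Cb (F.D a ψ)) {C C' C'' : ℕ → ℝ} (hF : F.Tame C)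
    (hG : G.Tame C') {A : Op M ι V W} (hA : A.Good G C'') (hc : A.Cliff G) {d : ℤ}
    (h : Fred93.Fr (A.H G 8) d)
    (k1 : ∀ u, Wd F ψ u → (∀ x, A.p x (u x) = u x) → A.app G u = 0 → u = 0)
    (k2 : ∀ v, Wd F ψ v → (∀ x, A.q x (v x) = v x) → (A.adj G).app G v = 0 → v = 0) : d = 0 := by
  refine idx0 (par hG hA hc) 4 h (fun x hx => ?_) fun x hx => ?_
  · obtain ⟨u, h1, h2, h3, h4, h5⟩ := Rinv39.solve hG hA hc.1 (x := x) (h := 0) contMDiff_const
      (fun j => FL_of_hcs j contMDiff_const .zero) (fun _ => map_zero _)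
      ((show A.H G 0 x = 0 from hx) ▸ Is.zero)
    exact (k1 u (wd_of w hD hF hG h1.choose_spec.1 (h2 4)) h3 h5 ▸ h4).unique Is.zero
  · obtain ⟨u, h1, h2, h3, h4, h5⟩ := Rinv39.solve hG (good_adj hG hA).choose_spec hc.2 (x := x)
      (h := 0) contMDiff_const (fun j => FL_of_hcs j contMDiff_const .zero) (fun _ => map_zero _)
      ((show (A.adj G).H G 0 x = 0 from hx) ▸ Is.zero)
    exact (k2 u (wd_of w hD hF hG h1.choose_spec.1 (h2 4)) h3 h5 ▸ h4).unique Is.zero

theorem wt_rem (w : Wt F G ψ) : Wt F (rem F G.toPre) ψ :=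
  ⟨⟨w.sm, rfl, w.μ⟩, rfl, rfl, fun a x => (Met55.dvg_eq isOpen_univ (fun y _ => F.sm a y)
    (fun f h1 h2 _ => w.e ▸ G.ibp a f h1 h2) (fun y _ => G.dv_sm a y) (mem_univ x)).trans (w.dv a x)⟩

variable {κ : Type} [Fintype κ] [DecidableEq κ] {d : Bd M ι κ} {Γ : ι → ι → ι → M → ℝ}
  {W : ι → M → En κ}

theorem cpw (C : Cp d F Γ W) (h : Wt F G ψ) : Cp d G Γ W :=
  ⟨C.ok, h.P.trans C.P, by rw [h.e, h.P, h.c]; exact C.lc, C.so, C.sρ, C.sg, C.ssp, C.ssm,
    h.P ▸ C.con, C.sk, h.e ▸ C.g, h.e ▸ C.sp, h.e ▸ C.sm, h.e ▸ C.ρ⟩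

theorem dft_wt (h : Wt F G ψ) (hR : Riem F) (a : ι) (x : M) :
    dft G F.Gam a x = F.D a (fun y => 2 * ψ y) x := by
  rw [dft, h.dv, ← hR.hg (lc_gam F), add_sub_cancel_left]
  exact (congrFun (F.D_smul h.sm 2 a) x).symm

end wt

variable {E3 : Type} [NormedAddCommGroup E3] [NormedSpace ℝ E3] [FiniteDimensional ℝ E3]
  [MeasurableSpace E3] [BorelSpace E3]
  {H3 : Type} [TopologicalSpace H3] {I3 : ModelWithCorners ℝ E3 H3} [I3.Boundaryless]
  {Y : Type} [TopologicalSpace Y] [ChartedSpace H3 Y] [IsManifold I3 ∞ Y] [T2Space Y]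
  [MeasurableSpace Y] [BorelSpace Y] [SecondCountableTopology Y] [CompactSpace Y]
  {κ : Type} [Fintype κ] {lam : Type} [Fintype lam] {D : YD I3 Y κ lam}
  {B : Base M (Option κ) lam} {G : Geo I M (Option κ) lam} {K : Nk D B G} {σ T δ : ℝ}
  {S O : Set M} {m : Md M (Option κ) lam} {W : m.Cn} {G' : Fr I M (Option κ)} {ψ : M → ℝ}

variable (K σ T δ S O W G' ψ) in
/-- a flat connection on a piece with one end, with a weight -/
structure Fw : Prop where
  one : One K σ T S
  hB : B.OK I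
  hG : G.OK B
  H : m.OK I B
  c : m.IsConn B G W
  fl : ∀ x ∈ S, m.Fg G.F W x = 0
  w : Wt G.F G' ψ
  cO : IsClopen O
  sub : O ⊆ S
  d0 : 0 < δ
  hψ : ∀ x, T < σ * K.tm x → ψ x = δ * (σ * K.tm x)

namespace Fw
variable (h : Fw K σ T δ S O W G' ψ)
include h

theorem cp : Cp (ind (bdOf B m) S O) G.F G.F.Gam W :=
  (cp_of h.hB h.hG h.H h.c).ind h.one.clopen h.cO

theorem dcy {V : Type} [NormedAddCommGroup V] [InnerProductSpace ℝ V] {u : M → V}
    (k : Wd G.F ψ u) : ∃ C, Dcy K σ T δ C u :=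
  k.sup.imp fun C hC x hx => by rw [neg_mul, ← h.hψ x hx]; exact hC x

/-- **KER** in the weighted frame -/
theorem ker (hp : ∀ x ∈ S, ∃ e > 0, Lns95.PosP B G e x) (hs : Sur (K.tm ⁻¹' Te σ T) S)
    (u : M → Cf (Option κ) (Fin m.N)) (k : Wd G.F ψ u)
    (pu : ∀ x, (ind (bdOf B m) S O).pC x (u x) = u x)
    (e : ((ind (bdOf B m) S O).full G' (base W 0)).app G' u = 0) : u = 0 := by
  have cp := cpw h.cp h.w
  have R := riem_of_vol h.hG.vol
  obtain ⟨C, d⟩ := h.dcy k
  have p1 := fun x => h.cp.P_fa (pu x)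
  have n : ∀ x, ‖fa (u x)‖ ≤ ‖u x‖ ∧ ‖fp (u x)‖ ≤ ‖u x‖ := fun x =>
    ⟨WithLp.norm_fst_le _ _, WithLp.norm_snd_le _ _⟩
  have a := h.one.reg h.hB h.hG h.H h.c h.fl (α := fun x => fa (u x)) (fun x _ => SA.clm fa (k.sm x))
    (fun x hx => by simpa [ind, hx] using! p1_of (pu x)) h.d0 (fun x hx => (n x).1.trans (d x hx))
    (fun x hx => by
      have := congrArg (fun v => s2 _ _ (s2 _ _ v)) (congrFun e x)
      simp only [cp.full_crv (k.sm x) pu, Pi.zero_apply, map_zero, h.w.e] at this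
      simpa [ed_cov (α := fun a y => fa (u y) a) (lc_gam G.F) (p1 x), rk1, ind, hx] using! this) hs
    (w := fun y => 2 * ψ y) (fun x _ => (contMDiff_const.mul h.w.sm) x) fun x _ => by
      have := congrArg (fun v => f2 _ _ v) (congrFun e x)
      simp only [cp.full_row (k.sm x) pu, Pi.zero_apply, map_zero, dft_wt h.w R, h.w.e] at this
      rw [dv1_cov (lc_gam G.F) (frm G.F) (fun k => dv_gam h.hG.vol x k) (p1 x)]
      simpa [rk1] using! this
  have z : ∀ x ∉ O, fp (u x) = 0 := fun x hx => by rw [← sp_of (pu x)]; simp [ind, hx]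
  have b := h.one.dir0 h.hB h.hG h.H h.c (fun x hx => by rw [h.fl x hx, map_zero]) hp
    (φ := fun x => fp (u x)) (fun x _ => SA.clm fp (k.sm x)) (fun x _ => by
      by_cases hx : x ∈ O
      · simpa [ind, hx] using! sp_of (pu x)
      · rw [z x hx, map_zero]) h.d0 (fun x hx => (n x).2.trans (d x hx))
    fun x _ => by
      have := congrArg (fun v => f2 _ _ (s2 _ _ v)) (congrFun e x)
      simpa [cp.full_dir (k.sm x) pu, h.w.e] using! this
  funext x
  by_cases hx : x ∈ S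
  · exact ext2 (a x hx) (b x hx)
  · exact ext2 (by rw [← p1_of (pu x)]; exact fm_ext fun a => by simp [ind, hx, Map77.idx_apply])
      (z x fun k => hx (h.sub k))

theorem kf {x : M} (hx : x ∈ S) (f0 : ∀ s, fL B G x s = 0) : KF (ind (bdOf B m) S O) G.F W x :=
  fun z hz => by
    have := kA_flat h.hB h.hG h.H h.c (d := ind (bdOf B m) S O) rfl (h.fl x hx) f0 z (z := z)
      (by simpa [ind, hx] using! g_of hz) (fun s => by
        have := h.cp.ok.g_p2 x (s2 _ _ (s2 _ _ z)) s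
        rw [p2_of hz] at this
        simpa [ind, hx] using! this) (by
        rw [← sm_of hz]
        by_cases k : x ∈ O
        · simp only [ind, indicator_of_mem k, bdOf]
          rw [← mul_apply_eq_comp, p_pm h.H]
        · simp [ind, k])
    rw [this, real_inner_self_eq_norm_sq, real_inner_self_eq_norm_sq, PiLp.norm_sq_eq_of_L2]

variable {τ : Option κ → M → ℝ} {u : M → ℝ} {μ₀ c : ℝ} (hc : ∀ x ∈ S, CP G.F τ u μ₀ x)
  (f0 : ∀ x ∈ S, ∀ s, fL B G x s = 0) (h8 : 8 * δ ≤ μ₀)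
include hc f0 h8

theorem pos (x : M) (hx : x ∈ S) : ∃ e > 0, Lns95.PosP B G e x :=
  ⟨μ₀ ^ 2 / 2, by have := h.d0; have : 0 < μ₀ := by linarith
                  positivity, by
    have := (hc x hx).sc_ge h.cp (by linarith [h.d0])
    simp only [Lns95.PosP, Lns95.Pos, Lns95.sdn, f0 x hx]
    simp; linarith⟩

/-- **COK** in the weighted frame -/
theorem cok (co : IsPreconnected S) (ne : ∀ R, ∃ x, R < σ * K.tm x) (hψ : ∀ x ∈ S, ψ x ≤ δ * u x + c)
    (y : M → Tg (Option κ) (Fin m.N)) (k : Wd G.F ψ y)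
    (pu : ∀ x, ps (ind (bdOf B m) S O).g (ind (bdOf B m) S O).pE x (y x) = y x)
    (e : (((ind (bdOf B m) S O).full G' (base W 0)).adj G').app G' y = 0) : y = 0 := by
  have := openPos G.F.toPre
  have cp := cpw h.cp h.w
  have R := riem_of_vol h.hG.vol
  obtain ⟨C, d⟩ := h.dcy k
  obtain ⟨χ, hχ, _, c2⟩ := h.one.cut
  have s2ψ : Sm I fun y => 2 * ψ y := contMDiff_const.mul h.w.sm
  have q := fun x => Cp.adj_eqs cp (k.sm x) pu
  simp only [e, Pi.zero_apply, map_zero, PiLp.zero_apply, dft_wt h.w R, h.w.e, zero_eq_neg] at q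
  have g : ∀ x ∈ S, m.pg x (cξ y x) = cξ y x := fun x hx => by simpa [ind, hx] using! g_of (pu x)
  have p := fun x hx => Cp.xi_par h.cp R hχ (fun x _ => k.sm x) pu (fun x _ => s2ψ x)
    (fun x hx a b => by
      rw [h.cp.curv_adw, adc_curv_g h.hB h.hG h.H h.c a b (g x hx), h.fl x hx]; simp [adc_apply])
    (fun x _ => (q x).1) (small_of_int hχ h.one.op c2 (k.int.integrableOn.mono'
      (((sm_exp s2ψ).continuous.mul (continuous_finsetSum _ fun s _ => (Continuous.norm
        (continuous_iff_continuousAt.2 fun x => (sa_cη (k.sm x) s).continuousAt)).pow 2)).aestronglyMeasurable)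
      (.of_forall fun x => by
        rw [Real.norm_of_nonneg (by positivity), nrm_Tg]
        exact mul_le_mul_of_nonneg_left (le_add_of_nonneg_left (by positivity)) (Real.exp_pos _).le)))
    (x := x) hx
  have h0 : ∀ x ∈ S, cξ y x = 0 := fun x hx => by
    refine norm_le_zero_iff.1 (le_of_forall_pos_le_add fun ε hε => ?_)
    obtain ⟨L, l1, l2, l3⟩ := h.one.cpt_of h.d0 d ε hε
    obtain ⟨r, hr⟩ := l1.bddAbove_image (continuous_const.mul K.cont (f := fun _ => σ)).continuousOn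
    obtain ⟨z, hz⟩ := ne (max r T)
    have zs := h.one.sub ((le_max_right _ _).trans_lt hz)
    have := const_on G.F.toPre (h := fun x => ⟪cξ y x, cξ y x⟫_ℝ) h.one.op co (fun x hx =>
      ⟨((sa_cξ (k.sm x)).inner (sa_cξ (k.sm x))).md, fun a => by
        rw [Pre.D_def, dv_inner a (h.cp.skew_adw a x) (sa_cξ (k.sm x)) (sa_cξ (k.sm x)), p x hx]
        simp⟩) hx zs
    simp only [real_inner_self_eq_norm_sq, sq_eq_sq₀ (norm_nonneg _) (norm_nonneg _)] at this
    rw [this, zero_add]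
    exact (WithLp.norm_fst_le _ _).trans (l3 z zs fun k =>
      ((le_max_left _ _).trans_lt hz).not_ge (hr ⟨z, k, rfl⟩))
  let φ : M → ℝ := fun x => Real.exp (2 * ψ x - δ * u x)
  have s1 : ∀ x ∈ S, SA I (fun x => 2 * ψ x - δ * u x) x := fun x hx =>
    (s2ψ x).sub (SA.mul contMDiffAt_const (hc x hx).su)
  have sφ : ∀ x ∈ S, SA I φ x := fun x hx =>
    Real.contDiff_exp.contMDiff.contMDiffAt.comp x (s1 x hx)
  have dφ : ∀ x ∈ S, ∀ a, G.F.D a φ x =
      φ x * (G.F.D a (fun y => 2 * ψ y) x - δ * G.F.D a u x) := fun x hx a => by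
    simp only [φ, Pre.D_def]
    rw [dv_comp (s1 x hx).md (Real.hasDerivAt_exp _).hasFDerivAt,
      dv_sub' (s2ψ x) (SA.mul contMDiffAt_const (hc x hx).su),
      dv_mul contMDiffAt_const (hc x hx).su]
    simp [mul_comm]
  have z := fun x hx => cok_core h.cp R hχ (y := fun x => φ x • y x)
    (fun x hx => (sφ x hx).smul (k.sm x)) (fun x => by rw [map_smul, pu]) hc
    (fun x hx => h.kf hx (f0 x hx)) h.d0 h8 (fun x hx => by simp [cξ, h0 x hx])
    (fun x hx j => by
      have := (q x).1 j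
      rw [p x hx, zero_add, smul_eq_zero_iff_right two_ne_zero] at this
      simp only [cov2_smul (sφ x hx) (k.sm x), dφ x hx, ic, Finset.sum_add_distrib, mul_smul,
        ← Finset.smul_sum, sub_smul, smul_sub, Finset.sum_sub_distrib, cη, map_smul,
        PiLp.smul_apply, smul_comm _ (φ x)] at this ⊢
      linear_combination (norm := module) φ x • this)
    (fun x hx => by
      have := (q x).2
      simp only [dir_smul (sφ x hx) (k.sm x), dφ x hx, mul_smul,
        ← Finset.smul_sum, sub_smul, smul_sub, Finset.sum_sub_distrib, cψ, map_smul,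
        smul_comm _ (φ x)] at this ⊢
      linear_combination (norm := module) -φ x • this)
    (small_of_int hχ h.one.op c2 ((k.int.const_mul (Real.exp (2 * c))).integrableOn.mono'
      (ContinuousOn.aestronglyMeasurable (fun x hx => (((sφ x hx).smul
        (k.sm x)).continuousAt.norm.pow 2).continuousWithinAt) h.one.op.measurableSet)
      (ae_restrict_of_forall_mem h.one.op.measurableSet fun x hx => by
        rw [Real.norm_of_nonneg (by positivity), norm_smul, mul_pow, Real.norm_eq_abs, sq_abs,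
          ← mul_assoc, ← Real.exp_add, ← Real.exp_nat_mul]
        exact mul_le_mul_of_nonneg_right (Real.exp_le_exp.2 (by
          push_cast; linarith [hψ x hx])) (sq_nonneg _)))) (x := x) hx
  funext x
  by_cases hx : x ∈ S
  · exact (smul_eq_zero.1 (z x hx)).resolve_left (Real.exp_pos _).ne'
  · have k' : x ∉ O := fun k => hx (h.sub k)
    rw [← pu]
    exact ext2 (by simp [ind, hx]) (ext2 (by simp [ind, k'])
      (fm_ext fun a => by simp [ind, hx, Map77.idx_apply]))

end Fw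

end Crest.Agent.X212.Dfl49
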