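import Crest.Agent.X212.Dfl49.Sud
import Crest.Agent.X212.Cyl58.Dut
import Crest.Agent.X212.Psc4.Main
import Crest.Agent.X212.Eps37.Main

/-!
# Row 212, DFLAT (helper49), file 21: `Rf65.DfStmt` from the abelian part at flat objects
-/

set_option autoImplicit false
set_option linter.unusedSectionVars false
noncomputable section
open Set Filter Topology Function

namespace Crest.Agent.X212.Dfl49
open An M G75 Rf65 Nd18 Cht98
open Wz78 (fL)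

variable {κ lam : Type} [Fintype κ] [Fintype lam] [DecidableEq lam] {Lm : LM κ lam}
  {S : Scene Lm} (R : S.A)

/-- inside `R` the data are a circle times the convex cap of profile `Fn`, with flat lines -/
def PsAt (D : S.Dat) (Fn : ℝ → ℝ) : Prop := ∀ i, DS S i R → ∀ (m c : S.M.Cl) (p : Prm S.A),
  p ∈ S.M.Br c.1 → p ∈ S.M.O c.1 → p.2 R = 1 → Only S.M {a | p.2 a ≠ 0} R false →
  ∃ θ w h C, (∀ z ∈ D.W.φ c '' (S.M.sys.w R).sd false,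
    Rv ((D.Λ i).G m c p).F Fn θ w h z ∧ ∀ s, fL ((D.Λ i).B m c) ((D.Λ i).G m c p) z s = 0) ∧
    ∀ y, ∀ s ∈ Ioo (-1 : ℝ) 0, len 1 false s ≤ h (D.W.nj c R (y, s)) + C

variable (Lm) in
/-- **LEAF D-TA**: the abelian part at flat face objects -/
def DtaStmt (TA : TP Lm) : Prop := ∀ (S : Scene Lm) (D : S.Dat) i Wi r n
  (J : Job Wi (D.Λ i) (S.A ⊕ Unit) S.ls r n) c R j n₀ T Fn h₁, HD J c R j n₀ T → Pf Fn h₁ →
  PsAt R D Fn → ∃ δ₀ > 0, ∀ δ ∈ Ioc 0 δ₀, Sml fun Adm => ∀ σ, H1R J c δ σ Adm R ∅ 0 0 n₀ →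
    ∀ q y, Adm q → FS J c R σ q y → FA J c σ n₀ y R → dz (J.xs R).D (y.β R true) = 1 →
      TA J c δ (shX S {R}) σ q y R

variable {R} in
theorem dixAt {D : S.Dat} {Fn h₁} (p : Pf Fn h₁) (h : PsAt R D Fn) :
    DixAt R D (min dl0 (mu0 Fn / 8)) := fun i Wi A' _ _ _ _ r n J c δ y π hJ d hR hπ e o hδ sp g fl => by
  obtain ⟨θ, w, f, C, k1, k2⟩ := h i d J.m c _ g.br g.O (g.br.2 hR) o
  have z : ∀ P' ⊆ {π}, ix δ y {π} P' = 0 := fun P' s => ix_zero hJ d hR hπ e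
    (o.mono fun a ha k => one_ne_zero ((g.br.2 ha).symm.trans k)) hδ.1 (hδ.2.trans (min_le_left _ _))
    g fl p (by linarith [hδ.2.trans (min_le_right _ _)]) k1 k2 s (sp.ex y _ _ (fun _ k => k ▸ hπ) s g)
  have z1 := z ∅ (empty_subset _)
  have z2 := z _ Subset.rfl
  simp only [ix, finsum_mem_singleton, finsum_mem_empty, add_zero] at z1 z2
  exact ⟨z1, by rwa [z1, zero_add] at z2⟩

/-- **RF-DF** -/
theorem df {TA : TP Lm} (ry : RyStmt Lm)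
    (wl : ∀ {Y : Mf 3} [CompactSpace Y.M] [ConnectedSpace Y.M] (D : YD Y.I Y.M κ (lam ⊕ lam)), WlStmt D)
    (ta : DtaStmt Lm TA) : DfStmt Lm TA := fun S R i₀ hS d β => by
  obtain ⟨β', h1, Fn, h₁, p, h2⟩ := Psc4.psc Lm S R i₀ β hS d
  refine ⟨β', h1, fun D e1 e2 i Wi r n J c j n₀ T d g hR pj => ?_⟩
  have m0 : 0 < min dl0 (mu0 Fn / 8) := lt_min dl0_pos (by linarith [mu0_pos Fn])
  obtain ⟨θ, ϖ, rw⟩ := g.ri.rw
  have a := fun δ hδ sp => dfAt (δ := δ) g.gx d hR (ry S D i Wi r n J R θ ϖ hS g.gx.ok rw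
    (g.gx.nil R nofun)).1.2 (dixAt p (h2 D e1 e2)) hδ sp
  by_cases c1 : c.1 = {R}
  · have h : HD J c R j n₀ T := ⟨d, g, c1, pj⟩
    obtain ⟨δ₀, d0, k⟩ := ta S D i Wi r n J c R j n₀ T Fn h₁ h p (h2 D e1 e2)
    refine ⟨min δ₀ _, lt_min d0 m0, fun δ hδ => ⟨a δ ⟨hδ.1, hδ.2.trans (min_le_right _ _)⟩, fun _ =>
      ((k δ ⟨hδ.1, hδ.2.trans (min_le_left _ _)⟩).and
        (Eps37.eps J g.gx.ok g.gx.loc.bas 1 one_pos)).mono fun Adm ⟨t, e⟩ => ?_⟩⟩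
    have inj := Cqn41.Pd.inj h
    exact ⟨Cqn41.Pd.par h inj (sur h (have := J.conn_xs R; wl _)) e, fun σ => Cyl58.Duq.inL TA h inj e (t σ)⟩
  · exact ⟨_, m0, fun δ hδ => ⟨a δ hδ, fun k => (c1 k).elim⟩⟩

end Crest.Agent.X212.Dfl49
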