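import Crest.Agent.X212.Dfl49.Tk2
import Crest.Agent.X212.Dfl49.Df
import Crest.Agent.X212.Eps37.Dw
import Crest.Agent.X212.Nt66.Ln
import Crest.Agent.X212.Abx52.Lv

/-!
# Row 212, DFLAT (helper49), file 23: the inner kernel of a chart at a flat face object
-/

set_option autoImplicit false
set_option linter.unusedSectionVars false
noncomputable section
open Set Filter Topology MeasureTheory Function
open scoped ContDiff Manifold InnerProductSpace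

namespace Crest.Agent.X212.Dfl49
open An Sob92 Wz78 Map77 Nk89 Mod61 Nd18 M Rf65 Pte3 Nt66 Cht98
open An.Job (Sol SolOn)
open Dgr80 (LB)

section fam
variable {κ lam : Type} [Fintype κ] [Fintype lam] {Z : Mf 4} {T : Type} [NormedAddCommGroup T]
  [NormedSpace ℝ T] {𝔉 : Fam Z.I Z.M (Option κ) lam T} {δ : ℝ} {o : Ref 𝔉} {r : ℕ}
  {x : Pnt o r} {Ω : Set Z.M} {Y : Mf 3} [CompactSpace Y.M] {D : YD Y.I Y.M κ lam}
  {K : Nk D 𝔉.B (𝔉.G x.t)} {σ T₀ : ℝ} {α : Z.M → Fm (Option κ) o.m.A}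

section gauge
variable {B : Base Z.M (Option κ) lam} {G : Geo Z.I Z.M (Option κ) lam} {m : Md Z.M (Option κ) lam}
  {W W' : m.Cn} {z : Z.M}

theorem dir_loc {u φ : Z.M → m.V} {s : ℝ} (e : W' = W) (h : u =ᶠ[𝓝 z] fun z => s • φ z)
    (hφ : SA Z.I φ z) : dir Z.I G.F.e m.ρ W' u z = s • dir Z.I G.F.e m.ρ W φ z := by
  simp only [dir, e, nab_congr _ h, nab_csmul _ s hφ, map_smul, Finset.smul_sum]

theorem mu_z {v : m.V} (h : v = 0) : m.mu B z v v = 0 := by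
  simp [h, Md.mu, ← Wz78.qL_apply, WithLp.toLp_zero, Pi.zero_def.symm]

theorem posP (hB : B.OK Z.I) (hG : G.OK B) (H : m.OK Z.I B) (c : m.IsConn B G W) {τ u μ₀}
    (h : CP G.F τ u μ₀ z) (h0 : 0 ≤ μ₀) (f0 : ∀ s, fL B G z s = 0) :
    Lns95.PosP B G (μ₀ ^ 2 / 2) z := by
  have := h.sc_ge (cp_of hB hG H c) h0
  simp only [Lns95.PosP, Lns95.Pos, Lns95.sdn, f0]
  simp; linarith

end gauge

/-- **KC** in a family -/
theorem kc_fam (X : Ends 𝔉 δ) (one : One K σ T₀ Ω) (hs : Sur (K.tm ⁻¹' Te σ T₀) Ω)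
    (hψ : ∀ z, T₀ < σ * K.tm z → X.ψ z = δ * (σ * K.tm z))
    (fl : ∀ z ∈ Ω, o.m.Fg (𝔉.G x.t).F x.cfg.W z = 0) (hα : α ∈ Mod61.Hs 𝔉.F0.toPre o.P1)
    (h0 : ∀ z ∉ Ω, α z = 0) (cl : ∀ z ∈ Ω, dF (m := o.m) (𝔉.G x.t) x.cfg.W (tl x α) z = 0)
    (e : Nk89.row 8 x (ofV _ 9 _ α, 0) = 0) : α = 0 := by
  have h := X.ok
  have n := nice_tl (x := x) h hα
  have pα := ((Grp76.hs_iff h).1 hα).2
  obtain ⟨w, sw, hw⟩ := kc_row h hα e
  obtain ⟨C, hC⟩ := (wd_of X.wt X.dψ X.tame.choose_spec h.tame.choose_spec n.sm (n.2 4)).sup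
  have k := one.reg h.B (h.G _ x.ht) o.ok (x.ad0 h).conn fl (α := tl x α) (fun z _ => n.sm z)
    (fun z _ => fm_ext fun a => by
      simp only [Md.p1, Wz78.idx_apply, pg_of_mem (tl_mem h hα z _)]
      simp only [tl, Wz78.idx_apply, Finset.smul_sum, smul_smul]
      rw [Finset.sum_comm]
      simp only [← Finset.sum_smul, h.PS _ x.ht]) X.δ0 (C := C)
    (fun z hz => by rw [neg_mul, ← hψ z hz]; exact hC z)
    (fun z hz => (congrArg _ (cl z hz)).trans (map_zero _)) hs (fun z _ => sw z) fun z _ => hw z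
  refine funext fun z => (em (z ∈ Ω)).elim (fun hz => fm_ext fun a => ?_) (h0 z)
  have e1 : ∑ c, 𝔉.Si x.t z a c • tl x α z c = 0 := by simp [k z hz]
  simp only [tl, Wz78.idx_apply, Finset.smul_sum, smul_smul, ContinuousLinearMap.id_apply] at e1
  rw [Finset.sum_comm] at e1
  simp only [← Finset.sum_smul, h.SiS _ x.ht] at e1
  exact (idx_sum (pα z) a).symm.trans e1

end fam

section job
variable {Wi : Type} {X : Mf 4} {A κ lam : Type} [Fintype A] [Fintype κ] [Fintype lam]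
  [DecidableEq lam] {M : Mark X A κ} {W : World M} {N : ML M lam} {Λ : Lns W N}
  {A' h : Type} [Fintype A'] [DecidableEq A'] [Fintype h] {r n : ℕ}
  {J : Job Wi Λ A' h r n} {c : M.Cl} {σ : Cel A'} {p : Prt A A' h} {U : Type} [Fintype U] {δ : ℝ}
  {b : Bp J c} {E : EC b p U δ} {q : Wi →₀ ℝ} (Ω : Set (W.Z c).M)
  (g : E.o.C r 8 → E.o.Y n (min r 1) 8) (x : Pnt E.o r)

/-- no kernel of the Dirac rows in `Ω` -/
def KD : Prop := ∀ φ ∈ Mod61.Hs (b.F p U δ).F0.toPre E.o.Pp, (∀ z ∉ Ω, φ z = 0) →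
  (fderiv ℝ g (x.pt 8) (0, ofV _ 9 _ φ, 0)).1 = 0 → φ = 0

/-- no kernel of the curvature and gauge rows in `Ω` -/
def KC : Prop := ∀ α ∈ Mod61.Hs (b.F p U δ).F0.toPre E.o.P1, (∀ z ∉ Ω, α z = 0) →
  (fderiv ℝ g (x.pt 8) (ofV _ 9 _ α, 0, 0)).2.1 = 0 → Nk89.row 8 x (ofV _ 9 _ α, 0) = 0 → α = 0

variable {Ω g x} {π : Reg A} {y : J.Obc c} {ψ : E.K} {ε d sg T₀ : ℝ} {Y : Mf 3} [CompactSpace Y.M]
  {D : YD Y.I Y.M κ (lam ⊕ lam)} {K : Nk D (J.B c) (J.G c (b.θ p U x.t))}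

theorem ker_job (H : CS σ E) (S : SolOn p σ q y) (R : E.RepC y x ψ) (hπ : π ∈ p.P')
    (h0 : ¬y.TF π) (fl : Fl y π) (hg : RepF (EC.tot b p U δ q) g)
    (w : ∀ (x' : Cfg (W.Z c).M (Option κ) (lam ⊕ lam) r) (D : ℝ),
      x'.Adm (J.B c) (J.G c (b.θ p U x.t)) →
      (LB ((J.G c (b.θ p U x.t)).F.μ.restrict (W.pc c π)) (fun z => ‖x'.Φ z‖ ^ 2) D →
        LB ((J.G c (b.θ p U x.t)).F.μ.restrict (W.pc c π))
          (fun z => ‖(J.τ c q (b.θ p U x.t)).D x' z‖ ^ 2) (ε ^ 2 * D)) ∧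
      ((∀ z ∈ W.pc c π, x'.Φ z = 0) → LB ((J.G c (b.θ p U x.t)).F.μ.restrict (W.pc c π))
          (fun z => ‖x'.m.Fg (J.G c (b.θ p U x.t)).F x'.W z‖ ^ 2) D →
        LB ((J.G c (b.θ p U x.t)).F.μ.restrict (W.pc c π))
          (fun z => ‖(J.τ c q (b.θ p U x.t)).C x' z‖ ^ 2) (ε ^ 2 * D)))
    (e1 : 4 * ε ^ 2 < d) (e2 : ε ^ 2 ≤ 1 / 8)
    (hp : ∀ z ∈ W.pc c π, Lns95.PosP (J.B c) (J.G c (b.θ p U x.t)) d z)
    (one : One K sg T₀ (W.pc c π)) (hs : Sur (K.tm ⁻¹' Te sg T₀) (W.pc c π))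
    (hψ : ∀ z, T₀ < sg * K.tm z → H.ee.ψ z = δ * (sg * K.tm z)) :
    KD (W.pc c π) g x ∧ KC (W.pc c π) g x := by
  obtain ⟨u, ζ, k, -⟩ := R.e
  have F := H.F
  have cl := one.clopen
  have s1 : W.pc c π ⊆ W.un c p.P' := fun z hz => mem_un.2 ⟨π, hπ, hz⟩
  have s2 := s1.trans (un_sub H.pok)
  have sm := H.same S R.s k (H.pok.sub hπ)
  have f0 := sm.flat.1 fl
  have z0 : ∀ z ∈ W.pc c π, (E.o.Φ0 + x.φ) z = 0 := fun z hz => by_contra fun e => h0 (sm.sp.2 ⟨z, hz, e⟩)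
  have zr := H.zr S R.s k
  have nz := H.nz S R.s k
  have ad : ∀ {α φ} hα hφ s, (ln x (α := α) (φ := φ) hα hφ s).cfg.Adm (J.B c) (J.G c (b.θ p U x.t)) :=
    fun hα hφ s => let a := (ln x hα hφ s).ad0 F; ⟨a.ok, a.conn, a.sm, a.pos, nz⟩
  refine ⟨fun φ hφ a1 a2 => ?_, fun α hα a1 a2 a3 => ?_⟩
  · have d1 := (ContinuousLinearMap.fst ℝ _ _).hasFDerivAt.comp_hasDerivAt 0
      (der_ln F x (zero_mem _) hφ hg.1)
    rw [ofV_zero (sup0 F) (by norm_num)] at d1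
    have eΦ : ∀ (s : ℝ), ∀ z ∈ W.pc c π, (ln x (zero_mem _) hφ s).cfg.Φ z = s • φ z := fun s z hz =>
      (ln_Φ x _ hφ s z).trans ((congrArg (· + _) (z0 z hz)).trans (zero_add _))
    refine kd_fam F cl e1 hp f0 hφ a1 (d1.congr_deriv a2)
      (τ := fun s => (J.τ c q (b.θ p U x.t)).D (ln x (zero_mem _) hφ s).cfg) (fun z hz => ?_)
      (fun s z hz => ?_) fun s D hD => (w _ D (ad _ hφ s)).1 (Eps37.lb_congr cl.2.measurableSet
        (fun z hz => congrArg (‖·‖ ^ 2) (eΦ s z hz)) hD)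
    · refine (congrFun (hg.2 _).D z).trans ((indicator_of_mem (s1 hz) _).trans ?_)
      rw [ln_zero]
      exact zr.D z (s1 hz)
    · refine (congrFun (hg.2 _).D z).trans ((indicator_of_mem (s1 hz) _).trans
        (((tot_ev _).1 z).trans (congrArg (· - _) ?_)))
      exact dir_loc (m := E.o.m) (congrArg (E.o.W x.t) (by simp [ln]))
        (mem_of_superset (cl.2.mem_nhds hz) (eΦ s)) (((Grp76.hs_iff F).1 hφ).1.sm z)
  · have d1 := ((ContinuousLinearMap.fst ℝ _ _).comp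
      (ContinuousLinearMap.snd ℝ _ _)).hasFDerivAt.comp_hasDerivAt 0 (der_ln F x hα (zero_mem _) hg.1)
    rw [ofV_zero (sup0 F) (by norm_num)] at d1
    have eΦ : ∀ (s : ℝ), ∀ z ∈ W.pc c π, (ln x hα (zero_mem _) s).cfg.Φ z = 0 := fun s z hz =>
      (ln_Φ x hα _ s z).trans ((congrArg₂ (· + ·) (z0 z hz) (smul_zero s)).trans (zero_add _))
    refine kc_fam H.ee one hs hψ f0 hα a1 (kc_clo H.ee H.lit cl s2 f0 hα (d1.congr_deriv a2)
      (τ := fun s => (J.τ c q (b.θ p U x.t)).C (ln x hα (zero_mem _) s).cfg) (fun z hz => ?_)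
      (fun s z hz => ?_) (fun s D hD => (w _ D (ad hα _ s)).2 (eΦ s) hD) e2) a3
    · refine (congrFun (hg.2 _).C z).trans ((indicator_of_mem (s2 hz) _).trans ?_)
      rw [ln_zero]
      exact zr.C z (s2 hz)
    · refine (congrFun (hg.2 _).C z).trans ((indicator_of_mem (s2 hz) _).trans
        (((tot_ev _).2.1 z).trans (congrArg (· - _) ?_)))
      exact sub_eq_self.2 (mu_z (eΦ s z hz))

end job

open G75 Mp86.St Ins26 Jb7
variable {κ lam : Type} [Fintype κ] [Fintype lam] [DecidableEq lam] {Lm : LM κ lam}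
  {S : Scene Lm} {D : S.Dat} {i : S.L} {Wi : Type} {r n : ℕ}
  {J : Job Wi (D.Λ i) (S.A ⊕ Unit) S.ls r n} {c : S.M.Cl} {R : S.A} {j : ℕ} {n₀ : ℤ} {T : ℝ}
  {U : Type} [Fintype U]

theorem th_W {X : Finset S.A} {a₀ σ q δ} {y : J.Obc c} (g : GX J X a₀ j n₀ T) (hσ : σ ∈ J.𝒦)
    (e : c.1 = {R}) (hy : Sol σ q y) {b : Bp J c} {E : EC b (pW J c (shX S X) σ R) U δ}
    {x : Pnt E.o r} (ov : J.Ov σ c b.s)
    (hs : ∀ a : (pW J c (shX S X) σ R).V, x.t.1 a = y.s a) : b.θ _ U x.t = y.s := funext fun a' => by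
  by_cases v : a' ∈ (pW J c (shX S X) σ R).V
  · exact (θ_eq hs a' v).symm
  rw [θ_off v]
  rcases e' : σ a' with _ | t
  swap
  · exact (ov.1.1 a' t e').trans (hy.cell.1 a' t e').symm
  by_cases w : ∃ x, J.hd a' = some x ∧ x ∈ c.1
  · obtain ⟨x, h1, h2⟩ := w
    exact (Abx52.s_one g.ok hσ ov h1 h2).trans (Abx52.s_one g.ok hσ hy.ov h1 h2).symm
  refine (v ⟨e', fun x h1 h2 => w ⟨x, h1, h2⟩, (em _).imp_right fun h1 => ?_⟩).elim
  obtain ⟨x, h2, rfl⟩ : ∃ x ∈ hard S X, a' = .inl x := by simpa [shX] using h1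
  have h3 : J.hd (.inl x) = some x := by rw [g.hd]; exact if_pos h2
  have := S.M.con
  obtain ⟨ρ, ⟨h4, h5⟩, -⟩ := S.M.sys.existsUnique_inn c.2 (fun k => w ⟨x, h3, k⟩)
    (Abx52.cmp_of g.ok hσ hy.ov h3 e' fun k => w ⟨x, h3, k⟩)
  exact ⟨ρ, eq_hp (e ▸ h4), x, h5, h3⟩

theorem solOn_W {sh σ q} {y : J.Obc c} (e : c.1 = {R}) (h : Sol σ q y) (t : y.Tight)
    (k : J.POK σ c (pW J c sh σ R)) : SolOn (pW J c sh σ R) σ q y :=
  ⟨h.cell, h.inf, h.sol.toAdm, fun _ hz => (hz ((Abx52.un_two e).ge trivial)).elim,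
    fun z _ => h.sol.D z, fun z _ => h.sol.C z, h.sol.S,
    fun i hi => h.cut i ((h.H_eq t.1).ge (Job.unc_of k.pc (k.nb i hi))),
    fun a b ha _ => h.lim a b ha, fun a ha b _ => h.crit a ha b, h.int.integrableOn⟩

/-- **KER**: no inner kernel at a flat face object -/
theorem kerT (h : HD J c R j n₀ T) {Fn h₁} (p : Pf Fn h₁) (ps : PsAt R D Fn) :
    Sml fun Adm => ∀ σ ∈ J.𝒦, ∀ δ q y, Adm q → FS J c R σ q y →
      ∀ (U : Type) [Fintype U] (b : Bp J c) (E : EC b (pW J c (shX S {R}) σ R) U δ) x ψ,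
        CS σ E → E.RepC y x ψ → ∀ g, RepF (EC.tot b _ U δ q) g →
          KD (D.W.pc c (hp R false)) g x ∧ KC (D.W.pc c (hp R false)) g x := by
  have m0 := mu0_pos Fn
  have g := h.jr.gx
  have hJ := g.ok
  refine (Eps37.epsW hJ g.loc.bas (lt_min (by positivity : 0 < mu0 Fn / 4)
    (by norm_num : (0 : ℝ) < 1 / 4))).mono fun Adm w σ hσ δ q y a f U _ b E x ψ H rp G hG => ?_
  have e := th_W g hσ h.c1 f.sol H.hb rp.s
  have hR : R ∈ c.1 := h.c1.ge rfl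
  have hπ : S.M.sys.Piece c.1 (hp R false) := h.c1 ▸ piece_hp _
  have ov := H.ovx x
  have cell : b.θ _ U x.t ∈ Job.cl σ := e ▸ f.sol.cell
  have o := only_gx g h.ds hR hσ cell ov.2
  have O := hJ.memO hσ ov
  have br := hJ.memBr hσ ov
  obtain ⟨θ, w', f', C, rv, -⟩ := ps i h.ds J.m c _ br O (br.2 hR) o
  obtain ⟨θ', ϖ, Ξ, ρ, r', d⟩ := h.ds
  replace o := o.mono fun a (ha : a ∈ c.1) k => one_ne_zero ((br.2 ha).symm.trans k)
  have u := o.pc d.np D.W.toCaps hπ (hp_some.2 ⟨rfl, rfl⟩)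
  have ha : Act J.m c R (some false) (J.Θ (b.θ _ U x.t)) := ⟨d.np, br, O, hR⟩
  have ha' : Act J.m c R (some false) (J.Θ b.s) := ⟨d.np, b.br, b.O, hR⟩
  have hK := hJ.nk c R _ _ ha
  have one := one_W ha hK o (T := 5) (by norm_num)
  have su := (sur_W d o ha hK (T := 5) (by norm_num)).1
  rw [← u] at one su rv
  obtain ⟨τ, v, C', hc⟩ := rev _ Fn h₁ θ w' f' _ p one.op
    (fun z => by rw [((D.Λ i).G_ok J.m O).P]; exact ((D.Λ i).B_ok J.m c).rk z) fun z hz => (rv z hz).1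
  have sn := hJ.end_eq ha ha'
  refine ker_job H (solOn_W h.c1 f.sol f.tight H.pok) rp (.inr rfl) f.ntf f.fl hG
    (fun x' D' => w c q _ _ x' D' a ⟨σ, hσ, cell, ov.2⟩ hπ fun a _ => g.nil a nofun)
    (d := mu0 Fn ^ 2 / 2) ?_ ?_ (fun z hz => ?_) one su fun z hz => ?_
  · nlinarith [pow_le_pow_left₀ (by positivity) (min_le_left (mu0 Fn / 4) (1 / 4)) 2]
  · nlinarith [pow_le_pow_left₀ (by positivity) (min_le_right (mu0 Fn / 4) (1 / 4)) 2]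
  · exact posP H.F.B (H.F.G _ x.ht) E.o.ok (x.ad0 H.F).conn (hc z hz).1 m0.le (rv z hz).2
  · have t : z ∈ (J.K c R _ _ ha).ψ.target := (J.K c R _ _ ha).tgt ▸ one.J hz
    have := (H.ee.okP (⟨R, hR, d.np⟩, false)).wt z ⟨sn.tgt ▸ t, by
      change (5 : ℝ) < 1 * (J.K c R _ _ ha').tm z
      rw [sn.tm t]; simpa [pm] using hz⟩
    refine this.trans ?_
    change δ * (1 * (J.K c R _ _ ha').tm z) = _
    rw [sn.tm t]; simp [pm]

end Crest.Agent.X212.Dfl49
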