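import Crest.Agent.X212.Dfl49.Cfg
import Crest.Agent.X212.Pj41.Can
import Crest.Agent.X212.Pj41.Two
import Crest.Agent.X212.Spn45.Conn
import Crest.Agent.X212.Loc66.Lim

/-!
# Row 212, DFLAT (helper49), file 9: existence of flat configurations with a given end
-/

set_option autoImplicit false
set_option linter.unusedSectionVars false
noncomputable section
open Set Function Filter Topology
open scoped ContDiff Manifold InnerProductSpace

namespace Crest.Agent.X212.Dfl49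
open An Sob92 Pj41 Tmp64 Cyf70 Nd18 Std94
open Wz78 (SA)

section gen
variable {E : Type} [NormedAddCommGroup E] [NormedSpace ℝ E] [FiniteDimensional ℝ E]
  [MeasurableSpace E] [BorelSpace E]
  {HM : Type} [TopologicalSpace HM] {I : ModelWithCorners ℝ E HM} [I.Boundaryless]
  {M : Type} [TopologicalSpace M] [ChartedSpace HM M] [IsManifold I ∞ M]
  [MeasurableSpace M] {ι : Type} [Fintype ι] {lam : Type} [Fintype lam]
  {B : Base M ι lam} {G : Geo I M ι lam} {O O' S : Set M} {r r' : ℕ} {m m' : Md M ι lam}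

/-- two modules -/
@[reducible] def m2 (m m' : Md M ι lam) : Bool → Md M ι lam := fun b => Bool.rec m' m b

/-- the cocycle of two modules -/
def u2 (u : M → CL m.V m'.V) : ∀ i j, M → CL (m2 m m' j).V (m2 m m' i).V
  | true, true => m.p
  | false, false => m'.p
  | false, true => u
  | true, false => fun x => ad (u x)

theorem mcoc2 (hO : IsOpen O) (hO' : IsOpen O') (hc : ∀ x, x ∈ O ∨ x ∈ O') (hm : OKOn I B m O)
    (hm' : OKOn I B m' O') {u : M → CL m.V m'.V} (h : Iso0 I m m' (O ∩ O') u) :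
    MCoc I B (fun b => Bool.rec O' O b) (m2 m m') (u2 u) := by
  refine ⟨fun i => ?_, fun x => (hc x).elim (fun h => ⟨true, h⟩) fun h => ⟨false, h⟩,
    fun i => ?_, fun i j => ?_, fun i j l x hi hj hl => ?_⟩
  · cases i; exacts [hO', hO]
  · cases i; exacts [hm', hm]
  · cases i <;> cases j
    · exact (Iso0.refl hm').mono inter_subset_left
    · exact h.mono fun _ hx => ⟨hx.2, hx.1⟩
    · exact h.symm (hm.mono inter_subset_left) (hm'.mono inter_subset_right)
    · exact (Iso0.refl hm).mono inter_subset_left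
  · cases i <;> cases j <;> cases l
    exacts [hm'.pidem x hi, (h.iso x ⟨hl, hi⟩).left, (h.iso x ⟨hj, hi⟩).tgt,
      (h.iso x ⟨hj, hi⟩).idem, (h.iso x ⟨hi, hj⟩).symm.idem, (h.iso x ⟨hi, hj⟩).src,
      (h.iso x ⟨hi, hl⟩).symm.left, hm.pidem x hi]

/-- gluing of two configurations -/
theorem glueE [T2Space M] [SigmaCompactSpace M] (hG : G.F.P = B.P) (hO : IsOpen O)
    (hO' : IsOpen O') (hc : ∀ x, x ∈ O ∨ x ∈ O') {c c' : Cfg M ι lam r} (a : AdmOn c B G O)
    (a' : AdmOn c' B G O') {u : M → CL c.m.V c'.m.V} (h : Eq0 G.F c c' (O ∩ O') u) :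
    ∃ (n : Cfg M ι lam r) (v : M → CL c.m.V n.m.V) (v' : M → CL c'.m.V n.m.V), n.Adm B G ∧
      Eq0 G.F c n O v ∧ Eq0 G.F c' n O' v' ∧ ∀ x ∈ O ∩ O', v' x ∘L u x = v x := by
  have s := h.symm (a.mono inter_subset_left) (a'.mono inter_subset_right)
  obtain ⟨n, v, X, Φ, h1, h2, h5, h3, h4⟩ := cfg_glue (mcoc2 hO hO' hc a.ok a'.ok h.iso) hG
    (Wi := fun i => match i with | true => c.W | false => c'.W)
    (fun i => by cases i; exacts [a'.conn, a.conn]) (fun i j => by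
      cases i <;> cases j
      exacts [a'.conn.par0_refl.mono inter_subset_left, h.par.mono fun _ hx => ⟨hx.2, hx.1⟩, s.par,
        a.conn.par0_refl.mono inter_subset_left])
    (Φi := fun i => match i with | true => c.Φ | false => c'.Φ)
    (fun i => by cases i; exacts [a'.sm, a.sm]) fun i j x hi hj => by
      cases i <;> cases j
      exacts [a'.pΦ hi, (h.Φ x ⟨hj, hi⟩).symm, (s.Φ x ⟨hi, hj⟩).symm, a.pΦ hi]
  refine ⟨⟨n, X, Φ, c.z⟩, v true, v false, ⟨h1, h2, h5, fun x => ?_, a.z⟩,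
    ⟨(h3 true).1, (h3 true).2.1, (h3 true).2.2, rfl⟩,
    ⟨(h3 false).1, (h3 false).2.1, (h3 false).2.2, h.z.symm⟩,
    fun x hx => (h4 false true x hx.2 hx.1).2⟩
  change n.pp B x (Φ x) = Φ x
  rcases hc x with k | k
  · rw [(h3 true).2.2 x k, (h3 true).1.pp k]; exact congrArg _ (a.pos x k)
  · rw [(h3 false).2.2 x k, (h3 false).1.pp k]; exact congrArg _ (a'.pos x k)

/-- a module with constant `g` has a flat connection -/
theorem flat_of_const (hO : IsOpen O) (H : OKOn I B m O) {W : m.Cn} (C : ConnOn B G m W O)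
    {g : Submodule ℝ m.A} (hg : ∀ x ∈ O, m.gS x = g) :
    ∃ W', ConnOn B G m W' O ∧ ∀ x ∈ O, m.Fg G.F W' x = 0 := by
  let L : CL (En (Fin m.N)) m.A := g.starProjection ∘L hsL
  have e : ∀ x ∈ O, ∀ T, m.pg x (hsL T) = L T := fun x hx T => by
    obtain rfl := hg x hx; rfl
  have mem : ∀ x ∈ O, ∀ T, L T ∈ m.gS x := fun x hx T => e x hx T ▸ Wz78.pg_mem x _
  have gp : ∀ x ∈ O, ∀ ξ ∈ m.gS x, opL ξ * m.p x = opL ξ := fun x hx ξ h => by
    have := congrArg ad (Wz78.g_p h)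
    rw [ContinuousLinearMap.mul_def, ad_comp, (H.prj hx).herm, ad_skew.2 (Wz78.g_skw h)] at this
    exact neg_injective ((neg_mul _ _).symm.trans this)
  have C' := Loc66.connOn_add C (γ := fun a x => -opL (L (W a x)))
    ⟨fun a x hx => (SA.clm (opL ∘L L) (C.sm a x hx)).neg, fun a x hx => by
      simp only [smul_neg, Finset.sum_neg_distrib, ← map_smul, ← map_sum, C.proj a x hx],
    fun a x hx => Commute.neg_left ((gp x hx _ (mem x hx _)).trans (Wz78.g_p (mem x hx _)).symm),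
    fun a b x hx => Commute.neg_left (Wz78.g_ρ (mem x hx _) b).symm,
    fun a x hx v w => by simp [Wz78.g_skw (mem x hx _) v w],
    fun a x hx => Commute.neg_left (Wz78.g_J (mem x hx _)).symm,
    fun a x hx s => Commute.neg_left (Wz78.g_j (mem x hx _) s).symm⟩
  refine ⟨_, C', fun x hx => ?_⟩
  generalize hX : (fun a x => W a x + -opL (L (W a x))) = X at C' ⊢
  have z : ∀ a, ∀ y ∈ O, L (X a y) = 0 := fun a y hy => by
    rw [← hX, map_add, map_neg, ← e y hy (opL _), Wz78.hsL_opL, Wz78.pg_of_mem (mem y hy _),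
      add_neg_cancel]
  have ev := hO.eventually_mem hx
  have d0 : ∀ a b, L (dv I (G.F.e a) (X b) x) = 0 := fun a b => by
    rw [← dv_clm L (C'.sm b x hx).md, dv_congr (v := fun _ => 0) (ev.mono (z b)), dv_const]; rfl
  have ad_g : ∀ a, ∀ η ∈ m.gS x, adc (X a x) η ∈ m.gS x := fun a η hη => by
    have hy : ∀ y ∈ O, η ∈ m.gS y := fun y hy => (hg y hy).symm ▸ hg x hx ▸ hη
    have dR : ∀ {T : M → En (Fin m.N)}, FSm I T x →
        G.F.D a (fun y => T y * opL η) x = G.F.D a T x * opL η := fun hT =>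
      dv_clm (e := G.F.e a) ((ContinuousLinearMap.mul ℝ (En (Fin m.N))).flip (opL η)) hT.md
    have key : ∀ {T : M → En (Fin m.N)} {D R : En (Fin m.N)}, FSm I T x → G.F.D a T x = D →
        (∀ y ∈ O, T y * opL η = opL η * T y) → D + (X a x * T x - T x * X a x) = R →
        R * opL η = opL η * R → T x * (X a x * opL η - opL η * X a x) =
          (X a x * opL η - opL η * X a x) * T x := fun {T D R} hT hD h1 h2 h3 => by
      have h4 := dR hT
      rw [Pre.D_def, dv_congr (ev.mono h1), show dv I (G.F.e a) (fun y => opL η * T y) x =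
        opL η * G.F.D a T x from
          dv_clm (e := G.F.e a) (ContinuousLinearMap.mul ℝ (En (Fin m.N)) (opL η)) hT.md, hD] at h4
      have h5 := h1 x hx
      rw [← h2] at h3
      linear_combination (norm := noncomm_ring) -h3 - h4 + X a x * h5 - h5 * X a x
    rw [Wz78.adc_apply]
    refine Wz78.mem_g (Spn45.Sk.lie (C'.sk a x hx) (Wz78.g_skw hη)) ?_ ?_
      (fun b => key (H.sρ b x hx) rfl (fun y k => Wz78.g_ρ (hy y k) b) (C'.comp a b x hx) (by
        simp only [Finset.sum_mul, Finset.mul_sum, smul_mul_assoc, mul_smul_comm, Wz78.g_ρ hη]))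
      fun s => key (T := fun y => m.j y s) (D := G.F.D a m.j x s)
        ((H.sj x hx).clm_apply contMDiffAt_const)
        (dv_clm (e := G.F.e a) (u := m.j) (ContinuousLinearMap.apply ℝ (En (Fin m.N)) s)
          (H.sj x hx).md :)
        (fun y k => Wz78.g_j (hy y k) s)
        (C'.j a x hx s) (Wz78.g_j hη _)
    · have h4 := dR (H.sp x hx)
      rw [Pre.D_def, dv_congr (v := fun _ => opL η) (ev.mono fun y k => Wz78.g_p (hy y k)),
        dv_const, Pi.zero_apply] at h4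
      have h5 := Wz78.g_p hη
      linear_combination (norm := noncomm_ring) -C'.par a x hx * opL η - h4 + X a x * h5 - h5 * X a x
    · linear_combination (norm := noncomm_ring) C'.J a x hx * opL η - opL η * C'.J a x hx +
        X a x * Wz78.g_J hη - Wz78.g_J hη * X a x
  have br : ∀ a b, L (X a x * X b x - X b x * X a x) = 0 := fun a b => by
    have b1 : hsL (X a x * X b x - X b x * X a x) = adc (X a x) (hsL (X b x)) := by
      rw [Wz78.adc_apply, Wz78.opL_hsL]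
    rw [← e x hx, b1]
    refine inner_self_eq_zero.1 (?_ : ⟪_, _⟫_ℝ = 0)
    rw [Wz78.inner_pg, Wz78.pg_pg, Wz78.adc_skw (C'.sk a x hx),
      ← Wz78.pg_of_mem (ad_g a _ (Wz78.pg_mem x _)), ← Wz78.inner_pg, e x hx, z b x hx]
    simp
  ext1 s
  change m.pg x (hsL (_ - _ + (_ - _) - _)) = 0
  rw [e x hx, map_sub, map_add, br, map_sub, d0, d0, map_sum]
  simp [fun a => z a x hx]

variable (I B) in
/-- frames of the background over `O` -/
def Frs (O : Set M) : Prop := ∃ (U : M → Fin 4 → ι → ℝ) (s : M → Eu lam), ∀ x ∈ O,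
  (∀ i a, FSm I (fun y => U y i a) x) ∧ FSm I s x ∧ Bx B x (U x) (s x)

/-- the standard module of a frame -/
theorem Frs.md (h : Frs I B O) (hB : B.OK I) (ne : O.Nonempty) :
    ∃ (m : Md M ι lam) (g : Submodule ℝ m.A), OKOn I B m O ∧ ∀ x ∈ O, m.gS x = g := by
  obtain ⟨U, s, h1⟩ := h
  obtain ⟨x₀, h3⟩ := ne
  let e := (stdOrthonormalBasis ℝ S4).repr
  let c := cjL (e : S4 →L[ℝ] Eu (Fin (Module.finrank ℝ S4)))
  let m : Md M ι lam := ⟨Module.finrank ℝ S4, c J0, fun _ => c 1, fun a x => c (r0 (tq (U x) a)),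
    fun x => c ∘L j0 B.il (s x)⟩
  have H : ∀ x ∈ O, PMx B m x := fun x hx =>
    pm_conj (pm_std (h1 x hx).2.2.of.toON (plx hB x) (h1 x hx).2.2.lf) e
  have k : ∀ x ∈ O, ∀ y ∈ O, m.gS x ≤ m.gS y := fun x hx y hy ξ h => by
    have l := (h1 x hx).2.2.lf
    have o := (plx hB x).inner_il (s x)
    have a1 : ∀ i, c (r0 (qe i)) * opL ξ = opL ξ * c (r0 (qe i)) := fun i => by
      rw [← (h1 x hx).2.2.of.toON.fr_std i]
      simp only [fr, map_sum, map_smul, Finset.sum_mul, Finset.mul_sum, smul_mul_assoc,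
        mul_smul_comm]
      exact Finset.sum_congr rfl fun a _ => congrArg _ (Wz78.g_ρ h a)
    have e : ∀ z t, m.j z t = ⟪s z, t⟫_ℝ • c k0 + ⟪B.il (s z), t⟫_ℝ • c (J0 * k0) := fun z t => by
      rw [← map_smul, ← map_smul, ← map_add]; rfl
    have a2 := Wz78.g_j h (s x)
    have a3 := Wz78.g_j h (B.il (s x))
    rw [e, real_inner_self_eq_norm_sq, l.n1, o] at a2
    rw [e, real_inner_self_eq_norm_sq, l.n2, real_inner_comm, o] at a3
    simp only [one_pow, one_smul, zero_smul, add_zero, zero_add] at a2 a3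
    refine ⟨h.1, h.2.1, h.2.2.1, fun a => ?_, fun t => ?_⟩
    · simp only [m, r0_tq, map_sum, map_smul, Finset.sum_mul, Finset.mul_sum, smul_mul_assoc,
        mul_smul_comm, a1]
    · simp only [e, add_mul, mul_add, smul_mul_assoc, mul_smul_comm, a2, a3]
  refine ⟨m, m.gS x₀, ⟨(H _ h3).Jsq, (H _ h3).Jsk, fun x _ => (smAt I x).const _,
    fun a x hx => Kl.clm (K := smAt I x) c ?_,
    fun x hx => Kl.comp (K := smAt I x) ((smAt I x).const c) (Kl.j0 B.il (h1 x hx).2.1),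
    fun x hx => (H x hx).psym, fun x hx => (H x hx).pidem, fun x hx => (H x hx).prk,
    fun x hx => (H x hx).Jp, fun x hx => (H x hx).cl, fun a x hx => (H x hx).ρsk a,
    fun a x hx => (H x hx).Jρ a, fun x hx => (H x hx).jsym, fun x hx => (H x hx).jJ,
    fun x hx => (H x hx).jil, fun x hx => (H x hx).jl, fun x hx => (H x hx).jsq,
    fun x hx => (H x hx).pj, fun a x hx => (H x hx).jρ a⟩,
    fun x hx => le_antisymm (k x hx _ h3) (k _ h3 x hx)⟩
  simp only [r0_tq]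
  exact Kl.fsum _ fun i => Kl.smul (K := smAt I x) ((h1 x hx).1 i a) ((smAt I x).const _)

variable [T2Space M] [SigmaCompactSpace M] (hB : B.OK I) (hG : G.OK B)
include hB hG

/-- filling in a flat configuration -/
theorem Frs.fill (h : Frs I B S) (hS : IsClopen S) {c : Cfg M ι lam r} (a : AdmOn c B G Sᶜ) :
    ∃ (n : Cfg M ι lam r) (u : M → CL c.m.V n.m.V), n.Adm B G ∧ Fz G.F n S ∧ Eq0 G.F c n Sᶜ u := by
  rcases S.eq_empty_or_nonempty with rfl | ne
  · exact ⟨c, c.m.p, admOn_univ.1 (compl_empty ▸ a), ⟨by simp, by simp⟩, Iso0.refl a.ok,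
      a.conn.par0_refl, fun x hx => (a.pΦ hx).symm, rfl⟩
  obtain ⟨m, g, h1, h2⟩ := h.md hB ne
  have o := hS.1.isOpen_compl
  have e : ∀ {P : M → Prop}, ∀ x ∈ S ∩ Sᶜ, P x := fun x hx => (hx.2 hx.1).elim
  obtain ⟨n, v, k1, k2, -⟩ := md_glue (mcoc2 hS.2 o (fun x => em (x ∈ S)) h1 a.ok (u := 0)
    ⟨e, e, e, e, e⟩)
  obtain ⟨X, hX⟩ := Spn45.exists_conn hB hG k1
  obtain ⟨W, w1, w2⟩ := flat_of_const hS.2 h1 (conn_push ((k2 true).symm h1 (OK.on k1 _)) hS.2
    (OK.on k1 _) h1 hG.P (IsConn.on hX _)).1 h2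
  have a0 : AdmOn (⟨m, W, fun _ => 0, c.z⟩ : Cfg M ι lam r) B G S :=
    ⟨h1, w1, fun _ _ => contMDiffAt_const, fun _ _ => map_zero _, a.z⟩
  obtain ⟨n, v, v', k1, k2, k3, -⟩ := glueE hG.P hS.2 o (fun x => em (x ∈ S)) a0 a (u := 0)
    ⟨⟨e, e, e, e, e⟩, e, e, rfl⟩
  exact ⟨n, v', k1, ⟨fun x hx => PI.flat ⟨k2.iso, k2.par⟩ hS.2 a0 ((admOn_univ.2 k1).mono
    (subset_univ _)) hx (w2 x hx), fun x hx => (k2.Φ x hx).trans (map_zero _)⟩, k3⟩

omit [T2Space M] [SigmaCompactSpace M] in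
/-- flat configurations over a simply connected set are equivalent -/
theorem pi_of_pt {c : Cfg M ι lam r} {c' : Cfg M ι lam r'} (hS : IsOpen S) (a : AdmOn c B G S)
    (a' : AdmOn c' B G S) (f : ∀ x ∈ S, c.m.Fg G.F c.W x = 0) (f' : ∀ x ∈ S, c'.m.Fg G.F c'.W x = 0)
    {x : M} (hx : x ∈ S) (hs : Sur {x} S) : ∃ v, PI G.F c c' S v := by
  have h := two_of hB hG.P hS a a'
  obtain ⟨T, i, n, -⟩ := exists_itx hB (pmx_on a.ok hx) (pmx_on a'.ok hx)
  obtain ⟨O, v, o1, o2, o3, o4, o5, o6⟩ := h.exists_loc f f' hx i n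
  obtain ⟨w, w1, w2⟩ := hs _ _ (h.flt f f').ls v (by
    rintro _ rfl; exact mem_of_superset (o1.mem_nhds o2) (h.pa_of o3 o5 o6))
  have w3 := fun y hy => (w1 y hy).self_of_nhds
  refine ⟨w, h.iso0_of w3 (hs.prop (fun x hx => (h.norm_ev w3 hx).mono fun y hy => by rw [hy]) ?_),
    h.par0_of w3⟩
  rintro _ rfl
  rw [w2 rfl, o4]
  exact hs_of_iso (pmx_on a.ok hx) n

omit hB hG in
/-- a cut of `S` into two parts such that flat bundles extend from `O` to `S` -/
def Ct (O S : Set M) : Prop := ∃ (D₁ D₂ : Set M) (x₁ x₂ : M), IsOpen D₁ ∧ IsOpen D₂ ∧ D₁ ∪ D₂ = S ∧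
  x₁ ∈ O ∩ D₁ ∧ x₂ ∈ O ∩ D₂ ∧ Sur {x₁} (O ∩ D₁) ∧ Sur {x₂} (O ∩ D₂) ∧ Sur (O ∩ (D₁ ∩ D₂)) (D₁ ∩ D₂)

/-- **EX**: flat configurations extend -/
theorem exists_ext (hS : IsClopen S) (hO : IsOpen O) (k : O ⊆ S) (ct : Ct O S) (fr : Frs I B S)
    {b : Cfg M ι lam r'} (ab : AdmOn b B G O) (fb : ∀ x ∈ O, b.m.Fg G.F b.W x = 0)
    {c : Cfg M ι lam r} (a : AdmOn c B G Sᶜ) :
    ∃ (n : Cfg M ι lam r) (u : M → CL c.m.V n.m.V) (v : M → CL n.m.V b.m.V), n.Adm B G ∧
      Fz G.F n S ∧ Eq0 G.F c n Sᶜ u ∧ PI G.F n b O v := by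
  classical
  obtain ⟨D₁, D₂, x₁, x₂, o1, o2, rfl, m1, m2, s1, s2, s3⟩ := ct
  obtain ⟨n, u, a1, f, e⟩ := fr.fill hB hG hS a
  have an := fun O => (admOn_univ.2 a1).mono (subset_univ O)
  have p := fun {D x} (o : IsOpen D) (mx : x ∈ O ∩ D) s => pi_of_pt hB hG (hO.inter o) (an _)
    (ab.mono inter_subset_left) (fun y hy => f.F y (k hy.1)) (fun y hy => fb y hy.1) mx s
  obtain ⟨u₁, p1⟩ := p o1 m1 s1
  obtain ⟨u₂, p2⟩ := p o2 m2 s2
  have q1 := p1.symm (an _) (ab.mono inter_subset_left)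
  have q2 := p2.symm (an _) (ab.mono inter_subset_left)
  have f12 := f.mono (inter_subset_left.trans subset_union_left : D₁ ∩ D₂ ⊆ _)
  obtain ⟨g, g1, g2⟩ := ((p1.mono (inter_subset_inter_right O inter_subset_left)).trans
    (q2.mono (inter_subset_inter_right O inter_subset_right))).ext hB hG.P (o1.inter o2) (an _) (an _)
    f12.F f12.F s3 (hO.inter (o1.inter o2)) inter_subset_right
  have i : D₁ ∩ (D₂ ∪ (D₁ ∪ D₂)ᶜ) ⊆ D₁ ∩ D₂ := fun x hx =>
    ⟨hx.1, hx.2.resolve_right fun h => h (.inl hx.1)⟩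
  obtain ⟨n', v₁, v₂, a2, e1, e2, e3⟩ := glueE hG.P o1 (o2.union hS.1.isOpen_compl)
    (fun x => (em (x ∈ D₁ ∪ D₂)).elim (fun h => h.imp_right .inl) fun h => .inr (.inr h))
    (an _) (an _) ((g1.eq0 f12 f12 rfl).mono i)
  have an' := fun O => (admOn_univ.2 a2).mono (subset_univ O)
  have r1 : PI G.F n n' D₁ v₁ := ⟨e1.iso, e1.par⟩
  have r2 : PI G.F n n' D₂ v₂ := ⟨e2.iso.mono subset_union_left, e2.par.mono subset_union_left⟩
  have t1 := q1.trans (r1.mono inter_subset_right)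
  have t2 := q2.trans (r2.mono inter_subset_right)
  let w : M → CL b.m.V n'.m.V := fun x =>
    if x ∈ D₁ then v₁ x ∘L ad (u₁ x) else v₂ x ∘L ad (u₂ x)
  have w1 : EqOn w (fun x => v₁ x ∘L ad (u₁ x)) (O ∩ D₁) := fun x hx => if_pos hx.2
  have w2 : EqOn w (fun x => v₂ x ∘L ad (u₂ x)) (O ∩ D₂) := fun x hx => by
    by_cases h : x ∈ D₁
    · rw [w1 ⟨hx.1, h⟩]
      beta_reduce
      rw [← e3 x ⟨h, .inl hx.2⟩, g2 ⟨hx.1, h, hx.2⟩]
      simp only [ContinuousLinearMap.comp_assoc, (p1.iso.iso x ⟨hx.1, h⟩).tgt,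
        (q2.iso.iso x hx).idem]
    · exact if_neg h
  have t : PI G.F b n' O w := ⟨iso0_of_local fun x hx => (k hx).elim
      (fun h => ⟨_, mem_inter hx h, t1.iso.congr (hO.inter o1) w1⟩)
      fun h => ⟨_, mem_inter hx h, t2.iso.congr (hO.inter o2) w2⟩,
    fun x hx => (k hx).elim (fun h => Par0.congr t1.par (hO.inter o1) w1 x (mem_inter hx h))
      fun h => Par0.congr t2.par (hO.inter o2) w2 x (mem_inter hx h)⟩
  refine ⟨n', _, _, a2, ⟨fun x hx => hx.elim
      (fun h => r1.flat o1 (an _) (an' _) h (f.F x hx)) fun h => r2.flat o2 (an _) (an' _) h (f.F x hx),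
    fun x hx => hx.elim (fun h => by rw [e1.Φ x h, f.Φ x hx, map_zero])
      fun h => by rw [e2.Φ x (.inl h), f.Φ x hx, map_zero]⟩,
    e.trans (e2.mono subset_union_right), t.symm ab (an' _)⟩

end gen

variable {E3 : Type} [NormedAddCommGroup E3] [NormedSpace ℝ E3] [FiniteDimensional ℝ E3]
  [MeasurableSpace E3] [BorelSpace E3]
  {H3 : Type} [TopologicalSpace H3] {I3 : ModelWithCorners ℝ E3 H3} [I3.Boundaryless]
  {Y : Type} [TopologicalSpace Y] [ChartedSpace H3 Y] [IsManifold I3 ∞ Y] [T2Space Y]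
  [MeasurableSpace Y] [BorelSpace Y] [SecondCountableTopology Y] [CompactSpace Y]
  {κ : Type} [Fintype κ] {lam : Type} [Fintype lam] {D : YD I3 Y κ lam} {β : YC Y κ lam}
  {r : ℕ} {T : Set ℝ}
  {E : Type} [NormedAddCommGroup E] [NormedSpace ℝ E] [FiniteDimensional ℝ E]
  [MeasurableSpace E] [BorelSpace E]
  {HM : Type} [TopologicalSpace HM] {I : ModelWithCorners ℝ E HM} [I.Boundaryless]
  {M : Type} [TopologicalSpace M] [ChartedSpace HM M] [IsManifold I ∞ M] [MeasurableSpace M]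
  [T2Space M] [BorelSpace M] [SigmaCompactSpace M]
  {B : Base M (Option κ) lam} {G : Geo I M (Option κ) lam} {K : Nk D B G} {S : Set M}

/-- **EX** on a neck: every flat limit is filled in -/
theorem exists_std (hB : B.OK I) (hG : G.OK B) (hβ : D.Adm β) (fβ : Fz D.Z (cy β) univ)
    (hS : IsClopen S) (hT : IsOpen T) {l : Filter ℝ} (hm : T ∈ l) (h : T ⊆ K.J)
    (k : K.tm ⁻¹' T ⊆ S) (ct : Ct (K.tm ⁻¹' T) S) (fr : Frs I B S)
    {c : Cfg M (Option κ) lam r} (a : AdmOn c B G Sᶜ) :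
    ∃ (n : Cfg M (Option κ) lam r) (u : M → CL c.m.V n.m.V), n.Adm B G ∧ Fz G.F n S ∧
      Eq0 G.F c n Sᶜ u ∧ ∀ ζ, K.Std n β ζ l := by
  have tg : K.tm ⁻¹' T ⊆ K.ψ.target := fun x hx => K.tgt ▸ h hx
  obtain ⟨n, u, v, a1, f, e, p⟩ := exists_ext hB hG hS (hT.preimage K.cont) k ct fr
    (b := pb K.ψ.symm (cy β)) ((One97.admOn_push K isOpen_univ (admOn_univ.2 hβ.adm)).mono
      fun x hx => ⟨tg hx, trivial⟩)
    (fun x hx => (K.rel'.Fg (tg hx) (cy β).W).trans (fβ.F _ trivial)) a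
  have mp := nk_maps h (Subset.refl (K.tm ⁻¹' T))
  have li := fun x hx => K.ψ.left_inv (mp (a := x) hx).1
  have q : PI D.Z (K.pb n) (cy β) (univ ×ˢ T) fun x => v (K.ψ x) := by
    refine ⟨⟨fun x hx => K.rel.sm (mp hx).1 (p.iso.su _ (mp hx).2), fun x hx => ?_,
      fun x hx => p.iso.J _ (mp hx).2, fun x hx b => ?_, fun x hx s => ?_⟩, fun x hx b => ?_⟩
    · simpa only [Nk.pb, Nd18.pb, pbM, li x hx] using! p.iso.iso _ (mp hx).2
    · simpa only [Nk.pb, Nd18.pb, pbM, li x hx] using! p.iso.ρ _ (mp hx).2 b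
    · simpa only [Nk.pb, Nd18.pb, pbM, li x hx] using! p.iso.j _ (mp hx).2 s
    · have := K.rel.D (mp hx).1 b (u := fun x => v (K.ψ x)) (u' := v) (.of_forall fun _ => rfl)
      have q := p.par _ (mp hx).2 b
      rw [← this] at q
      simpa only [Nk.pb, Nd18.pb, pbM, li x hx] using! q
  exact ⟨n, u, a1, f, e, fun ζ => ⟨_, T, hm, h, (q.cl (isOpen_univ.prod hT) (f.pb h k)
    (fun x _ => fβ.Φ x trivial) _ 0 le_rfl).cls hβ hT ((One97.admOn_pb K hS.2
      ((admOn_univ.2 a1).mono (subset_univ _))).mono (nk_maps h k))⟩⟩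

end Crest.Agent.X212.Dfl49
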