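import Crest.Agent.X212.Dfl49.Reg
import Crest.Agent.X212.Cyf70.Cyl

/-!
# Row 212, DFLAT (helper49), file 7: primitives of closed forms with values in a flat bundle
-/

set_option autoImplicit false
set_option linter.unusedSectionVars false
noncomputable section
open Set Filter Topology MeasureTheory
open scoped ContDiff Manifold InnerProductSpace

namespace Crest.Agent.X212.Dfl49
open An Sob92 Wz78 Rdc90 Cyf70 ContinuousLinearMap

variable {E : Type} [NormedAddCommGroup E] [NormedSpace ℝ E] [FiniteDimensional ℝ E]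
  [MeasurableSpace E] [BorelSpace E]
  {HM : Type} [TopologicalSpace HM] {I : ModelWithCorners ℝ E HM} [I.Boundaryless]
  {M : Type} [TopologicalSpace M] [ChartedSpace HM M] [IsManifold I ∞ M]
  [MeasurableSpace M] {ι : Type} [Fintype ι]
  {V N : Type} [NormedAddCommGroup V] [InnerProductSpace ℝ V] [FiniteDimensional ℝ V]
  [NormedAddCommGroup N] [NormedSpace ℝ N]

/-- mean value inequality near a point -/
theorem mvt (F : Fr I M ι) (x : M) {O : Set M} (hO : O ∈ 𝓝 x) : ∃ W ∈ 𝓝 x, W ⊆ O ∧ ∃ C, 0 ≤ C ∧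
    ∀ (h : M → N) (b : ℝ), (∀ y ∈ O, MDifferentiableAt I 𝓘(ℝ, N) h y ∧ ∀ a, ‖F.D a h y‖ ≤ b) →
      ∀ y ∈ W, ‖h y - h x‖ ≤ C * |b| := by
  obtain ⟨q, u, hq, rfl, hm⟩ := exists_pq I x hO
  obtain ⟨B, sB, eB⟩ := hq.exists_form F (A := fun a y b => F.P a b y)
    (fun a z => contMDiffAt_pi_space.2 fun b => F.P_sm a b _) fun a z => _root_.funext fun b => by
      simpa using (frPr F (q z)).idem a b
  obtain ⟨C, hC⟩ := (isCompact_closedBall (0 : EuclideanSpace ℝ (Fin (Module.finrank ℝ E)))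
    1).exists_bound_of_continuousOn sB.continuous.continuousOn
  have C0 := (norm_nonneg _).trans (hC 0 (Metric.mem_closedBall_self zero_le_one))
  refine ⟨q '' Metric.closedBall 0 1, ?_, image_subset_iff.2 fun z _ => hm z,
    Fintype.card ι * C, by positivity, ?_⟩
  · filter_upwards [hq.qu 0, (hq.su 0).continuousAt.eventually
      (Metric.closedBall_mem_nhds (u (q 0)) one_pos)] with y h1 h2
    exact ⟨u y, by rwa [hq.uq] at h2, h1⟩
  rintro h b hb _ ⟨z, hz, rfl⟩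
  have := (convex_closedBall 0 1).norm_image_sub_le_of_norm_fderiv_le (𝕜 := ℝ) (f := h ∘ q)
    (C := Fintype.card ι * C * |b|)
    (fun z _ => ((hb _ (hm z)).1.comp z ((hq.sq z).mdifferentiableAt (by simp))).differentiableAt)
    (fun z hz => opNorm_le_bound _ (by positivity) fun k => ?_)
    (Metric.mem_closedBall_self zero_le_one) hz
  · exact this.trans (mul_le_of_le_one_right (by positivity) (by simpa using hz))
  have e := hq.ext F (z := z) (T := fderiv ℝ (h ∘ q) z -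
    ∑ a, (proj a ∘L B z).smulRight (F.D a h (q z))) (fun a => by
      simp only [sub_apply, _root_.sum_apply, smulRight_apply, comp_apply, eB, proj_apply,
        ← hq.dv_eq F (hb _ (hm z)).1, Pre.D_def, (frm F).projD, sub_self]) k
  simp only [sub_apply, _root_.sum_apply, smulRight_apply, comp_apply, proj_apply, sub_eq_zero] at e
  rw [e, mul_assoc, mul_assoc, ← nsmul_eq_mul, ← Finset.card_univ]
  refine (norm_sum_le _ _).trans (Finset.sum_le_card_nsmul _ _ _ fun a _ => ?_)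
  rw [norm_smul, mul_comm |b|, ← mul_assoc]
  exact mul_le_mul ((norm_le_pi_norm _ a).trans ((B z).le_of_opNorm_le (hC z hz) k))
    (((hb _ (hm z)).2 a).trans (le_abs_self b)) (norm_nonneg _) (by positivity)

/-- the regularised norm -/
def nr (ε : ℝ) (ξ : M → V) (x : M) : ℝ := √(⟪ξ x, ξ x⟫_ℝ + ε ^ 2)

section nr
variable {ε : ℝ} {ξ : M → V} {x : M}

theorem le_nr : ‖ξ x‖ ≤ nr ε ξ x :=
  Real.le_sqrt_of_sq_le (by rw [real_inner_self_eq_norm_sq]; nlinarith [sq_nonneg ε])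

theorem nr_le (h : 0 < ε) : nr ε ξ x ≤ ‖ξ x‖ + ε :=
  Real.sqrt_le_iff.2 ⟨by positivity, by
    rw [real_inner_self_eq_norm_sq]; nlinarith [norm_nonneg (ξ x)]⟩

theorem nr_pos (h : 0 < ε) : 0 < ⟪ξ x, ξ x⟫_ℝ + ε ^ 2 :=
  add_pos_of_nonneg_of_pos real_inner_self_nonneg (by positivity)

theorem sa_nr (h : 0 < ε) (s : SA I ξ x) : SA I (nr ε ξ) x :=
  (Real.contDiffAt_sqrt (nr_pos h).ne').contMDiffAt.comp x ((s.inner s).add contMDiffAt_const)

/-- Kato's inequality -/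
theorem D_nr (F : Pre I M ι) {A : ι → M → V →L[ℝ] V} (h : 0 < ε) (s : SA I ξ x) {a : ι}
    (sk : Skew (A a x)) : ‖F.D a (nr ε ξ) x‖ ≤ ‖nab I F.e A a ξ x‖ := by
  have p : 0 < nr ε ξ x := Real.sqrt_pos.2 (nr_pos h)
  have := dv_comp (e := F.e a) (SA.md (u := fun y => ⟪ξ y, ξ y⟫_ℝ + ε ^ 2)
    ((s.inner s).add contMDiffAt_const))
    (Real.hasDerivAt_sqrt (nr_pos (ξ := ξ) (x := x) h).ne').hasFDerivAt
  rw [dv_add' (s.inner s) contMDiffAt_const, dv_inner a sk s s,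
    real_inner_comm (ξ x) (nab I F.e A a ξ x)] at this
  have e : F.D a (nr ε ξ) x = ⟪ξ x, nab I F.e A a ξ x⟫_ℝ / nr ε ξ x := by
    refine this.trans ?_
    simp [nr]
    field_simp
    ring
  rw [e, norm_div, Real.norm_of_nonneg p.le, div_le_iff₀ p, mul_comm]
  exact (norm_inner_le_norm _ _).trans (mul_le_mul_of_nonneg_right le_nr (norm_nonneg _))

end nr

variable (V) in
/-- endomorphisms of `V` on `V × ℝ` -/
def x1 : (V →L[ℝ] V) →L[ℝ] (V × ℝ) →L[ℝ] V × ℝ := LinearMap.toContinuousLinearMap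
  { toFun := fun T => inl ℝ V ℝ ∘L T ∘L fst ℝ V ℝ
    map_add' := fun S T => by ext <;> simp
    map_smul' := fun r T => by ext <;> simp }

variable (V) in
/-- translations -/
def x2 : V →L[ℝ] (V × ℝ) →L[ℝ] V × ℝ := LinearMap.toContinuousLinearMap
  { toFun := fun v => inl ℝ V ℝ ∘L (snd ℝ V ℝ).smulRight v
    map_add' := fun S T => by ext <;> simp
    map_smul' := fun r T => by ext <;> simp }

@[simp] theorem x1_apply (T : V →L[ℝ] V) (w : V × ℝ) : x1 V T w = (T w.1, 0) := rfl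
@[simp] theorem x2_apply (v : V) (w : V × ℝ) : x2 V v w = (w.2 • v, 0) := rfl

/-- a primitive of `α` at `x` -/
structure PR (F : Fr I M ι) (A : ι → M → V →L[ℝ] V) (Q : M → V →L[ℝ] V) (α : ι → M → V)
    (ξ : M → V) (x : M) : Prop where
  sm : SA I ξ x
  mem : Q x (ξ x) = ξ x
  eq : ∀ a, nab I F.e A a ξ x = α a x

/-- a closed form with values in a flat part of `A` -/
structure Clo (F : Fr I M ι) (S : Set M) (A : ι → M → V →L[ℝ] V) (Q : M → V →L[ℝ] V)
    (α : ι → M → V) : Prop extends Flt F S A Q where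
  sα : ∀ a, ∀ x ∈ S, SA I (α a) x
  pα : ∀ a, ∀ x ∈ S, ∑ b, F.P a b x • α b x = α a x
  qα : ∀ a, ∀ x ∈ S, Q x (α a x) = α a x
  cl : ∀ a b, ∀ x ∈ S, ed I F.e F.c A α a b x = 0

variable {F : Fr I M ι} {S O : Set M} {A : ι → M → V →L[ℝ] V} {Q : M → V →L[ℝ] V}
  {α : ι → M → V} {ξ ξ' : M → V} {x : M}

theorem PR.congr (h : PR F A Q α ξ x) (e : ξ' =ᶠ[𝓝 x] ξ) : PR F A Q α ξ' x :=
  ⟨h.sm.congr_of_eventuallyEq e, by rw [e.eq_of_nhds, h.mem], fun a => by rw [nab_congr a e, h.eq]⟩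

theorem PR.sub (h : PR F A Q α ξ x) (h' : PR F A Q α ξ' x) : PR F A Q 0 (fun y => ξ y - ξ' y) x :=
  ⟨h.sm.sub h'.sm, by rw [map_sub, h.mem, h'.mem], fun a => by
    rw [nab_sub a h.sm h'.sm, h.eq, h'.eq, sub_self]; rfl⟩

namespace Clo
variable (h : Clo F S A Q α)
include h

theorem flt : Flt F S (fun a x => x1 V (A a x) - x2 V (α a x))
    fun x => x1 V (Q x) + inr ℝ V ℝ ∘L snd ℝ V ℝ := by
  refine ⟨h.op, fun a x hx => ((h.sA a x hx).clm _).sub ((h.sα a x hx).clm _), fun a x hx => ?_,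
    fun x hx => ((h.sQ x hx).clm _).add contMDiffAt_const, fun a x hx => ?_, fun a b x hx => ?_⟩
  · simp only [smul_sub, Finset.sum_sub_distrib, ← map_smul, ← map_sum, h.pA a x hx, h.pα a x hx]
  · refine ContinuousLinearMap.ext fun w => ?_
    have := congrArg (fun T : V →L[ℝ] V => T w.1) (h.nQ a x hx)
    rw [nabE, dv_add' ((h.sQ x hx).clm _) contMDiffAt_const, dv_clm _ (h.sQ x hx).md]
    simp only [nabE, mul_apply_eq_comp, add_apply, sub_apply, zero_apply] at this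
    simp [mul_apply_eq_comp, h.qα a x hx]
    exact this
  · refine ContinuousLinearMap.ext fun w => ?_
    have := congrArg (fun T : V →L[ℝ] V => T w.1) (h.cQ a b x hx)
    have e := congrArg (fun v : V => w.2 • v) (h.cl a b x hx)
    have d : ∀ a b, dv I (F.e a) (fun x => x1 V (A b x) - x2 V (α b x)) x =
        x1 V (dv I (F.e a) (A b) x) - x2 V (dv I (F.e a) (α b) x) := fun a b => by
      rw [dv_sub' ((h.sA b x hx).clm _) ((h.sα b x hx).clm _), dv_clm _ (h.sA b x hx).md,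
        dv_clm _ (h.sα b x hx).md]
    simp only [curv, mul_apply_eq_comp, add_apply, sub_apply, zero_apply, _root_.sum_apply,
      smul_apply] at this
    simp only [ed, nab, smul_sub, smul_add, smul_zero, Finset.smul_sum] at e
    simp only [curv, d, smul_sub, Finset.sum_sub_distrib, ← map_smul, ← map_sum]
    simp only [mul_apply_eq_comp, add_apply, sub_apply, x1_apply, x2_apply, comp_apply, coe_snd',
      inr_apply, Prod.mk_add_mk, Prod.mk_sub_mk, add_zero, zero_add, sub_zero, map_sub, map_smul,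
      zero_smul, zero_apply, _root_.sum_apply, smul_apply, Finset.smul_sum, Prod.mk_eq_zero,
      and_true]
    rw [← sub_zero (0 : V)]
    nth_rewrite 1 [← this]
    rw [← e]; abel

/-- local primitives -/
theorem exists_loc (hx : x ∈ S) : ∃ W ∈ 𝓝 x, IsOpen W ∧ W ⊆ S ∧
    ∀ y ∈ W, ∀ v, Q y v = v → ∃ ξ, ξ y = v ∧ ∀ z ∈ W, PR F A Q α ξ z := by
  obtain ⟨W, h1, -, h3, h4⟩ := h.flt.exists_loc hx
  obtain ⟨q, u, hq, rfl, hm⟩ := exists_pq I x h1
  have o : IsOpen (range q) := isOpen_iff_mem_nhds.2 (by rintro _ ⟨z, rfl⟩; exact hq.mem_nhds z)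
  have m : range q ⊆ W := range_subset_iff.2 hm
  refine ⟨range q, hq.mem_nhds 0, o, m.trans h3, fun y hy v hv => ?_⟩
  obtain ⟨s, k1, k2⟩ := h4 y (m hy) (v, 1) (by simp [hv])
  have d1 : ∀ z ∈ W, ∀ a, dv I (F.e a) (fun y => (s y).1) z = (dv I (F.e a) s z).1 :=
    fun z hz a => dv_clm (fst ℝ V ℝ) (k2 z hz).sm.md
  have d2 : ∀ z ∈ W, ∀ a, dv I (F.e a) (fun y => (s y).2) z = (dv I (F.e a) s z).2 :=
    fun z hz a => dv_clm (snd ℝ V ℝ) (k2 z hz).sm.md
  have c : ∀ z ∈ range q, (s z).2 = 1 := fun z hz => by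
    rw [Kah60.const_on F.toPre (h := fun y => (s y).2) o (isPreconnected_range hq.sq.continuous)
      (fun z hz => ⟨((k2 z (m hz)).sm.clm (snd ℝ V ℝ)).md, fun a => by
        simpa [nab, ← d2 z (m hz), Pre.D_def] using congrArg Prod.snd ((k2 z (m hz)).par a)⟩) hz hy, k1]
  refine ⟨fun y => (s y).1, congrArg Prod.fst k1, fun z hz => ⟨(k2 z (m hz)).sm.clm (fst ℝ V ℝ),
    by simpa using congrArg Prod.fst (k2 z (m hz)).mem, fun a => ?_⟩⟩
  have := congrArg Prod.fst ((k2 z (m hz)).par a)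
  simp only [nab, Prod.fst_add, sub_apply, x1_apply, x2_apply, c z hz, one_smul, Prod.fst_sub,
    Prod.fst_zero, ← d1 z (m hz), ← add_sub_assoc, sub_eq_zero] at this
  exact this

theorem ls : LS S fun x s => ∀ᶠ y in 𝓝 x, PR F A Q α s y := by
  refine ⟨fun x s s' h1 h2 => ?_, fun x hx s s' h1 h2 h3 => ?_, fun x hx => ?_⟩
  · filter_upwards [h1, h2.eventually_nhds] with y k1 k2 using k1.congr k2
  · have := par_uniq (F := F) (A := A) (mem_of_superset (h.op.mem_nhds hx) fun y hy a =>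
      ⟨h.sA a y hy, h.pA a y hy⟩) ((h1.and h2).mono fun y hy =>
        ⟨(hy.1.sub hy.2).sm, (hy.1.sub hy.2).eq⟩) (s' := fun _ => 0)
      (.of_forall fun y => ⟨contMDiffAt_const, fun a => by simp [nab]⟩)
      (sub_eq_zero.2 (tendsto_nhds_unique_of_frequently_eq h1.self_of_nhds.sm.continuousAt
        h2.self_of_nhds.sm.continuousAt h3))
    exact this.mono fun y hy => sub_eq_zero.1 hy
  · obtain ⟨W, h1, h2, -, h4⟩ := h.exists_loc hx
    refine ⟨W, h1, fun y hy s hs => ?_⟩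
    obtain ⟨t, k1, k2⟩ := h4 y hy _ hs.self_of_nhds.mem
    exact ⟨t, fun z hz => mem_of_superset (h2.mem_nhds hz) k2, k1⟩

/-- primitives extend -/
theorem ext (hS : Sur O S) (hO : IsOpen O) (hs : ∀ x ∈ O, PR F A Q α ξ x) :
    ∃ t, (∀ x ∈ S, PR F A Q α t x) ∧ EqOn t ξ O := by
  obtain ⟨t, h1, h2⟩ := hS V _ h.ls ξ fun x hx => mem_of_superset (hO.mem_nhds hx) hs
  exact ⟨t, fun x hx => (h1 x hx).self_of_nhds, h2⟩

theorem mono (hO : IsOpen O) (k : O ⊆ S) : Clo F O A Q α :=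
  ⟨⟨hO, fun a x hx => h.sA a x (k hx), fun a x hx => h.pA a x (k hx), fun x hx => h.sQ x (k hx),
    fun a x hx => h.nQ a x (k hx), fun a b x hx => h.cQ a b x (k hx)⟩, fun a x hx => h.sα a x (k hx),
    fun a x hx => h.pα a x (k hx), fun a x hx => h.qα a x (k hx), fun a b x hx => h.cl a b x (k hx)⟩

end Clo

theorem sur_box {Y : Type} [TopologicalSpace Y] {W : Set Y} (hW : IsOpen W) {A J : Set ℝ}
    (hA : IsOpen A) (hJ : IsOpen J) (cA : A.OrdConnected) (cJ : J.OrdConnected) (ne : A.Nonempty)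
    (hAJ : A ⊆ J) : Sur (W ×ˢ A) (W ×ˢ J) := by
  have := (sur_slab (Y := W) hA hJ cA cJ ne hAJ).image'
    (hW.isOpenEmbedding_subtypeVal.prodMap IsOpenEmbedding.id) (prod_mono_right hAJ)
  simpa only [prodMap_image_prod, image_univ, Subtype.range_coe, image_id] using this

section cyl
variable [T2Space M] [BorelSpace M] [SecondCountableTopology M] [SigmaCompactSpace M]
  {F : Fr I M ι}
  {A : Option ι → M × ℝ → V →L[ℝ] V} {Q : M × ℝ → V →L[ℝ] V} {α : Option ι → M × ℝ → V}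
  {ξ : M × ℝ → V} {T : Set ℝ} {f g : ℝ → ℝ}

/-- the vertical estimate -/
theorem vert (cT : T.OrdConnected) (hg : ∀ t ∈ T, HasDerivAt g (f t) t) {y : M}
    (h : ∀ t ∈ T, SA (IC I) ξ (y, t) ∧ Skew (A none (y, t)) ∧
      ‖nab (IC I) (cyl F).e A none ξ (y, t)‖ ≤ f t) {s t : ℝ} (hs : s ∈ T) (ht : t ∈ T) :
    ‖ξ (y, t)‖ ≤ ‖ξ (y, s)‖ + |g t - g s| := by
  refine le_of_forall_pos_le_add fun ε hε => ?_
  have d : ∀ t ∈ T, ∃ c, HasDerivAt (fun s => nr ε ξ (y, s)) c t ∧ |c| ≤ f t := fun t ht =>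
    have k := (sa_nr hε (h t ht).1).md
    ⟨_, (diff_slice_snd k).hasDerivAt, by
      rw [← D_none_at F.toPre k]
      exact (D_nr (cylP F.toPre) hε (h t ht).1 (h t ht).2.1).trans (h t ht).2.2⟩
  choose! c c1 c2 using d
  have m : ∀ σ : ℝ, |σ| = 1 → MonotoneOn (fun s => g s + σ * nr ε ξ (y, s)) T := fun σ hσ =>
    monotoneOn_of_hasDerivWithinAt_nonneg (f' := fun t => f t + σ * c t) cT.convex
      (fun t ht => ((hg t ht).add ((c1 t ht).const_mul σ)).continuousAt.continuousWithinAt)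
      (fun t ht => ((hg t (interior_subset ht)).add
        ((c1 t (interior_subset ht)).const_mul σ)).hasDerivWithinAt) fun t ht => by
        have := neg_abs_le (σ * c t)
        rw [abs_mul, hσ, one_mul] at this
        linarith [c2 t (interior_subset ht)]
  have a1 := le_nr (ε := ε) (ξ := ξ) (x := (y, t))
  have a2 := nr_le (ξ := ξ) (x := (y, s)) hε
  rcases le_total s t with k | k
  · have := m (-1) (by simp) hs ht k
    linarith [le_abs_self (g t - g s)]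
  · have := m 1 (by simp) ht hs k
    linarith [neg_abs_le (g t - g s)]

theorem Clo.exists_box (h : Clo (cyl F) (univ ×ˢ T) A Q α) (hT : IsOpen T) (cT : T.OrdConnected)
    (y : M) {t : ℝ} (ht : t ∈ T) : ∃ W ∈ 𝓝 y, IsOpen W ∧ ∀ v, Q (y, t) v = v →
      ∃ ξ, ξ (y, t) = v ∧ ∀ z ∈ W ×ˢ T, PR (cyl F) A Q α ξ z := by
  obtain ⟨O, h1, -, -, h4⟩ := h.exists_loc (x := (y, t)) ⟨trivial, ht⟩
  obtain ⟨W₀, k1, J, k2, k3⟩ := mem_nhds_prod_iff.1 h1
  obtain ⟨W, k4, k5, k6⟩ := mem_nhds_iff.1 k1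
  obtain ⟨ε, hε, hb⟩ := Metric.mem_nhds_iff.1 (inter_mem k2 (hT.mem_nhds ht))
  refine ⟨W, k5.mem_nhds k6, k5, fun v hv => ?_⟩
  obtain ⟨ξ, e1, e2⟩ := h4 _ (mem_of_mem_nhds h1) v hv
  obtain ⟨ξ', e3, e4⟩ := (h.mono (k5.prod hT) (prod_mono_left (subset_univ _))).ext
    (sur_box k5 Metric.isOpen_ball hT (convex_ball t ε).ordConnected cT ⟨t, Metric.mem_ball_self hε⟩
      fun s hs => (hb hs).2) (k5.prod Metric.isOpen_ball) fun z hz =>
        e2 z (k3 ⟨k4 hz.1, (hb hz.2).1⟩)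
  exact ⟨ξ', (e4 ⟨k6, Metric.mem_ball_self hε⟩).trans e1, e3⟩

/-- **the decaying primitive of a decaying closed form on an end** -/
theorem Clo.prim (h : Clo (cyl F) (univ ×ˢ T) A Q α) (hT : IsOpen T) (cT : T.OrdConnected)
    (sk : ∀ a, ∀ x ∈ (univ : Set M) ×ˢ T, Skew (A a x)) (hg : ∀ t ∈ T, HasDerivAt g (f t) t)
    (hb : ∀ a, ∀ x ∈ (univ : Set M) ×ˢ T, ‖α a x‖ ≤ f x.2) {τ : ℕ → ℝ} (hτ : ∀ n, τ n ∈ T)
    (f0 : Tendsto (fun n => f (τ n)) atTop (𝓝 0)) (g0 : Tendsto (fun n => g (τ n)) atTop (𝓝 0)) :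
    ∃ ξ, ∀ x ∈ (univ : Set M) ×ˢ T, PR (cyl F) A Q α ξ x ∧ ‖ξ x‖ ≤ |g x.2| := by
  have v1 : ∀ {ξ y}, (∀ t ∈ T, PR (cyl F) A Q α ξ (y, t)) → ∀ s ∈ T, ∀ t ∈ T,
      ‖ξ (y, t)‖ ≤ ‖ξ (y, s)‖ + |g t - g s| := fun k s hs t ht => vert cT hg (fun t ht =>
    ⟨(k t ht).sm, sk _ _ ⟨trivial, ht⟩, (k t ht).eq none ▸ hb _ _ ⟨trivial, ht⟩⟩) hs ht
  have v0 : ∀ {ξ ξ' y}, (∀ t ∈ T, PR (cyl F) A Q α ξ (y, t)) → (∀ t ∈ T, PR (cyl F) A Q α ξ' (y, t))
      → ∀ s ∈ T, ∀ t ∈ T, ‖ξ (y, t) - ξ' (y, t)‖ ≤ ‖ξ (y, s) - ξ' (y, s)‖ :=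
    fun {ξ ξ' y} k k' s hs t ht => by
      simpa using vert (ξ := fun z => ξ z - ξ' z) cT (fun t _ => hasDerivAt_const t (0 : ℝ))
        (fun t ht => ⟨((k t ht).sub (k' t ht)).sm, sk _ _ ⟨trivial, ht⟩, by
          rw [((k t ht).sub (k' t ht)).eq]; simp⟩) hs ht
  have loc : ∀ y : M, ∃ W ∈ 𝓝 y, ∃ ξ, ∀ z ∈ W ×ˢ T, PR (cyl F) A Q α ξ z ∧ ‖ξ z‖ ≤ |g z.2| := by
    intro y
    choose W w1 _ w3 using fun n => h.exists_box hT cT y (hτ n)
    choose ξ x1 x2 using fun n => w3 n 0 (map_zero _)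
    have x3 := fun n t ht => x2 n (y, t) ⟨mem_of_mem_nhds (w1 n), ht⟩
    have cs : CauchySeq fun n => ξ n (y, τ 0) := by
      refine cauchySeq_iff_tendsto_dist_atTop_0.2 (squeeze_zero (fun _ => dist_nonneg)
        (g := fun p : ℕ × ℕ => |g (τ p.2) - g (τ p.1)|) (fun p => ?_) ?_)
      · rw [dist_eq_norm]
        refine (v0 (x3 _) (x3 _) _ (hτ p.2) _ (hτ 0)).trans ?_
        simpa [x1] using v1 (x3 p.1) _ (hτ p.1) _ (hτ p.2)
      · rw [← prod_atTop_atTop_eq]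
        simpa using ((g0.comp tendsto_snd).sub (g0.comp tendsto_fst)).abs
    obtain ⟨w, hw⟩ := cauchySeq_tendsto_of_complete cs
    obtain ⟨η, e1, e2⟩ := w3 0 w (tendsto_nhds_unique (((Q _).continuous.tendsto w).comp hw)
      (hw.congr fun n => (x3 n _ (hτ 0)).mem.symm))
    have e3 : Tendsto (fun n => ‖η (y, τ n)‖) atTop (𝓝 0) :=
      squeeze_zero (fun _ => norm_nonneg _) (fun n => by
        simpa [x1, e1] using v0 (fun t ht => e2 (y, t) ⟨mem_of_mem_nhds (w1 0), ht⟩) (x3 n) _ (hτ 0)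
          _ (hτ n)) (by simpa using (hw.const_sub w).norm)
    obtain ⟨W', m1, m2, C, -, m3⟩ := mvt (N := ℝ) F y (w1 0)
    refine ⟨W', m1, η, fun z hz => ⟨e2 z ⟨m2 hz.1, hz.2⟩, ?_⟩⟩
    have e4 : ∀ n, ‖η (z.1, τ n)‖ ≤ ‖η (y, τ n)‖ + C * |f (τ n)| := fun n =>
      le_of_forall_pos_le_add fun ε hε => by
        have := m3 (fun y => nr ε η (y, τ n)) (f (τ n)) (fun y hy =>
          have k := e2 (y, τ n) ⟨hy, hτ n⟩
          ⟨mdiff_slice_fst (x := (y, τ n)) (sa_nr hε k.sm).md, fun a => by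
            rw [← D_some_at F.toPre (x := (y, τ n)) (sa_nr hε k.sm).md]
            exact (D_nr (cylP F.toPre) hε k.sm (sk _ _ ⟨trivial, hτ n⟩)).trans
              ((congrArg norm (k.eq (some a))).trans_le (hb _ _ ⟨trivial, hτ n⟩))⟩) _ hz.1
        linarith [le_nr (ε := ε) (ξ := η) (x := (z.1, τ n)), nr_le (ξ := η) (x := (y, τ n)) hε,
          (abs_le.1 this).2]
    have e5 := (e3.add (f0.abs.const_mul C)).add (g0.const_sub (g z.2)).abs
    simp only [abs_zero, mul_zero, add_zero, sub_zero, zero_add] at e5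
    exact ge_of_tendsto' e5 fun n => (v1 (fun t ht => e2 (z.1, t) ⟨m2 hz.1, ht⟩) _ (hτ n) _
      hz.2).trans (add_le_add (e4 n) le_rfl)
  choose W w1 ξ w2 using loc
  have e : ∀ y y', y' ∈ W y → ∀ t ∈ T, ξ y' (y', t) = ξ y (y', t) := fun y y' hy t ht => by
    have k := fun t ht => w2 y' (y', t) ⟨mem_of_mem_nhds (w1 y'), ht⟩
    have k' := fun t ht => w2 y (y', t) ⟨hy, ht⟩
    have := g0.abs.add g0.abs
    rw [abs_zero, add_zero] at this
    exact sub_eq_zero.1 (norm_le_zero_iff.1 (ge_of_tendsto' this fun n =>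
      (v0 (fun t ht => (k t ht).1) (fun t ht => (k' t ht).1) _ (hτ n) _ ht).trans
        ((norm_sub_le _ _).trans (add_le_add (k _ (hτ n)).2 (k' _ (hτ n)).2))))
  refine ⟨fun x => ξ x.1 x, fun x hx => ?_⟩
  have k := w2 x.1 x ⟨mem_of_mem_nhds (w1 _), hx.2⟩
  exact ⟨k.1.congr (mem_of_superset (prod_mem_nhds (w1 x.1) (hT.mem_nhds hx.2)) fun z hz =>
    e _ _ hz.1 _ hz.2), k.2⟩

end cyl

end Crest.Agent.X212.Dfl49
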