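import Crest.Agent.X212.Dfl49.Par
import Crest.Agent.X212.Std94.Loc
import Crest.Agent.X212.Loc66.Paste
import Crest.Agent.X212.Tmp64.Sq

/-!
# Row 212, DFLAT (helper49), file 4: the connection on intertwiners; flat connections are
determined near the end
-/

set_option autoImplicit false
set_option linter.unusedSectionVars false
noncomputable section
open Set Function Filter Topology Module
open scoped ContDiff Manifold InnerProductSpace

namespace Crest.Agent.X212.Dfl49
open An Sob92 Wz78 Pj41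
open Std94 (Itx Pix PMx pmx_on itx_Pix Pix_of_itx itx_norm hs)
open Eqv71 (inner_trn' cj)

theorem Sur.prop {X : Type} [TopologicalSpace X] {O S : Set X} (h : Sur O S) {P : X → Prop}
    (hP : ∀ x ∈ S, ∀ᶠ y in 𝓝 x, (P y ↔ P x)) (h0 : ∀ x ∈ O, P x) : ∀ x ∈ S, P x := by
  obtain ⟨-, k, -⟩ := h Unit (fun x _ => P x) ⟨fun _ _ _ h _ => h,
    fun _ _ _ _ _ _ _ => .of_forall fun _ => rfl, fun x hx => ⟨_, hP x hx, fun y hy s hs =>
      ⟨s, fun z hz => hz.2 (hy.1 hs), rfl⟩⟩⟩ (fun _ => ()) h0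
  exact k

variable {E : Type} [NormedAddCommGroup E] [NormedSpace ℝ E] [FiniteDimensional ℝ E]
  [MeasurableSpace E] [BorelSpace E]
  {HM : Type} [TopologicalSpace HM] {I : ModelWithCorners ℝ E HM} [I.Boundaryless]
  {M : Type} [TopologicalSpace M] [ChartedSpace HM M] [IsManifold I ∞ M]
  [MeasurableSpace M] {ι : Type} [Fintype ι] {lam : Type} [Fintype lam]
  {B : Base M ι lam} {G : Geo I M ι lam} {m m' m'' : Md M ι lam} {O S : Set M} {x : M}
  {W : m.Cn} {W' : m'.Cn}

section gen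
variable {V V' : Type} [NormedAddCommGroup V] [NormedSpace ℝ V] [NormedAddCommGroup V']
  [NormedSpace ℝ V'] {e : ι → (x : M) → TangentSpace I x} {c : ι → ι → ι → M → ℝ}
  {A : ι → M → V →L[ℝ] V} {A' : ι → M → V' →L[ℝ] V'} {T : M → V →L[ℝ] V'}

/-- the connection on homomorphisms -/
def hA (A : ι → M → V →L[ℝ] V) (A' : ι → M → V' →L[ℝ] V') (a : ι) (x : M) :
    (V →L[ℝ] V') →L[ℝ] V →L[ℝ] V' :=
  ContinuousLinearMap.compL ℝ V V' V' (A' a x) - (ContinuousLinearMap.compL ℝ V V V').flip (A a x)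

theorem hA_apply (a : ι) (x : M) (T : V →L[ℝ] V') : hA A A' a x T = A' a x ∘L T - T ∘L A a x := rfl

theorem sa_hA {a : ι} (h : SA I (A a) x) (h' : SA I (A' a) x) : SA I (hA A A' a) x :=
  (h'.clm _).sub (h.clm _)

theorem nab_hA (a : ι) : nab I e (hA A A') a T x = dv I (e a) T x + A' a x ∘L T x - T x ∘L A a x := by
  rw [nab, hA_apply, add_sub_assoc]

theorem curv_hA (h : ∀ a, SA I (A a) x) (h' : ∀ a, SA I (A' a) x) (a b : ι) (T : V →L[ℝ] V') :
    curv I e c (hA A A') a b x T = curv I e c A' a b x ∘L T - T ∘L curv I e c A a b x := by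
  have k : ∀ a b, dv I (e a) (hA A A' b) x T = dv I (e a) (A' b) x ∘L T - T ∘L dv I (e a) (A b) x :=
    fun a b => by
      rw [show hA A A' b = fun y => ContinuousLinearMap.compL ℝ V V' V' (A' b y) -
        (ContinuousLinearMap.compL ℝ V V V').flip (A b y) from rfl,
        dv_sub' ((h' b).clm _) ((h b).clm _), dv_clm _ (h' b).md, dv_clm _ (h b).md]
      rfl
  ext v
  simp only [curv, sub_apply, add_apply, mul_apply_eq_comp, _root_.sum_apply, smul_apply, k,
    hA_apply, ContinuousLinearMap.comp_apply, map_sub, map_add, map_sum, map_smul, smul_sub,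
    Finset.sum_sub_distrib]
  abel

theorem itw_nab {R : M → V →L[ℝ] V} {R' : M → V' →L[ℝ] V'} (hT : SA I T x) (hR : SA I R x)
    (hR' : SA I R' x) (h : ∀ᶠ y in 𝓝 x, ∀ v, T y (R y v) = R' y (T y v)) (a : ι)
    (h' : ∀ v, T x (nabE I e A a R x v) = nabE I e A' a R' x (T x v)) (v : V) :
    nab I e (hA A A') a T x (R x v) = R' x (nab I e (hA A A') a T x v) := by
  have c : SA I (fun _ : M => v) x := contMDiffAt_const
  have k := dv_congr (I := I) (e := e a) (h.mono fun y hy => hy v)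
  rw [dv_app hT.md (hR.app c).md, dv_app hR.md c.md, dv_app hR'.md (hT.app c).md,
    dv_app hT.md c.md] at k
  have k2 := h' v
  simp only [dv_const, Pi.zero_apply, map_zero, add_zero] at k
  simp only [nabE, add_apply, sub_apply, mul_apply_eq_comp, map_add, map_sub,
    h.self_of_nhds] at k2
  simp only [nab_hA, add_apply, sub_apply, ContinuousLinearMap.comp_apply, map_add, map_sub,
    h.self_of_nhds]
  rw [eq_sub_of_add_eq k, eq_sub_of_add_eq k2]; abel

end gen

theorem skw_curv {κ : Type} [Fintype κ] {e : ι → (x : M) → TangentSpace I x}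
    {c : ι → ι → ι → M → ℝ} {A : ι → M → En κ} (hs : ∀ a, SA I (A a) x)
    (h : ∀ᶠ y in 𝓝 x, ∀ a, Skw (A a y)) (a b : ι) : Skw (curv I e c A a b x) := by
  have k : ∀ a b, Skw (dv I (e a) (A b) x) := fun a b => by
    have := dv_clm (e := e a) (1 + Std94.trL : CL (En κ) (En κ)) (hs b).md
    rw [dv_congr (v := fun _ => 0) (h.mono fun y hy => ?_), dv_const] at this
    · intro v w
      have h2 := congrArg (fun T : En κ => ⟪T v, w⟫_ℝ) this
      simp only [Pi.zero_apply, zero_apply, inner_zero_left, add_apply, one_apply_eq_self,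
        Std94.trL_apply, inner_add_left, Eqv71.inner_trn] at h2
      linarith
    · refine ContinuousLinearMap.ext fun v => ext_inner_right ℝ fun w => ?_
      simp only [add_apply, one_apply_eq_self, Std94.trL_apply, inner_add_left, Eqv71.inner_trn, hy b v w,
        zero_apply, inner_zero_left, neg_add_cancel]
  intro v w
  simp only [curv, sub_apply, add_apply, mul_apply_eq_comp, _root_.sum_apply, smul_apply,
    inner_sub_left, inner_add_left, inner_sub_right, inner_add_right, sum_inner, inner_sum,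
    real_inner_smul_left, real_inner_smul_right, k _ _ v, h.self_of_nhds _ _, mul_neg,
    Finset.sum_neg_distrib]
  ring

theorem itx_comp {T : CL m.V m'.V} {T' : CL m'.V m''.V} (i : Itx m m' x T) (i' : Itx m' m'' x T') :
    Itx m m'' x (T' ∘L T) :=
  ⟨fun _ => i'.pl _, fun y => congrArg T' (i.pr y), fun a y => (congrArg T' (i.ρ a y)).trans (i'.ρ a _),
    fun y => (congrArg T' (i.J y)).trans (i'.J _), fun s y => (congrArg T' (i.j s y)).trans (i'.j s _)⟩

theorem itx_trn (H : PMx B m x) (H' : PMx B m' x) {T : CL m.V m'.V} (i : Itx m m' x T) :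
    Itx m' m x (trn T) := by
  refine ⟨fun y => ?_, fun y => ?_, fun a y => ?_, fun y => ?_, fun s y => ?_⟩ <;>
    refine ext_inner_right ℝ fun w => ?_
  · rw [H.psym, Eqv71.inner_trn, Eqv71.inner_trn, i.pr]
  · rw [Eqv71.inner_trn, Eqv71.inner_trn, H'.psym, i.pl]
  · rw [Eqv71.inner_trn, H.ρsk, H'.ρsk, Eqv71.inner_trn, i.ρ]
  · rw [Eqv71.inner_trn, H.Jsk, H'.Jsk, Eqv71.inner_trn, i.J]
  · rw [Eqv71.inner_trn, H.jsym, H'.jsym, Eqv71.inner_trn, i.j]

theorem itx_zero (hB : B.OK I) (H : PMx B m x) (H' : PMx B m' x) {T : CL m.V m'.V}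
    (i : Itx m m' x T) {X : En (Fin m.N)} {X' : En (Fin m'.N)} (s : Skw X) (s' : Skw X')
    (g : m.pg x (hsL X) = 0) (g' : m'.pg x (hsL X') = 0) (hp : X * m.p x = m.p x * X)
    (r : Itx m m' x (X' ∘L T - T ∘L X)) : X' ∘L T - T ∘L X = 0 := by
  obtain ⟨n1, n2⟩ := itx_norm hB H H' i
  have n1' : ∀ v, trn T (T v) = (hs T T / 16) • m.p x v := fun v => congrArg (fun S : En _ => S v) n1
  have n2' : ∀ v, T (trn T v) = (hs T T / 16) • m'.p x v := fun v => congrArg (fun S : En _ => S v) n2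
  have hp' : ∀ v, X (m.p x v) = m.p x (X v) := fun v => congrArg (fun S : En _ => S v) hp
  have it := itx_trn H H' i
  have k := Std94.Fx.mem_of_itx (itx_comp r it) fun v w => by
    simp only [ContinuousLinearMap.comp_apply, sub_apply, map_sub, n1', inner_sub_left,
      inner_sub_right, Eqv71.inner_trn, inner_trn', real_inner_smul_left, real_inner_smul_right, s' _ _]
    rw [H.psym (X v), s, hp']; ring
  have k2 : hsL (trn T ∘L (X' ∘L T - T ∘L X)) = 0 := by
    rw [← pg_of_mem k]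
    refine pg_eq_zero fun η hη => ?_
    obtain ⟨U, t, u, f⟩ := Std94.exists_fx hB H
    have h1 : cj T η ∈ m'.gS x := by
      rw [Eqv71.cj_apply]
      refine Std94.Fx.mem_of_itx (itx_comp (itx_comp it (f.itx_of_mem hη)) i) fun v w => ?_
      simp only [ContinuousLinearMap.comp_apply, ← inner_trn' T, hη.1 _ _, Eqv71.inner_trn T]
    have h2 : ⟪η, hsL (trn T ∘L X' ∘L T)⟫_ℝ = 0 := by
      have := Eqv71.inner_cj T η (hsL X')
      rw [Eqv71.cj_hsL, Eqv71.trn_trn] at this
      rw [← this, ← pg_of_mem h1, inner_pg, g', inner_zero_right]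
    have h3 : trn T ∘L T ∘L X = (hs T T / 16) • (X * m.p x) := by
      rw [← ContinuousLinearMap.comp_assoc, n1, hp, ContinuousLinearMap.smul_comp]; rfl
    rw [ContinuousLinearMap.comp_sub, map_sub, inner_sub_right, h2, h3, map_smul,
      real_inner_smul_right, ← pg_of_mem hη, inner_pg, pg_mul_p, g]
    simp
  have k3 : ∀ v, trn T ((X' ∘L T - T ∘L X) v) = 0 := fun v => by
    have := congrArg (fun ξ => opL ξ v) k2
    simp only [Eqv71.opL_hsL, map_zero, zero_apply] at this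
    exact this
  by_cases c : hs T T / 16 = 0
  · have : T = 0 := ContinuousLinearMap.ext fun v => by
      rw [zero_apply, ← inner_self_eq_zero (𝕜 := ℝ), ← Eqv71.inner_trn, n1', c]; simp
    simp [this]
  · refine ContinuousLinearMap.ext fun v => ?_
    have := congrArg T (k3 v)
    rw [n2', r.pl, map_zero] at this
    exact (smul_eq_zero.1 this).resolve_left c

/-- two modules with connections over an open set -/
structure Two (B : Base M ι lam) (G : Geo I M ι lam) (W : m.Cn) (W' : m'.Cn) (S : Set M) :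
    Prop where
  hB : B.OK I
  hG : G.F.P = B.P
  op : IsOpen S
  H : OKOn I B m S
  H' : OKOn I B m' S
  C : ConnOn B G m W S
  C' : ConnOn B G m' W' S

namespace Two
variable (h : Two B G W W' S)
include h

theorem mono (hO : IsOpen O) (k : O ⊆ S) : Two B G W W' O :=
  ⟨h.hB, h.hG, hO, h.H.mono k, h.H'.mono k, h.C.mono k, h.C'.mono k⟩

theorem sa_Pix (hx : x ∈ S) : SA I (Pix m m') x :=
  Std94.Kl.Pi (K := Std94.smAt I x) contMDiffAt_const (fun a => h.H.sρ a x hx) (h.H.sj x hx)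
    contMDiffAt_const (fun a => h.H'.sρ a x hx) (h.H'.sj x hx)

theorem pix (hx : x ∈ S) {T : CL m.V m'.V} : Pix m m' x T = T ↔ Itx m m' x T :=
  ⟨fun e => e ▸ itx_Pix h.hB (pmx_on h.H hx) (pmx_on h.H' hx) T,
    Pix_of_itx h.hB (pmx_on h.H hx) (pmx_on h.H' hx)⟩

theorem sA (hx : x ∈ S) (a : ι) : SA I (hA W W' a) x := sa_hA (h.C.sm a x hx) (h.C'.sm a x hx)

theorem itx_nab (hx : x ∈ S) {T : M → CL m.V m'.V} (hT : SA I T x)
    (i : ∀ᶠ y in 𝓝 x, Itx m m' y (T y)) (a : ι) : Itx m m' x (nab I G.F.e (hA W W') a T x) := by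
  have c1 : SA I (fun _ : M => (1 : En (Fin m.N))) x := contMDiffAt_const
  have c2 : SA I (fun _ : M => (1 : En (Fin m'.N))) x := contMDiffAt_const
  have p1 : nabE I G.F.e W a m.p x = 0 := h.C.par a x hx
  have p2 : nabE I G.F.e W' a m'.p x = 0 := h.C'.par a x hx
  have j : ∀ {n : Md M ι lam} {U : n.Cn}, OKOn I B n S → ConnOn B G n U S → ∀ s,
      nabE I G.F.e U a (fun y => n.j y s) x = n.j x (G.a a x s) := fun k k' s => by
    rw [← k'.j a x hx s, nabE, dv_app (SA.md (k.sj x hx)) mdifferentiableAt_const]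
    simp [Pre.D_def]
  refine ⟨fun v => (itw_nab hT c1 (h.H'.sp x hx) (i.mono fun y k v => (k.pl v).symm) a
      (fun v => by rw [p2]; simp [nabE]) v).symm,
    itw_nab hT (h.H.sp x hx) c2 (i.mono fun y k => k.pr) a (fun v => by rw [p1]; simp [nabE]),
    fun b => itw_nab hT (h.H.sρ b x hx) (h.H'.sρ b x hx) (i.mono fun y k => k.ρ b) a fun v => ?_,
    itw_nab (R := fun _ => m.J) (R' := fun _ => m'.J) hT contMDiffAt_const contMDiffAt_const
      (i.mono fun y k => k.J) a fun v => by simp [nabE, h.C.J a x hx, h.C'.J a x hx],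
    fun s => itw_nab hT (SA.app (h.H.sj x hx) contMDiffAt_const)
      (SA.app (h.H'.sj x hx) contMDiffAt_const) (i.mono fun y k => k.j s) a fun v => by
        rw [j h.H h.C, j h.H' h.C', i.self_of_nhds.j]⟩
  rw [show nabE I G.F.e W a (m.ρ b) x = _ from h.C.comp a b x hx,
    show nabE I G.F.e W' a (m'.ρ b) x = _ from h.C'.comp a b x hx]
  simp only [_root_.sum_apply, smul_apply, map_sum, map_smul, i.self_of_nhds.ρ]

theorem nQ (hx : x ∈ S) (a : ι) : nabE I G.F.e (hA W W') a (Pix m m') x * Pix m m' x = 0 := by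
  ext1 T
  have s : SA I (fun y => Pix m m' y T) x := (h.sa_Pix hx).app contMDiffAt_const
  have i : ∀ᶠ y in 𝓝 x, Itx m m' y (Pix m m' y T) := (h.op.eventually_mem hx).mono fun y hy =>
    itx_Pix h.hB (pmx_on h.H hy) (pmx_on h.H' hy) T
  have := nab_app' (e := G.F.e) (A := hA W W') a (h.sa_Pix hx) s
  rw [nab_congr a (v := fun y => Pix m m' y T) ((i.and (h.op.eventually_mem hx)).mono
    fun y hy => (h.pix hy.2).2 hy.1)] at this
  have k := (h.pix hx).2 (h.itx_nab hx s i a)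
  generalize nab I G.F.e (hA W W') a (fun y => Pix m m' y T) x = Z at this k
  rw [k, right_eq_add] at this
  rw [mul_apply_eq_comp, this, zero_apply]

/-- **the curvature on intertwiners** -/
theorem curv_itx (hx : x ∈ S) {T : CL m.V m'.V} (i : Itx m m' x T) (a b : ι) :
    curv I G.F.e G.F.c (hA W W') a b x T =
      opL (m'.Fg G.F W' x (a, b)) ∘L T - T ∘L opL (m.Fg G.F W x (a, b)) := by
  have ev := h.op.eventually_mem hx
  have s : ∀ y ∈ S, SA I (fun y => Pix m m' y T) y := fun y hy => (h.sa_Pix hy).app contMDiffAt_const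
  have i0 : ∀ y ∈ S, ∀ᶠ z in 𝓝 y, Itx m m' z (Pix m m' z T) := fun y hy =>
    (h.op.eventually_mem hy).mono fun y hy => itx_Pix h.hB (pmx_on h.H hy) (pmx_on h.H' hy) T
  have i1 := fun a y hy => h.itx_nab hy (s y hy) (i0 y hy) a
  have i2 := fun a b => (h.pix hx).2 (h.itx_nab hx ((frm G.F).sN (h.sA hx) b (s x hx))
    (ev.mono (i1 b)) a)
  have k := (frm G.F).nab_comm (h.sA hx) a b (s x hx)
  rw [(h.pix hx).2 i] at k
  have r : Pix m m' x (curv I G.F.e G.F.c (hA W W') a b x T) =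
      curv I G.F.e G.F.c (hA W W') a b x T := by
    rw [← k]; simp only [map_sub, map_sum, map_smul, i2, fun a => (h.pix hx).2 (i1 a x hx)]
  obtain ⟨U, t, u, f⟩ := Std94.exists_fx h.hB (pmx_on h.H hx)
  obtain ⟨U', t', u', f'⟩ := Std94.exists_fx h.hB (pmx_on h.H' hx)
  have g1 := f.itx_of_mem (Loc66.Fg_mem G.F W x (a, b))
  have g2 := f'.itx_of_mem (Loc66.Fg_mem G.F W' x (a, b))
  have sk : ∀ {κ : Type} [Fintype κ] {X Y : En κ}, Skw X → Skw Y → Skw (X - Y) :=
    fun a b v w => by simp only [sub_apply, inner_sub_left, inner_sub_right, a v, b v]; ring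
  have q := curv_hA (e := G.F.e) (c := G.F.c) (h.C.sm · x hx) (h.C'.sm · x hx) a b T
  generalize curv I G.F.e G.F.c (hA W W') a b x T = Z at r q ⊢
  subst q
  have e : (curv I G.F.e G.F.c W' a b x - opL (m'.Fg G.F W' x (a, b))) ∘L T -
      T ∘L (curv I G.F.e G.F.c W a b x - opL (m.Fg G.F W x (a, b))) =
      (curv I G.F.e G.F.c W' a b x ∘L T - T ∘L curv I G.F.e G.F.c W a b x) -
      (opL (m'.Fg G.F W' x (a, b)) ∘L T - T ∘L opL (m.Fg G.F W x (a, b))) := by
    rw [ContinuousLinearMap.sub_comp, ContinuousLinearMap.comp_sub]; abel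
  rw [← sub_eq_zero, ← e]
  refine itx_zero h.hB (pmx_on h.H hx) (pmx_on h.H' hx) i
    (sk (skw_curv (h.C.sm · x hx) (ev.mono fun y hy a => h.C.sk a y hy) a b)
      (Loc66.Fg_mem G.F W x (a, b)).1)
    (sk (skw_curv (h.C'.sm · x hx) (ev.mono fun y hy a => h.C'.sk a y hy) a b)
      (Loc66.Fg_mem G.F W' x (a, b)).1) ?_ ?_ ?_ ?_
  · rw [map_sub, map_sub, Eqv71.hsL_opL, pg_of_mem (Loc66.Fg_mem G.F W x (a, b))]; exact sub_self _
  · rw [map_sub, map_sub, Eqv71.hsL_opL, pg_of_mem (Loc66.Fg_mem G.F W' x (a, b))]; exact sub_self _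
  · rw [sub_mul, mul_sub, (frm G.F).curv_par (h.C.sm · x hx) (h.H.sp x hx)
      (fun a => ev.mono (h.C.par a)) a b, (Loc66.Fg_mem G.F W x (a, b)).2.1]
    exact congrArg _ (ContinuousLinearMap.ext g1.pr)
  · rw [← h.pix hx, e, map_sub, r, map_sub, (h.pix hx).2 (itx_comp i g2), (h.pix hx).2 (itx_comp g1 i)]

theorem pA (hx : x ∈ S) (a : ι) : ∑ b, G.F.P a b x • hA W W' b x = hA W W' a x := by
  simp only [hA, smul_sub, Finset.sum_sub_distrib, ← map_smul, ← map_sum, h.hG, h.C.proj a x hx,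
    h.C'.proj a x hx]

theorem flt (f : ∀ x ∈ S, m.Fg G.F W x = 0) (f' : ∀ x ∈ S, m'.Fg G.F W' x = 0) :
    Flt G.F S (hA W W') (Pix m m') :=
  ⟨h.op, fun a _ hx => h.sA hx a, fun a _ hx => h.pA hx a, fun _ => h.sa_Pix,
    fun a _ hx => h.nQ hx a, fun a b x hx => ContinuousLinearMap.ext fun T => by
      rw [mul_apply_eq_comp, h.curv_itx hx (itx_Pix h.hB (pmx_on h.H hx) (pmx_on h.H' hx) T),
        f x hx, f' x hx]; simp⟩

theorem pa_of {u : M → CL m.V m'.V} (k : O ⊆ S) (i : Iso0 I m m' O u) (p : Par0 G.F W W' O u) :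
    ∀ x ∈ O, PA G.F (hA W W') (Pix m m') u x := fun x hx => by
  have ap : ∀ {S T : CL m.V m'.V}, S = T → ∀ v, S v = T v := fun e v => by rw [e]
  exact ⟨i.su x hx, (h.pix (k hx)).2 ⟨ap (i.iso x hx).left, ap (i.iso x hx).idem,
    fun a y => (ap (i.ρ x hx a) y).symm, fun y => (ap (i.J x hx) y).symm,
    fun s y => (ap (i.j x hx s) y).symm⟩, fun a => by rw [nab_hA]; exact p x hx a⟩

theorem par0_of {u : M → CL m.V m'.V} (p : ∀ x ∈ S, PA G.F (hA W W') (Pix m m') u x) :
    Par0 G.F W W' S u := fun x hx a => by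
  have := (p x hx).par a
  rwa [nab_hA] at this

/-- the norm of a parallel intertwiner is locally constant -/
theorem norm_ev {u : M → CL m.V m'.V} (p : ∀ x ∈ S, PA G.F (hA W W') (Pix m m') u x) (hx : x ∈ S) :
    ∀ᶠ y in 𝓝 x, hs (u y) (u y) = hs (u x) (u x) := by
  have ev := h.op.eventually_mem hx
  have su := fun x hx => (p x hx).sm
  have n := fun x hx => (itx_norm h.hB (pmx_on h.H hx) (pmx_on h.H' hx) ((h.pix hx).1 (p x hx).mem)).1
  have q := (h.par0_of p).trans ((h.par0_of p).symm su h.C.sk h.C'.sk) su fun x hx => FSm.ad (su x hx)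
  have h0 : Two B G W W S := ⟨h.hB, h.hG, h.op, h.H, h.H, h.C, h.C⟩
  have := par_uniq (F := G.F) (A := hA W W) (x := x) (s := fun y => ad (u y) ∘L u y)
    (s' := fun y => (hs (u x) (u x) / 16) • m.p y) (ev.mono fun y hy a => ⟨h0.sA hy a, h0.pA hy a⟩)
    (ev.mono fun y hy => ⟨(FSm.ad (su y hy)).clm_comp (su y hy), fun a => by
      rw [nab_hA]; exact q y hy a⟩)
    (ev.mono fun y hy => ⟨SA.smul contMDiffAt_const (h.H.sp y hy), fun a => by
      rw [nab_csmul a _ (h.H.sp y hy), show nab I G.F.e (hA W W) a m.p y = 0 from h.C.par a y hy,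
        smul_zero]⟩) (by rw [ad_trn, n x hx])
  filter_upwards [this, ev] with y h1 hy
  rw [ad_trn, n y hy] at h1
  have e3 := congrArg (fun T : En (Fin m.N) => LinearMap.trace ℝ _ (T : m.V →ₗ[ℝ] m.V)) h1
  simp only [ContinuousLinearMap.toLinearMap_smul, map_smul, h.H.prk y hy, smul_eq_mul] at e3
  linarith

theorem iso0_of {u : M → CL m.V m'.V} (p : ∀ x ∈ S, PA G.F (hA W W') (Pix m m') u x)
    (n : ∀ x ∈ S, hs (u x) (u x) = 16) : Iso0 I m m' S u := by
  have i := fun x hx => (h.pix hx).1 (p x hx).mem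
  refine ⟨fun x hx => (p x hx).sm, fun x hx => ?_,
    fun y hy => ContinuousLinearMap.ext fun v => ((i y hy).J v).symm,
    fun y hy b => ContinuousLinearMap.ext fun v => ((i y hy).ρ b v).symm,
    fun y hy s => ContinuousLinearMap.ext fun v => ((i y hy).j s v).symm⟩
  have := itx_norm h.hB (pmx_on h.H hx) (pmx_on h.H' hx) (i x hx)
  rw [n x hx, div_self (by norm_num), one_smul, one_smul, ← ad_trn] at this
  exact ⟨this.1, this.2, ContinuousLinearMap.ext (i x hx).pr⟩

/-- **UNIQ**: a parallel isomorphism of flat connections extends -/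
theorem uniq (f : ∀ x ∈ S, m.Fg G.F W x = 0) (f' : ∀ x ∈ S, m'.Fg G.F W' x = 0) (hs : Sur O S)
    (hO : IsOpen O) (k : O ⊆ S) {u : M → CL m.V m'.V} (i : Iso0 I m m' O u)
    (p : Par0 G.F W W' O u) : ∃ v, Iso0 I m m' S v ∧ Par0 G.F W W' S v ∧ EqOn v u O := by
  obtain ⟨v, h1, h2⟩ := (h.flt f f').ext hs hO (h.pa_of k i p)
  refine ⟨v, h.iso0_of h1 (hs.prop (fun x hx => (h.norm_ev h1 hx).mono fun y hy => by rw [hy])
    fun x hx => ?_), h.par0_of h1, h2⟩
  rw [h2 hx]
  exact Std94.hs_of_iso (pmx_on h.H (k hx)) (by rw [← ad_trn]; exact (i.iso x hx).src)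

/-- flat connections are locally isomorphic, with a prescribed value -/
theorem exists_loc (f : ∀ x ∈ S, m.Fg G.F W x = 0) (f' : ∀ x ∈ S, m'.Fg G.F W' x = 0) (hx : x ∈ S)
    {T : CL m.V m'.V} (i : Itx m m' x T) (n : trn T ∘L T = m.p x) :
    ∃ O v, IsOpen O ∧ x ∈ O ∧ O ⊆ S ∧ v x = T ∧ Iso0 I m m' O v ∧ Par0 G.F W W' O v := by
  obtain ⟨U, h1, h2, h3, h4⟩ := (h.flt f f').exists_loc hx
  obtain ⟨v, k1, k2⟩ := h4 x (mem_of_mem_nhds h1) T ((h.pix hx).2 i)
  obtain ⟨O, a1, a2, a3⟩ := mem_nhds_iff.1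
    (((h.mono h2 h3).norm_ev k2 (mem_of_mem_nhds h1)).and h1)
  have h' := h.mono a2 fun y hy => h3 (a1 hy).2
  have k3 := fun y hy => k2 y (a1 hy).2
  exact ⟨O, v, a2, a3, fun y hy => h3 (a1 hy).2, k1, h'.iso0_of k3 fun y hy => by
    rw [(a1 hy).1, k1, Std94.hs_of_iso (pmx_on h.H hx) n], h'.par0_of k3⟩

end Two

end Crest.Agent.X212.Dfl49
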