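import Crest.Agent.X212.Dfl49.Par
import Crest.Agent.X212.Rdc90.Nf
import Crest.Agent.X212.Kah60.Cut

/-!
# Row 212, DFLAT (helper49), file 6: anti-self-dual forms are closed; the maximum principle
-/

set_option autoImplicit false
set_option linter.unusedSectionVars false
noncomputable section
open Set Function Filter Topology MeasureTheory
open scoped ContDiff Manifold InnerProductSpace

namespace Crest.Agent.X212.Dfl49
open An Sob92 Wz78 Rdc90 Kah60 Finset
open Map77 (Vol)

section forms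
variable {E H : Type*} [NormedAddCommGroup E] [NormedSpace ℝ E] [TopologicalSpace H]
  {I : ModelWithCorners ℝ E H} {M : Type*} [TopologicalSpace M] [ChartedSpace H M]
  {V : Type*} [NormedAddCommGroup V] [InnerProductSpace ℝ V]
  {ι : Type} [Fintype ι] [IsManifold I 1 M] {e : ι → (x : M) → TangentSpace I x}
  {P : ι → ι → M → ℝ} {c Γ : ι → ι → ι → M → ℝ} {g : ι → M → ℝ} {A : ι → M → V →L[ℝ] V}
  {α : ι → M → V} {x : M} (L : LC I e P c Γ) (F : Frm I e P c)
include L

theorem ed_cov (hp : ∀ k, ∑ l, P k l x • α l x = α k x) (j k : ι) :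
    ed I e c A α j k x = cov I e Γ A α j k x - cov I e Γ A α k j x := by
  simp only [ed, cov, L.cD j k hp]; abel

theorem ed_anti (hp : ∀ k, ∑ l, P k l x • α l x = α k x) (j k : ι) :
    ed I e c A α j k x = -ed I e c A α k j x := by
  rw [ed_cov L hp, ed_cov L hp, neg_sub]

include F

theorem dv1_cov (hg : ∀ k, g k x = ∑ a, Γ a k a x) (hp : ∀ k, ∑ l, P k l x • α l x = α k x) :
    dv1 I e g A α x = ∑ a, cov I e Γ A α a a x := by
  simp only [dv1, cov, sum_add_distrib, sum_sub_distrib, L.div_sum F hg hp, sub_neg_eq_add]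

theorem cov_p1 (S : Sep I e P) (hA : Con I P A) (j b : ι) :
    ∑ a, P j a x • cov I e Γ A α a b x = cov I e Γ A α j b x := by
  simp only [cov, smul_sub, sum_sub_distrib, F.projN hA, smul_sum, smul_smul]
  rw [sum_comm]
  simp only [← sum_smul, L.proj1 F S]

theorem cov_p2 (hα : ∀ k, SA I (α k) x) (hp : ∀ᶠ y in 𝓝 x, ∀ k, ∑ l, P k l y • α l y = α k y)
    (a l : ι) : ∑ b, P l b x • cov I e Γ A α a b x = cov I e Γ A α a l x := by
  have h1 : nab I e A a (α l) x = ∑ b, (dv I (e a) (P l b) x • α b x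
      + P l b x • nab I e A a (α b) x) := by
    rw [nab_congr a (v := fun y => ∑ b, P l b y • α b y) (hp.mono fun y hy => (hy l).symm),
      nab_sum a _ fun b => (F.sP l b x).smul (hα b)]
    exact sum_congr rfl fun b _ => nab_smul a (F.sP l b x) (hα b)
  have h2 : ∑ b, P l b x • ∑ k, Γ a b k x • α k x = ∑ k, Γ a l k x • α k x
      - ∑ b, dv I (e a) (P l b) x • α b x := by
    simp only [smul_sum, smul_smul]
    rw [sum_comm]
    simp only [← sum_smul]
    simp only [L.proj2 F, sub_smul, sum_sub_distrib, sum_smul]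
    congr 1
    rw [sum_comm]
    exact sum_congr rfl fun k _ => by simp only [mul_smul, ← smul_sum, hp.self_of_nhds]
  simp only [cov, smul_sub, sum_sub_distrib, h2, h1, sum_add_distrib]
  abel

variable (S : Sep I e P) (hA : Con I P A) (hα : ∀ k, SA I (α k) x)
  (hp : ∀ᶠ y in 𝓝 x, ∀ k, ∑ l, P k l y • α l y = α k y)
include S hA hα hp

theorem ed_proj (a b : ι) : ∑ k, P a k x • ed I e c A α k b x = ed I e c A α a b x := by
  simp only [ed_cov L hp.self_of_nhds, smul_sub, sum_sub_distrib, cov_p1 L F S hA,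
    cov_p2 L F hα hp]

/-- `d d α = F ∧ α` -/
theorem d2_ed (a b m : ι) : d2 I e c A (ed I e c A α) a b m x = curv I e c A a b x (α m x) +
    curv I e c A b m x (α a x) + curv I e c A m a x (α b x) := by
  have hs := fun a => hA.sm a x
  have h := L.ricci F hs hα hp.self_of_nhds
  have sH := fun a b => L.sCov F hs hα a b
  have hc := fun a b m => L.cD (x := x) a b (T := fun k => cov I e Γ A α k m x)
    fun k => cov_p1 L F S hA k m
  have hc' := fun a b m => L.cD (x := x) a b (T := fun k => cov I e Γ A α m k x)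
    fun k => cov_p2 L F hα hp m k
  have hN : ∀ a b m, nab I e A a (ed I e c A α b m) x =
      nab I e A a (cov I e Γ A α b m) x - nab I e A a (cov I e Γ A α m b) x := fun a b m => by
    rw [← nab_sub a (sH b m) (sH m b)]
    exact nab_congr a (hp.mono fun y hy => ed_cov L hy b m)
  have hb : ∑ l, Rm I e c Γ a b m l x • α l x + ∑ l, Rm I e c Γ b m a l x • α l x
      + ∑ l, Rm I e c Γ m a b l x • α l x = 0 := by
    simp only [← sum_add_distrib, ← add_smul, L.Rm_bi F S, zero_smul, sum_const_zero]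
  simp only [d2, hN, h, ed_cov L hp.self_of_nhds, smul_sub, sum_sub_distrib, hc, hc']
  rw [← sub_eq_zero, ← neg_eq_zero, ← hb]; abel

end forms

variable {E : Type} [NormedAddCommGroup E] [NormedSpace ℝ E] [FiniteDimensional ℝ E]
  [MeasurableSpace E] [BorelSpace E]
  {HM : Type} [TopologicalSpace HM] {I : ModelWithCorners ℝ E HM}
  {M : Type} [TopologicalSpace M] [ChartedSpace HM M] [IsManifold I ∞ M]
  [MeasurableSpace M] [T2Space M] [BorelSpace M] {ι : Type} [Fintype ι]
  {V : Type} [NormedAddCommGroup V] [InnerProductSpace ℝ V]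
  {F : Fr I M ι} {U : Set M} {χ : ℕ → M → ℝ} {A : ι → M → V →L[ℝ] V} {α : ι → M → V}

theorem wedge_le (t : ℝ) (d : ι → ℝ) (a : ι → V) (θ : ι → ι → V) :
    -(4 * t * ∑ j, ∑ k, ⟪θ j k, d j • a k - d k • a j⟫_ℝ) ≤
      t * t * ∑ j, ∑ k, ‖θ j k‖ ^ 2 + 16 * ((∑ j, d j * d j) * ∑ k, ‖a k‖ ^ 2) := by
  have h : ∀ j k, -(4 * t * ⟪θ j k, d j • a k - d k • a j⟫_ℝ) ≤ t * t * ‖θ j k‖ ^ 2 +
      (8 * (d j * d j * ‖a k‖ ^ 2) + 8 * (d k * d k * ‖a j‖ ^ 2)) := fun j k => by
    have h1 := real_inner_self_nonneg (x := t • θ j k + (2 : ℝ) • (d j • a k - d k • a j))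
    have h2 := real_inner_self_nonneg (x := d j • a k + d k • a j)
    simp only [inner_add_left, inner_add_right, inner_sub_left, inner_sub_right,
      real_inner_smul_left, real_inner_smul_right, real_inner_comm (θ j k),
      real_inner_comm (a k) (a j), ← real_inner_self_eq_norm_sq] at h1 h2 ⊢
    linarith
  have := sum_le_sum fun j (_ : j ∈ Finset.univ) =>
    sum_le_sum fun k (_ : k ∈ Finset.univ) => h j k
  have e : ∑ j, ∑ k, 8 * (d k * d k * ‖a j‖ ^ 2) = ∑ j, ∑ k, 8 * (d j * d j * ‖a k‖ ^ 2) := sum_comm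
  simp only [sum_add_distrib, e, sum_neg_distrib] at this
  simp only [← mul_sum, ← sum_mul] at this
  linarith

/-- **an anti-self-dual form with values in a flat bundle is closed** -/
theorem closed_of_asd [F.μ.IsOpenPosMeasure] (hR : Riem F) (hA : Con I F.P A)
    (sk : ∀ a x, Skew (A a x)) {o : ι → ι → ι → ι → M → ℝ} (so : ∀ a b c d, Sm I (o a b c d))
    (ho : ∀ x, Vol (fun a b => F.P a b x) fun a b c d => o a b c d x) (hU : IsOpen U)
    (hχ : Cut I U χ) (sα : ∀ k, ∀ x ∈ U, SA I (α k) x)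
    (pα : ∀ x ∈ U, ∀ k, ∑ l, F.P k l x • α l x = α k x)
    (fl : ∀ x ∈ U, ∀ a b m, curv I F.e F.c A a b x (α m x) = 0)
    (asd : ∀ x ∈ U, ∀ j k, ∑ l, ∑ m, o j k l m x • ed I F.e F.c A α l m x =
      (-2 : ℝ) • ed I F.e F.c A α j k x)
    (hs : Small F.toPre χ fun x => ∑ k, ‖α k x‖ ^ 2) {x : M} (hx : x ∈ U) (j k : ι) :
    ed I F.e F.c A α j k x = 0 := by
  have fr := frm F
  have L := lc_gam F
  set θ := ed I F.e F.c A α with hθ
  have sθ : ∀ j k, ∀ y ∈ U, SA I (θ j k) y := fun j k y hy =>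
    sa_ed fr (hA.sm · y) (sα · y hy) j k
  set β : ι → ι → M → V := fun a b y => ∑ l, ∑ m, o a b l m y • θ l m y with hβ
  have sβ : ∀ j k, ∀ y ∈ U, SA I (β j k) y := fun j k y hy =>
    SA.sum _ fun l _ => SA.sum _ fun m _ => (so j k l m y).smul (sθ l m y hy)
  have n2 : ∀ {f : M → V} {y}, SA I f y → SA I (fun y => ‖f y‖ ^ 2) y := fun h => by
    simpa only [real_inner_self_eq_norm_sq] using h.inner h
  set G : ℕ → M → ℝ := fun n y => χ n y * (χ n y * ∑ j, ∑ k, ‖θ j k y‖ ^ 2) with hG
  set f : ℕ → ι → M → ℝ := fun n j y => χ n y * (χ n y * ∑ k, ⟪β j k y, α k y⟫_ℝ) with hf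
  have sG : ∀ n, Sm I (G n) := fun n => sm_cut (hχ.sm n) (hχ.supp n) fun y hy =>
    SA.mul (hχ.sm n y) (SA.sum _ fun j _ => SA.sum _ fun k _ => n2 (sθ j k y hy))
  have cG : ∀ n, HasCompactSupport (G n) := fun n => (hχ.hcs n).mul_right
  have sf : ∀ n a, Sm I (f n a) := fun n a => sm_cut (hχ.sm n) (hχ.supp n) fun y hy =>
    SA.mul (hχ.sm n y) (SA.sum _ fun k _ => (sβ a k y hy).inner (sα k y hy))
  have cf : ∀ n a, HasCompactSupport (f n a) := fun n a => (hχ.hcs n).mul_right
  have s3 : ∀ n, Sm I fun y => gr2 F.toPre (χ n) y * ∑ k, ‖α k y‖ ^ 2 := fun n =>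
    sm_cut (sm_gr2 _ (hχ.sm n)) ((tsupport_gr2 _ _).trans (hχ.supp n)) fun y hy =>
      SA.sum _ fun k _ => n2 (sα k y hy)
  have c3 : ∀ n, HasCompactSupport fun y => gr2 F.toPre (χ n) y * ∑ k, ‖α k y‖ ^ 2 := fun n =>
    (hcs_of_sub (hχ.hcs n) (tsupport_gr2 _ _)).mul_right
  have key : ∀ n y, G n y ≤ 16 * (gr2 F.toPre (χ n) y * ∑ k, ‖α k y‖ ^ 2) -
      2 * dvg I F.e F.dv (f n) y := by
    intro n y
    by_cases hy : y ∈ tsupport (χ n)
    · have hU' := hχ.supp n hy
      have ev := mem_of_superset (hU.mem_nhds hU') pα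
      have sc := hχ.sm n y
      have su : ∀ k, SA I (fun z => χ n z • χ n z • α k z) y := fun k =>
        SA.smul sc (SA.smul sc (sα k y hU'))
      have a1 := adj_ed (c := F.c) (g := F.dv) (e := F.e) (sk · y) su (sβ · · y hU') fun j k => by
        simp only [hβ, (ho y).a1 j k, neg_smul, sum_neg_distrib]
      have a2 := dl_star L fr (hR.hg L y) so ho (sθ · · y hU') (ed_anti L (pα y hU'))
        (ed_proj L fr (sep F) hA (sα · y hU') ev) fun a b m => by
          rw [hθ, d2_ed L fr (sep F) hA (sα · y hU') ev]; simp only [fl y hU', add_zero]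
      have a3 : ∑ k, ⟪dl I F.e F.c F.dv A β k y, χ n y • χ n y • α k y⟫_ℝ = 0 := by
        calc _ = ∑ k, ∑ l, F.P l k y * ⟪dl I F.e F.c F.dv A β k y, χ n y • χ n y • α l y⟫_ℝ :=
              sum_congr rfl fun k _ => by
                rw [← pα y hU' k]
                simp only [smul_sum, inner_sum, real_inner_smul_right, F.P_symm k]
                exact sum_congr rfl fun l _ => by ring
          _ = 0 := by
              rw [sum_comm]
              simp only [← real_inner_smul_left, ← sum_inner]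
              exact sum_eq_zero fun l _ => by rw [a2 l, inner_zero_left]
      have a4 : ∀ j k, ed I F.e F.c A (fun k z => χ n z • χ n z • α k z) j k y =
          χ n y • χ n y • θ j k y + (2 * χ n y) •
            (F.D j (χ n) y • α k y - F.D k (χ n) y • α j y) := fun j k => by
        simp only [hθ, ed, nab_smul _ sc (SA.smul sc (sα _ y hU')), nab_smul _ sc (sα _ y hU'),
          Pre.D_def, smul_comm (F.c _ _ _ y), ← smul_sum]
        module
      have a5 : (fun j z => ∑ k, ⟪β j k z, χ n z • χ n z • α k z⟫_ℝ) = f n := by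
        simp only [hf, real_inner_smul_right, mul_sum]
      have a6 : ∀ j k, β j k y = (-2 : ℝ) • θ j k y := asd y hU'
      rw [a3, a5] at a1
      simp only [a4, a6, inner_add_right, real_inner_smul_left, real_inner_smul_right (θ _ _ y),
        real_inner_self_eq_norm_sq, sum_add_distrib, ← mul_sum] at a1
      have := wedge_le (χ n y) (fun j => F.D j (χ n) y) (fun k => α k y) fun j k => θ j k y
      simp only [hG, gr2]
      linarith
    · have e1 : ∀ a, dv I (F.e a) (f n a) y = 0 := fun a =>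
        dv_eq_zero_of_notMem fun h => hy (tsupport_cut _ _ h)
      simp only [dvg, e1]
      simp [hG, hf, gr2_zero _ hy, image_eq_zero_of_notMem_tsupport hy]
  obtain ⟨O, hO, he⟩ := hχ.one x hx
  have h16 := hs.const_mul 16
  rw [mul_zero] at h16
  have := zero_of_tendsto (μ := F.μ) (fun n => (sG n).continuous) cG
    (fun n y => by
      rw [hG]; beta_reduce; rw [← mul_assoc]; exact mul_nonneg (mul_self_nonneg _) (by positivity)) h16 (fun n => by
      refine (integral_mono (integ (sG n) (cG n)) (((integ (s3 n) (c3 n)).const_mul 16).sub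
        ((integ_dvg (sf n) (cf n)).const_mul 2)) (key n)).trans ?_
      rw [integral_sub' ((integ (s3 n) (c3 n)).const_mul 16) ((integ_dvg (sf n) (cf n)).const_mul 2),
        integral_const_mul, integral_const_mul, integral_dvg (sf n) (cf n), mul_zero,
        _root_.sub_zero])
    (g := fun y => ∑ j, ∑ k, ‖θ j k y‖ ^ 2) hO (he.mono fun n hn y hy => by simp [hG, hn y hy])
  have h1 := (sum_eq_zero_iff_of_nonneg fun j _ => by positivity).1 this j (mem_univ j)
  simpa using (sum_eq_zero_iff_of_nonneg fun j _ => by positivity).1 h1 k (mem_univ k)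

/-- **maximum principle**: a weighted coclosed exact form whose primitive tends to zero vanishes -/
theorem zero_of_prim [F.μ.IsOpenPosMeasure] (sA : ∀ a, ∀ x ∈ U, SA I (A a) x)
    (sk : ∀ a, ∀ x ∈ U, Skew (A a x)) (hU : IsOpen U) {ξ : M → V} {w : M → ℝ}
    (sξ : ∀ x ∈ U, SA I ξ x) (hξ : ∀ x ∈ U, ∀ a, nab I F.e A a ξ x = α a x)
    (sw : ∀ x ∈ U, SA I w x)
    (row : ∀ x ∈ U, dv1 I F.e F.dv A α x + ∑ a, F.D a w x • α a x = 0)
    (cpt : ∀ ε > 0, ∃ K, IsCompact K ∧ K ⊆ U ∧ ∀ x ∈ U, x ∉ K → ‖ξ x‖ ≤ ε) {x : M} (hx : x ∈ U)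
    (a : ι) : α a x = 0 := by
  have fr := frm F
  have sα : ∀ a, ∀ y ∈ U, SA I (α a) y := fun a y hy =>
    (fr.sN (sA · y hy) a (sξ y hy)).congr_of_eventuallyEq
      (mem_of_superset (hU.mem_nhds hy) fun z hz => (hξ z hz a).symm)
  have main : ∀ y ∈ U, ξ y ≠ 0 → α a y = 0 := fun y hy h0 => by
    have hε : 0 < ‖ξ y‖ / 2 := by positivity
    obtain ⟨K, k1, k2, k3⟩ := cpt _ hε
    set ε := ‖ξ y‖ / 2 with he
    let φ : ℝ → ℝ := fun t => expNegInvGlue (t - ε ^ 2)
    have sφ : ContDiff ℝ ∞ φ := expNegInvGlue.contDiff.comp (contDiff_id.sub contDiff_const)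
    have mφ : Monotone φ := fun s t h => expNegInvGlue.monotone (by linarith)
    let n : M → ℝ := fun z => ⟪ξ z, ξ z⟫_ℝ
    have sn : ∀ z ∈ U, SA I n z := fun z hz => (sξ z hz).inner (sξ z hz)
    let η : M → ℝ := U.indicator fun z => φ (n z)
    have eη : ∀ z ∈ U, η =ᶠ[𝓝 z] fun z => φ (n z) := fun z hz =>
      mem_of_superset (hU.mem_nhds hz) fun z hz => indicator_of_mem hz _
    have tη : tsupport η ⊆ K := closure_minimal (fun z hz => by_contra fun h => hz (by
      by_cases q : z ∈ U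
      · rw [(eη z q).self_of_nhds]
        refine expNegInvGlue.zero_of_nonpos (sub_nonpos.2 ?_)
        simp only [n, real_inner_self_eq_norm_sq]
        exact pow_le_pow_left₀ (norm_nonneg _) (k3 z q h) 2
      · exact indicator_of_notMem q _)) k1.isClosed
    have sη : Sm I η := fun z => by
      by_cases q : z ∈ U
      · exact (sφ.contMDiff.contMDiffAt.comp z (sn z q)).congr_of_eventuallyEq (eη z q)
      · exact contMDiffAt_const.congr_of_eventuallyEq
          (notMem_tsupport_iff_eventuallyEq.1 fun h => q (k2 (tη h)))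
    have cη : HasCompactSupport η := k1.of_isClosed_subset (isClosed_tsupport _) tη
    have η0 : ∀ z, 0 ≤ η z := fun z => indicator_nonneg (fun _ _ => expNegInvGlue.nonneg _) z
    have se : ∀ z ∈ U, SA I (fun z => Real.exp (w z)) z := fun z hz =>
      Real.contDiff_exp.contMDiff.contMDiffAt.comp z (sw z hz)
    set f : ι → M → ℝ := fun b z => η z * (Real.exp (w z) * ⟪ξ z, α b z⟫_ℝ) with hf
    set G : M → ℝ := fun z => η z * (Real.exp (w z) * ∑ b, ⟪α b z, α b z⟫_ℝ) with hG
    have sf : ∀ b, Sm I (f b) := fun b => sm_cut sη (tη.trans k2) fun z hz =>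
      SA.mul (se z hz) ((sξ z hz).inner (sα b z hz))
    have cf : ∀ b, HasCompactSupport (f b) := fun b => cη.mul_right
    have sG : Sm I G := sm_cut sη (tη.trans k2) fun z hz =>
      SA.mul (se z hz) (SA.sum _ fun b _ => (sα b z hz).inner (sα b z hz))
    have G0 : ∀ z, 0 ≤ G z := fun z => mul_nonneg (η0 z)
      (mul_nonneg (Real.exp_pos _).le (sum_nonneg fun _ _ => real_inner_self_nonneg))
    have key : ∀ z, G z ≤ dvg I F.e F.dv f z := fun z => by
      by_cases hz : z ∈ tsupport η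
      · have q := k2 (tη hz)
        have e1 : ∀ b, dv I (F.e b) η z = deriv φ (n z) * (2 * ⟪ξ z, α b z⟫_ℝ) := fun b => by
          rw [dv_congr (eη z q), dv_comp (sn z q).md
            ((sφ.differentiable (by simp) _).hasDerivAt.hasFDerivAt),
            dv_inner b (sk b z q) (sξ z q) (sξ z q), hξ z q, real_inner_comm (ξ z)]
          simp; ring
        have e2 : ∀ b, dv I (F.e b) (fun z => Real.exp (w z)) z = Real.exp (w z) * F.D b w z :=
          fun b => by
            rw [dv_comp (sw z q).md (Real.hasDerivAt_exp _).hasFDerivAt, Pre.D_def]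
            simp; ring
        have e3 := congrArg (fun v => ⟪ξ z, v⟫_ℝ) (row z q)
        simp only [dv1, inner_add_right, inner_sum, real_inner_smul_right, inner_zero_right,
          ← sum_add_distrib] at e3
        have e4 : dvg I F.e F.dv f z = G z + 2 * deriv φ (n z) * Real.exp (w z) *
            ∑ b, ⟪ξ z, α b z⟫_ℝ ^ 2 + η z * Real.exp (w z) * ∑ b, (⟪ξ z, nab I F.e A b (α b) z⟫_ℝ +
              F.dv b z * ⟪ξ z, α b z⟫_ℝ + F.D b w z * ⟪ξ z, α b z⟫_ℝ) := by
          simp only [dvg, hf, hG, mul_sum, ← sum_add_distrib]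
          refine sum_congr rfl fun b _ => ?_
          rw [dv_mul (sη z) (SA.mul (se z q) ((sξ z q).inner (sα b z q))),
            dv_mul (se z q) ((sξ z q).inner (sα b z q)), dv_inner b (sk b z q) (sξ z q) (sα b z q),
            e1, e2, hξ z q]
          ring
        rw [e4, e3, mul_zero, add_zero]
        have := mφ.deriv_nonneg (x := n z)
        exact le_add_of_nonneg_right (by positivity)
      · have e1 : ∀ b, dv I (F.e b) (f b) z = 0 := fun b =>
          dv_eq_zero_of_notMem fun h => hz (tsupport_cut _ _ h)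
        simp only [dvg, e1]
        simp [hG, hf, image_eq_zero_of_notMem_tsupport hz]
    have z := zero_of_tendsto (μ := F.μ) (G := fun _ => G) (fun _ => sG.continuous)
      (fun _ => cη.mul_right) (fun _ => G0) (tendsto_const_nhds (x := (0 : ℝ))) (fun _ =>
        (integral_mono (integ sG cη.mul_right) (integ_dvg sf cf) key).trans (integral_dvg sf cf).le)
      (g := G) (x := y) univ_mem (.of_forall fun _ _ _ => rfl)
    have p : 0 < η y := by
      rw [(eη y hy).self_of_nhds]
      refine expNegInvGlue.pos_of_pos (sub_pos.2 ?_)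
      simp only [n, real_inner_self_eq_norm_sq]
      exact pow_lt_pow_left₀ (by linarith) hε.le two_ne_zero
    have := (mul_eq_zero.1 ((mul_eq_zero.1 z).resolve_left p.ne')).resolve_left (Real.exp_pos _).ne'
    exact inner_self_eq_zero.1 ((sum_eq_zero_iff_of_nonneg fun _ _ => real_inner_self_nonneg).1
      this a (mem_univ a))
  by_contra h
  have e : ξ =ᶠ[𝓝 x] fun _ => 0 := by
    filter_upwards [hU.mem_nhds hx, (sα a x hx).continuousAt.eventually_ne h] with y h1 h2
    exact by_contra fun q => h2 (main y h1 q)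
  exact h (by rw [← hξ x hx, nab_congr a e]; simp [nab])

/-- **harmonic spinors** -/
theorem dir_zero [F.μ.IsOpenPosMeasure] (hR : Riem F) {p : M → V →L[ℝ] V} {ρ : ι → M → V →L[ℝ] V}
    (C : CC I F.e F.P F.Gam p ρ A) (sk : ∀ a x, Skew (A a x)) (sρ : ∀ a x, Skew (ρ a x))
    (hχ : Cut I U χ) {φ : M → V} (sφ : ∀ x ∈ U, SA I φ x) (pφ : ∀ x ∈ U, p x (φ x) = φ x)
    (hD : ∀ x ∈ U, dir I F.e ρ A φ x = 0)
    (pos : ∀ x ∈ U, 0 ≤ ⟪wK I F.e F.c ρ A x (φ x), φ x⟫_ℝ)
    (hs : Small F.toPre χ fun x => ‖φ x‖ ^ 2) {x : M} (hx : x ∈ U) :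
    ⟪wK I F.e F.c ρ A x (φ x), φ x⟫_ℝ = 0 ∧ ∀ a, nab I F.e A a φ x = 0 := by
  have fr := frm F
  let u : ℕ → M → V := fun n y => χ n y • φ y
  have su : ∀ n, Sm I (u n) := fun n => sm_cut (hχ.sm n) (hχ.supp n) sφ
  have cu : ∀ n, HasCompactSupport (u n) := fun n => hcs_of_sub (hχ.hcs n) (tsupport_cut _ _)
  have z : ∀ n y, y ∉ U → χ n y = 0 := fun n y hy =>
    image_eq_zero_of_notMem_tsupport fun h => hy (hχ.supp n h)
  have s1 : ∀ n, Sm I fun y => ∑ a, ⟪nab I F.e A a (u n) y, nab I F.e A a (u n) y⟫_ℝ := fun n y =>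
    SA.sum _ fun a _ => SA.inner (sm_nab C.sm a (su n) y) (sm_nab C.sm a (su n) y)
  have c1 : ∀ n, HasCompactSupport fun y =>
      ∑ a, ⟪nab I F.e A a (u n) y, nab I F.e A a (u n) y⟫_ℝ := fun n =>
    HasCompactSupport.intro (cu n).isCompact fun y hy => sum_eq_zero fun a _ => by
      simp [nab, dv_eq_zero_of_notMem hy, image_eq_zero_of_notMem_tsupport hy]
  have s2 : ∀ n, Sm I fun y => ⟪wK I F.e F.c ρ A y (u n y), u n y⟫_ℝ := fun n y =>
    SA.inner (SA.app (sm_wK C.sm C.sρ y) (su n y)) (su n y)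
  have p2 : ∀ n y, 0 ≤ ⟪wK I F.e F.c ρ A y (u n y), u n y⟫_ℝ := fun n y => by
    by_cases hy : y ∈ U
    · simp only [u, map_smul, real_inner_smul_left, real_inner_smul_right, ← mul_assoc]
      exact mul_nonneg (mul_self_nonneg _) (pos y hy)
    · simp [u, z n y hy]
  have n0 : ∀ (w : M → V) y, 0 ≤ ∑ a, ⟪nab I F.e A a w y, nab I F.e A a w y⟫_ℝ := fun w y =>
    sum_nonneg fun _ _ => real_inner_self_nonneg
  obtain ⟨O, hO, he⟩ := hχ.one x hx
  have := zero_of_tendsto (μ := F.μ) (fun n => ((s1 n).add (s2 n)).continuous)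
    (fun n => (c1 n).add (hcs_inner _ (cu n))) (fun n y => add_nonneg (n0 _ y) (p2 n y)) hs
    (fun n => by
      rw [integral_add' (integ (s1 n) (c1 n)) (integ (s2 n) (hcs_inner _ (cu n))),
        ← integral_weitz C (lc_gam F) hR sk sρ (su n) (su n) (fun y => by
          by_cases hy : y ∈ U
          · simp only [u, map_smul, pφ y hy]
          · simp [u, z n y hy]) (cu n)]
      refine (integral_congr_ae (.of_forall fun y => ?_)).le
      by_cases hy : y ∈ tsupport (χ n)
      · have q := hχ.supp n hy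
        have e1 : dir I F.e ρ A (u n) y = ∑ a, F.D a (χ n) y • ρ a y (φ y) := by
          have := hD y q
          simp only [dir, u, nab_smul _ (hχ.sm n y) (sφ y q), map_add, map_smul, sum_add_distrib,
            ← smul_sum, Pre.D_def] at this ⊢
          rw [this, smul_zero, add_zero]
        have e2 := congrArg (fun T : V →L[ℝ] V => ⟪φ y, T (φ y)⟫_ℝ) ((C.cl y).sym_sum
          (S := fun a b => F.D a (χ n) y * F.D b (χ n) y) fun a b => mul_comm _ _)
        have e3 : ∀ a, ∑ b, F.D b (χ n) y * F.P a b y = F.D a (χ n) y := fun a => by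
          simpa only [smul_eq_mul, mul_comm, Pre.D_def] using fr.projD a (χ n) y
        simp only [_root_.sum_apply, smul_apply, inner_sum, real_inner_smul_right,
          mul_apply_eq_comp, pφ y q, mul_assoc, ← mul_sum, e3, real_inner_self_eq_norm_sq] at e2
        simp only [e1, gr2, sum_inner, inner_sum, real_inner_smul_left, real_inner_smul_right,
          sρ _ y (φ y), mul_neg, sum_neg_distrib, ← mul_sum]
        rw [neg_eq_iff_eq_neg, ← neg_mul, ← e2]
        simp only [mul_sum]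
        exact sum_comm.trans (sum_congr rfl fun _ _ => sum_congr rfl fun _ _ => by ring)
      · have : y ∉ tsupport (u n) := fun h => hy (tsupport_cut _ _ h)
        simp [gr2_zero _ hy, dir, nab, dv_eq_zero_of_notMem this,
          image_eq_zero_of_notMem_tsupport this])
    (g := fun y => ∑ a, ⟪nab I F.e A a φ y, nab I F.e A a φ y⟫_ℝ +
      ⟪wK I F.e F.c ρ A y (φ y), φ y⟫_ℝ) (interior_mem_nhds.2 hO) (he.mono fun n hn y hy => by
      have h1 : u n =ᶠ[𝓝 y] φ := by
        filter_upwards [isOpen_interior.mem_nhds hy] with w hw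
        simp only [u, hn w (interior_subset hw), one_smul]
      simp only [Pi.add_apply, nab_congr _ h1, h1.eq_of_nhds])
  have h1 := n0 φ x
  have h2 := pos x hx
  exact ⟨by linarith, fun a => inner_self_eq_zero.1 ((sum_eq_zero_iff_of_nonneg
    fun _ _ => real_inner_self_nonneg).1 (h1.antisymm' (by linarith)) a (mem_univ a))⟩

/-! ### cut-off functions -/

theorem exists_cut [LocallyCompactSpace M] [SecondCountableTopology M] {C : ℕ → ℝ} (hF : F.Tame C)
    (hU : IsClopen U) : ∃ χ, Cut I U χ ∧ ∃ K, ∀ n x, gr2 F.toPre (χ n) x ≤ K := by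
  let X := CompactExhaustion.choice M
  choose χ h1 h2 h3 h4 using fun n => hF.exh _ (X.isCompact n)
  have ev : ∀ n x, (x ∈ U ∧ U.indicator (χ n) =ᶠ[𝓝 x] χ n) ∨
      U.indicator (χ n) =ᶠ[𝓝 x] fun _ => 0 := fun n x => by
    by_cases hx : x ∈ U
    · exact .inl ⟨hx, (hU.2.eventually_mem hx).mono fun y hy => indicator_of_mem hy _⟩
    · exact .inr ((hU.1.isOpen_compl.eventually_mem hx).mono fun y hy => indicator_of_notMem hy _)
  refine ⟨fun n => U.indicator (χ n), ⟨fun n x => ?_, fun n => (h2 n).mono fun x hx h => hx ?_,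
    fun n => closure_minimal (fun x hx => by_contra fun h => hx (indicator_of_notMem h _)) hU.1, fun x hx => ?_⟩,
    ∑ _ : ι, C 1 * C 1, fun n x => sum_le_sum fun a _ => ?_⟩
  · rcases ev n x with ⟨-, k⟩ | k
    exacts [((h1 n).1 x).congr_of_eventuallyEq k, contMDiffAt_const.congr_of_eventuallyEq k]
  · simp [h]
  · obtain ⟨m, hm⟩ := X.exists_mem_nhds x
    exact ⟨_, inter_mem hm (hU.2.mem_nhds hx), (eventually_ge_atTop m).mono fun n hn y hy =>
      (indicator_of_mem hy.2 _).trans (h4 n y (X.subset hn hy.1))⟩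
  · rcases ev n x with ⟨-, k⟩ | k
    · rw [Pre.D_def, dv_congr k, ← abs_mul_abs_self]
      have : |F.D a (χ n) x| ≤ C 1 := (h1 n).2 1 [a] le_rfl x
      exact mul_self_le_mul_self (abs_nonneg _) this
    · rw [Pre.D_def, dv_congr k]; simpa using mul_self_nonneg (C 1)

theorem small_of_int (hχ : Cut I U χ) (hU : IsOpen U) {K : ℝ} (hK : ∀ n x, gr2 F.toPre (χ n) x ≤ K)
    {f : M → ℝ} (hf : IntegrableOn f U F.μ) : Small F.toPre χ f := by
  have z : ∀ n x, x ∉ U → gr2 F.toPre (χ n) x = 0 := fun n x hx =>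
    gr2_zero _ fun h => hx (hχ.supp n h)
  have := tendsto_integral_of_dominated_convergence (μ := F.μ.restrict U)
    (F := fun n x => gr2 F.toPre (χ n) x * f x) (f := fun _ => 0) (fun x => K * ‖f x‖)
    (fun n => (sm_gr2 _ (hχ.sm n)).continuous.aestronglyMeasurable.mul hf.1)
    (hf.norm.const_mul K) (fun n => .of_forall fun x => by
      rw [norm_mul, Real.norm_of_nonneg (gr2_nonneg _ _ _)]
      exact mul_le_mul_of_nonneg_right (hK n x) (norm_nonneg _))
    (ae_restrict_of_forall_mem hU.measurableSet fun x hx => by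
      obtain ⟨O, h1, h2⟩ := hχ.one x hx
      refine tendsto_const_nhds.congr' (h2.mono fun n hn => ?_)
      have : χ n =ᶠ[𝓝 x] fun _ => 1 := mem_of_superset h1 hn
      simp [gr2, Pre.D_def, dv_congr this])
  rw [integral_zero] at this
  exact this.congr fun n => setIntegral_eq_integral_of_forall_compl_eq_zero fun x hx => by
    rw [z n x hx, zero_mul]

end Crest.Agent.X212.Dfl49
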