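import Crest.Agent.X212.Dfl49.Cp

/-!
# Row 212, DFLAT (helper49), file 14: the cokernel on a circle times a convex cap
-/

set_option autoImplicit false
set_option linter.unusedSectionVars false
noncomputable section
open Set Filter Topology MeasureTheory
open scoped ContDiff Manifold InnerProductSpace

namespace Crest.Agent.X212.Dfl49
open An Sob92 Wz78 Rdc90 Kah60 Map77 Ell97 Finset

/-- the target of the gauge fixed linearisation -/
abbrev Tg (ι κ : Type) [Fintype ι] [Fintype κ] : Type := P2 (HS κ) (Ef ι κ)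

theorem cok_num {μ ε c G Z x b p l D g T S q k : ℝ} (hε : 0 < ε) (h8 : 8 * ε ≤ μ)
    (hZ : Z = x * b - G) (Z0 : 0 ≤ Z) (G0 : 0 ≤ G) (b0 : 0 ≤ b) (p0 : 0 ≤ p) (g0 : 0 ≤ g)
    (x1 : x ≤ 1) (hq : q ≤ 2 * g + 2 * ε ^ 2 * c ^ 2 * x)
    (hT : 4 * ε * T ≤ ε ^ 2 * c ^ 2 * G + 4 * g * b) (hS : 2 * μ * S ≤ 2 * μ ^ 2 * c ^ 2 * Z + D)
    (hk : c ^ 2 * (4 * μ ^ 2 * Z + μ ^ 2 / 2 * p) ≤ k) :
    2 * μ * ε * (c ^ 2 * (ε / 4 * G + μ / 2 * Z + μ / 8 * p + l * b / 2)) ≤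
      2 * (μ + ε) * (g * (4 * b + p)) - 2 * μ * ε * (T - ε * c ^ 2 * G - l * c ^ 2 * b / 2 + S) +
        ε * (D + k - q * (4 * b + p)) := by
  have m0 : 0 < μ := by linarith
  have c0 := sq_nonneg c
  generalize c ^ 2 = c at *
  have h1 := mul_le_mul_of_nonneg_right hq (show 0 ≤ 4 * b + p by positivity)
  have h2 : ε ^ 2 * c * (x * p) ≤ ε ^ 2 * c * p := by gcongr; nlinarith
  have h3 : ε * (ε * c * G) * 8 ≤ μ * (ε * c * G) := by nlinarith [show 0 ≤ ε * c * G by positivity]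
  have h4 : ε ^ 2 * 64 ≤ μ ^ 2 := by nlinarith
  have h5 := mul_le_mul_of_nonneg_right h4 (show 0 ≤ c * Z by positivity)
  have h6 := mul_le_mul_of_nonneg_right h4 (show 0 ≤ c * p by positivity)
  have h7 : q * (4 * b + p) ≤ 2 * g * (4 * b + p) + μ * (ε * c * G) + μ ^ 2 / 8 * (c * Z) +
      μ ^ 2 / 32 * (c * p) := by
    have : ε ^ 2 * c * (x * b) = ε ^ 2 * c * (Z + G) := by rw [hZ]; ring
    linarith
  have h8 := mul_le_mul_of_nonneg_left h7 hε.le
  have h9 := mul_le_mul_of_nonneg_left hk hε.le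
  have h10 := mul_le_mul_of_nonneg_left hS hε.le
  have h11 := mul_le_mul_of_nonneg_left hT m0.le
  nlinarith [show 0 ≤ μ * g * b by positivity, show 0 ≤ μ * g * p by positivity,
    show 0 ≤ ε * μ ^ 2 * (c * Z) by positivity, show 0 ≤ ε * μ ^ 2 * (c * p) by positivity]

section alg
variable {ι V : Type} [Fintype ι] [NormedAddCommGroup V] [InnerProductSpace ℝ V]

theorem cs_smul (v : ι → ℝ) (θ : ι → V) :
    ‖∑ a, v a • θ a‖ ^ 2 ≤ (∑ a, v a ^ 2) * ∑ a, ‖θ a‖ ^ 2 := by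
  refine le_trans ?_ (by simpa only [sq_abs] using sum_mul_sq_le_sq_mul_sq univ (|v ·|) (‖θ ·‖))
  gcongr
  exact (norm_sum_le _ _).trans (by simp [norm_smul])

theorem ip_le (r : ℝ) (v w : V) : 2 * r * ⟪v, w⟫_ℝ ≤ r ^ 2 * ‖v‖ ^ 2 + ‖w‖ ^ 2 := by
  have := sq_nonneg ‖r • v - w‖
  rw [norm_sub_sq_real, norm_smul, real_inner_smul_left, mul_pow, Real.norm_eq_abs, sq_abs] at this
  linarith

end alg

variable {E : Type} [NormedAddCommGroup E] [NormedSpace ℝ E] [FiniteDimensional ℝ E]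
  [MeasurableSpace E] [BorelSpace E]
  {HM : Type} [TopologicalSpace HM] {I : ModelWithCorners ℝ E HM}
  {M : Type} [TopologicalSpace M] [ChartedSpace HM M] [IsManifold I ∞ M]
  [MeasurableSpace M] {ι κ : Type} [Fintype ι] [Fintype κ] [DecidableEq κ]
  {d : Bd M ι κ} {F : Fr I M ι} {Γ : ι → ι → ι → M → ℝ} {W : ι → M → En κ} {y : M → Tg ι κ} {x : M}

/-- the function -/
abbrev cξ (y : M → Tg ι κ) : M → HS κ := fun x => f2 _ _ (y x)
/-- the spinor -/
abbrev cψ (y : M → Tg ι κ) : M → Eu κ := fun x => f2 _ _ (s2 _ _ (y x))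
/-- the form -/
abbrev cη (y : M → Tg ι κ) : ι × ι → M → HS κ := fun s x => s2 _ _ (s2 _ _ (y x)) s

theorem sa_cξ (h : SA I y x) : SA I (cξ y) x := h.clm (f2 _ _)
theorem sa_cψ (h : SA I y x) : SA I (cψ y) x := h.clm (f2 _ _ ∘L s2 _ _)
theorem sa_cη (h : SA I y x) (s : ι × ι) : SA I (cη y s) x :=
  h.clm (Map77.pj _ s ∘L s2 _ _ ∘L s2 _ _)

theorem nrm_Tg (v : Tg ι κ) : ‖v‖ ^ 2 = ‖f2 _ _ v‖ ^ 2 + ‖f2 _ _ (s2 _ _ v)‖ ^ 2 +
    ∑ s, ‖s2 _ _ (s2 _ _ v) s‖ ^ 2 := by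
  simp only [← real_inner_self_eq_norm_sq]
  rw [inner2, inner2 (s2 _ _ v), inner_fm (X := HS κ), add_assoc]

theorem sa_cov2 {V : Type} [NormedAddCommGroup V] [InnerProductSpace ℝ V] {A : ι → M → V →L[ℝ] V}
    {η : ι × ι → M → V} (L : LC I F.e F.P F.c Γ) (hA : ∀ a, SA I (A a) x) (h : ∀ s, SA I (η s) x)
    (a : ι) (s : ι × ι) : SA I (cov2 I F.e Γ A η a s) x :=
  (((frm F).sN hA a (h s)).sub (SA.sum _ fun k _ => (L.sm _ _ k x).smul (h _))).sub
    (SA.sum _ fun k _ => (L.sm _ _ k x).smul (h _))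

theorem cov2_smul {φ : M → ℝ} (hφ : SA I φ x) (h : SA I y x) (a : ι) (s : ι × ι) :
    cov2 I F.e Γ (adw W) (cη fun z => φ z • y z) a s x =
      F.D a φ x • cη y s x + φ x • cov2 I F.e Γ (adw W) (cη y) a s x := by
  have e : ∀ s, cη (fun z => φ z • y z) s = fun z => φ z • cη y s z := fun s => funext fun z => by
    simp [cη]
  simp only [cov2, e, nab_smul a hφ (sa_cη h s), smul_sub, smul_sum, smul_comm (φ x), F.D_def]
  abel

theorem dir_smul {φ : M → ℝ} (hφ : SA I φ x) (h : SA I y x) :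
    dir I F.e d.ρ W (cψ fun z => φ z • y z) x =
      ∑ a, F.D a φ x • d.ρ a x (cψ y x) + φ x • dir I F.e d.ρ W (cψ y) x := by
  have e : cψ (fun z => φ z • y z) = fun z => φ z • cψ y z := funext fun z => by simp [cψ]
  simp only [dir, e, nab_smul _ hφ (sa_cψ h), map_add, map_smul, sum_add_distrib, smul_sum, F.D_def]

namespace Cp
variable (C : Cp d F Γ W)
include C

/-- the adjoint operator in components -/
theorem adj_eqs (hy : SA I y x) (pu : ∀ x, ps d.g d.pE x (y x) = y x) :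
    (∀ k, fa (((d.full F (base W 0)).adj F).app F y x) k = -(nab I F.e (adw W) k (cξ y) x +
      (2 : ℝ) • (∑ a, cov2 I F.e Γ (adw W) (cη y) a (a, k) x + ic (dft F Γ · x) (cη y · x) k))) ∧
    fp (((d.full F (base W 0)).adj F).app F y x) =
      dir I F.e d.ρ W (cψ y) x + ∑ a, dft F Γ a x • d.ρ a x (cψ y x) := by
  have e : Op.tr (zf d F Γ 0 x) (y x) =
      i1 _ _ (∑ k, dft F Γ k x • ea _ (d.Px x) k (d.g x (f2 _ _ (y x)))) :=
    ext_inner_left ℝ fun v => by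
      have : Op.tr (0 : CL (HS κ) (Cf ι κ)) = 0 := by rw [← trL_apply, map_zero]
      rw [inner_tr, inner2, inner2 v, real_inner_comm _ (f2 _ _ v)]
      simp [zf, zr, zl, z0, this, sum_inner, real_inner_smul_left, C.ok.inner_ea, real_inner_comm (f2 _ _ (y x)),
        inner_sum, real_inner_smul_right]
  refine ⟨fun k => ?_, ?_⟩
  · have := C.adj_fa hy pu 0 k
    rw [e] at this
    simp only [adj_σ, C.ok.tr_full, map_sub, map_add, PiLp.sub_apply, PiLp.add_apply, f2_ps, f2_i1,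
      map_sum, map_smul, C.ok.p1_ea, map_neg, f2_i2, _root_.sub_zero, WithLp.ofLp_sum, Finset.sum_apply,
      PiLp.smul_apply, PiLp.neg_apply, p2_of (pu x), smul_neg, smul_add, sum_neg_distrib,
      sum_add_distrib, smul_comm (dft F Γ _ x) (2 : ℝ)] at this
    rw [sub_eq_iff_eq_add.1 this, ic, smul_add, smul_sum (f := fun a => dft F Γ a x • _)]
    abel
  · have := C.adj_fp hy pu 0
    rw [e] at this
    simp only [adj_σ, C.ok.tr_full, map_sub, map_add, s2_ps, s2_i1, map_sum, map_smul, map_neg, s2_i2,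
      zero_sub, neg_neg, map_zero, zero_add, sm_of (pu x), smul_zero, sum_const_zero] at this
    exact sub_eq_iff_eq_add.1 this

theorem sq_rho {v : ι → ℝ} (hv : ∀ a, ∑ b, F.P a b x * v b = v a) {ψ : Eu κ} (h : d.sm x ψ = ψ) :
    ‖∑ a, v a • d.ρ a x ψ‖ ^ 2 = (∑ a, v a ^ 2) * ‖ψ‖ ^ 2 := by
  have e : ∀ a b, ⟪d.ρ a x ψ, d.ρ b x ψ⟫_ℝ + ⟪d.ρ b x ψ, d.ρ a x ψ⟫_ℝ = 2 * F.P a b x * ‖ψ‖ ^ 2 :=
    fun a b => by
      have := congrArg (fun z => ⟪ψ, z⟫_ℝ) (C.ok.clm a b x ψ)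
      simp only [h, inner_add_right, real_inner_smul_right, real_inner_self_eq_norm_sq] at this
      rw [C.ok.sk, C.ok.sk, C.P]; linarith
  have e1 : ‖∑ a, v a • d.ρ a x ψ‖ ^ 2 = ∑ a, ∑ b, v a * v b * ⟪d.ρ a x ψ, d.ρ b x ψ⟫_ℝ := by
    simp only [← real_inner_self_eq_norm_sq, sum_inner, inner_sum, real_inner_smul_left,
      real_inner_smul_right]
    exact sum_congr rfl fun a _ => sum_congr rfl fun b _ => by rw [real_inner_comm]; ring
  have e2 : ∑ a, ∑ b, v a * v b * ⟪d.ρ a x ψ, d.ρ b x ψ⟫_ℝ =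
      ∑ a, ∑ b, v a * v b * ⟪d.ρ b x ψ, d.ρ a x ψ⟫_ℝ :=
    sum_congr rfl fun a _ => sum_congr rfl fun b _ => by rw [real_inner_comm]
  have e3 : ∑ a, ∑ b, v a * v b * (2 * F.P a b x * ‖ψ‖ ^ 2) = 2 * ((∑ a, v a ^ 2) * ‖ψ‖ ^ 2) := by
    rw [sum_mul, mul_sum]
    refine sum_congr rfl fun a _ => ?_
    rw [sq (v a)]
    nth_rw 3 [← hv a]
    simp only [mul_sum, sum_mul]
    exact sum_congr rfl fun b _ => by ring
  simp only [← e, mul_add, sum_add_distrib] at e3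
  linarith

variable [T2Space M] [BorelSpace M] [F.μ.IsOpenPosMeasure] {S : Set M} {χ : ℕ → M → ℝ}
  (hR : Riem F) (hχ : Cut I S χ) (sy : ∀ x ∈ S, SA I y x) (pu : ∀ x, ps d.g d.pE x (y x) = y x)
include hR hχ sy pu

/-- the function is parallel -/
theorem xi_par {w : M → ℝ} (sw : ∀ x ∈ S, SA I w x)
    (fl : ∀ x ∈ S, ∀ a b, curv I F.e F.c (adw W) a b x (cξ y x) = 0)
    (e : ∀ x ∈ S, ∀ k, nab I F.e (adw W) k (cξ y) x + (2 : ℝ) •
      (∑ a, cov2 I F.e Γ (adw W) (cη y) a (a, k) x + ic (F.D · w x) (cη y · x) k) = 0)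
    (hs : Small F.toPre χ fun x => Real.exp (w x) * ∑ s, ‖cη y s x‖ ^ 2) {x : M} (hx : x ∈ S) (k : ι) :
    nab I F.e (adw W) k (cξ y) x = 0 := by
  have fr := frm F
  have se : ∀ z ∈ S, SA I (fun z => Real.exp (w z)) z := fun z hz =>
    Real.contDiff_exp.contMDiff.contMDiffAt.comp z (sw z hz)
  have sθ : ∀ k, ∀ z ∈ S, SA I (nab I F.e (adw W) k (cξ y)) z := fun k z hz =>
    fr.sN (C.con_adw.sm · z) k (sa_cξ (sy z hz))
  let φ : ℕ → M → ℝ := fun n z => χ n z * (χ n z * Real.exp (w z))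
  have sφ : ∀ n, ∀ z ∈ S, SA I (φ n) z := fun n z hz =>
    SA.mul (hχ.sm n z) (SA.mul (hχ.sm n z) (se z hz))
  let f : ℕ → ι → M → ℝ := fun n a z => ∑ k,
    ⟪cη (fun z => φ n z • y z) (a, k) z, nab I F.e (adw W) k (cξ y) z⟫_ℝ
  have ef : ∀ n a, f n a = fun z => χ n z • (χ n z * Real.exp (w z) *
      ∑ k, ⟪cη y (a, k) z, nab I F.e (adw W) k (cξ y) z⟫_ℝ) := fun n a => funext fun z => by
    simp [f, φ, cη, real_inner_smul_left, mul_sum, mul_assoc]
  have sf : ∀ n a, Sm I (f n a) := fun n a => ef n a ▸ sm_cut (hχ.sm n) (hχ.supp n) fun z hz =>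
    SA.mul (SA.mul (hχ.sm n z) (se z hz)) (SA.sum _ fun k _ => (sa_cη (sy z hz) _).inner (sθ k z hz))
  have tf : ∀ n a, tsupport (f n a) ⊆ tsupport (χ n) := fun n a => ef n a ▸ tsupport_cut _ _
  have cf := fun n a => hcs_of_sub (hχ.hcs n) (tf n a)
  let G : ℕ → M → ℝ := fun n z => χ n z * (χ n z * (Real.exp (w z) *
    ∑ k, ⟪nab I F.e (adw W) k (cξ y) z, nab I F.e (adw W) k (cξ y) z⟫_ℝ))
  have sG : ∀ n, Sm I (G n) := fun n => sm_cut (hχ.sm n) (hχ.supp n) fun z hz =>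
    SA.mul (hχ.sm n z) (SA.mul (se z hz) (SA.sum _ fun k _ => (sθ k z hz).inner (sθ k z hz)))
  have cG : ∀ n, HasCompactSupport (G n) := fun n => (hχ.hcs n).mul_right
  have s3 : ∀ n, Sm I fun z => gr2 F.toPre (χ n) z * (Real.exp (w z) * ∑ s, ‖cη y s z‖ ^ 2) :=
    fun n => sm_cut (sm_gr2 _ (hχ.sm n)) ((tsupport_gr2 _ _).trans (hχ.supp n)) fun z hz => by
      simp only [← real_inner_self_eq_norm_sq]
      exact SA.mul (se z hz) (SA.sum _ fun s _ => (sa_cη (sy z hz) _).inner (sa_cη (sy z hz) _))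
  have c3 : ∀ n, HasCompactSupport fun z =>
      gr2 F.toPre (χ n) z * (Real.exp (w z) * ∑ s, ‖cη y s z‖ ^ 2) := fun n =>
    (hcs_of_sub (hχ.hcs n) (tsupport_gr2 _ _)).mul_right
  have key : ∀ n z, G n z ≤ 4 * (gr2 F.toPre (χ n) z * (Real.exp (w z) * ∑ s, ‖cη y s z‖ ^ 2)) -
      4 * dvg I F.e F.dv (f n) z := fun n z => by
    by_cases hz : z ∈ tsupport (χ n)
    · have q := hχ.supp n hz
      have sd := C.sd_of (pu z)
      have sd' : SD (F.P · · z) (d.ox z) (cη (fun z => φ n z • y z) · z) :=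
        C.sd_of (y := φ n z • y z) (by rw [map_smul, pu])
      have a1 := dvg_pair C.lc fr (hR.hg C.lc z) (C.skew_adw · z) (sa_cη ((sφ n z q).smul (sy z q)))
        (sθ · z q) sd' fun a => fr.projN C.con_adw a _ z
      have a2 : ∑ a, ∑ k, ⟪cη (fun z => φ n z • y z) (a, k) z, cov I F.e Γ (adw W)
          (fun k => nab I F.e (adw W) k (cξ y)) a k z⟫_ℝ = 0 := by
        rw [← neg_eq_self, ← sum_neg_distrib, sum_comm]
        refine sum_congr rfl fun a _ => ?_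
        rw [← sum_neg_distrib]
        refine sum_congr rfl fun k _ => ?_
        have := C.lc.hess_skew fr C.con_adw a k (sa_cξ (sy z q))
        rw [fl z q, sub_eq_zero] at this
        rw [sd'.anti a k, inner_neg_left, neg_neg]
        exact congrArg (fun v => ⟪cη (fun z => φ n z • y z) (k, a) z, v⟫_ℝ) this
      have a3 : ∀ a, F.D a (φ n) z = φ n z * F.D a w z +
          2 * χ n z * Real.exp (w z) * F.D a (χ n) z := fun a => by
        simp only [φ, F.D_def]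
        rw [dv_mul (hχ.sm n z) (SA.mul (hχ.sm n z) (se z q)), dv_mul (hχ.sm n z) (se z q),
          dv_comp (sw z q).md (Real.hasDerivAt_exp _).hasFDerivAt]
        simp; ring
      have a4 : ∀ k, ∑ a, cov2 I F.e Γ (adw W) (cη fun z => φ n z • y z) a (a, k) z =
          (-φ n z / 2) • nab I F.e (adw W) k (cξ y) z +
            (2 * χ n z * Real.exp (w z)) • ic (F.D · (χ n) z) (cη y · z) k := fun k => by
        have := e z q k
        simp only [cov2_smul (sφ n z q) (sy z q), a3, add_smul, sum_add_distrib, mul_smul (φ n z),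
          mul_smul (2 * χ n z * Real.exp (w z)), ← smul_sum, ic] at this ⊢
        linear_combination (norm := module) (φ n z / 2) • this
      have a5 := sq_ic (C.vol z) sd (v := (F.D · (χ n) z)) fun a => fr.projD a _ z
      have a6 := sum_le_sum fun k (_ : k ∈ Finset.univ) =>
        ip_le (χ n z / 4) (nab I F.e (adw W) k (cξ y) z) (ic (F.D · (χ n) z) (cη y · z) k)
      rw [a2, add_zero] at a1
      simp only [a4, inner_add_left, real_inner_smul_left, sum_add_distrib, ← mul_sum,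
        real_inner_comm (nab _ _ _ _ _ z) (ic _ _ _), real_inner_self_eq_norm_sq] at a1 a6
      simp only [G, f, a1, gr2, ← sq, φ, real_inner_self_eq_norm_sq]
      nlinarith [mul_le_mul_of_nonneg_left a6 (Real.exp_pos (w z)).le, congrArg (Real.exp (w z) * ·) a5]
    · have e1 : ∀ a, dv I (F.e a) (f n a) z = 0 := fun a =>
        dv_eq_zero_of_notMem fun h => hz (tf n a h)
      simp only [dvg, e1]
      simp [G, ef, gr2_zero _ hz, image_eq_zero_of_notMem_tsupport hz]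
  obtain ⟨O, hO, he⟩ := hχ.one x hx
  have h4 := hs.const_mul 4
  rw [mul_zero] at h4
  have := zero_of_tendsto (μ := F.μ) (fun n => (sG n).continuous) cG
    (fun n z => by
      simp only [G, ← mul_assoc, real_inner_self_eq_norm_sq]
      exact mul_nonneg (mul_nonneg (mul_self_nonneg _) (Real.exp_pos _).le) (by positivity)) h4 (fun n => by
      refine (integral_mono (integ (sG n) (cG n)) (((integ (s3 n) (c3 n)).const_mul 4).sub
        ((integ_dvg (sf n) (cf n)).const_mul 4)) (key n)).trans ?_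
      rw [integral_sub' ((integ (s3 n) (c3 n)).const_mul 4) ((integ_dvg (sf n) (cf n)).const_mul 4),
        integral_const_mul, integral_const_mul, integral_dvg (sf n) (cf n), mul_zero,
        _root_.sub_zero])
    (g := fun z => Real.exp (w z) * ∑ k, ‖nab I F.e (adw W) k (cξ y) z‖ ^ 2) hO
    (he.mono fun n hn z hz => by simp only [G, hn z hz, one_mul, real_inner_self_eq_norm_sq])
  simpa using (sum_eq_zero_iff_of_nonneg fun j _ => by positivity).1
    ((mul_eq_zero.1 this).resolve_left (Real.exp_pos _).ne') k (mem_univ k)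

end Cp

variable (d F W) in
/-- the curvature term of a flat configuration -/
def KF (x : M) : Prop := ∀ z : Tg ι κ, ps d.g d.pE x z = z → kA d F F.Gam W x z z =
  scal I F.e F.c F.Gam x / 2 * ∑ s, ‖s2 _ _ (s2 _ _ z) s‖ ^ 2 + 2 * ∑ a, ∑ b, ∑ k, ∑ j,
    Rm I F.e F.c F.Gam a b k j x * ⟪s2 _ _ (s2 _ _ z) (a, k), s2 _ _ (s2 _ _ z) (b, j)⟫_ℝ
    + scal I F.e F.c F.Gam x / 4 * ‖f2 _ _ (s2 _ _ z)‖ ^ 2

variable (F) in
/-- a third of the Laplacian -/
def lmf (u : M → ℝ) (x : M) : ℝ :=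
  (∑ a, (F.D a (F.D a u) x - ∑ k, F.Gam a a k x * F.D k u x)) / 3

theorem ic_smul {V : Type} [NormedAddCommGroup V] [InnerProductSpace ℝ V] (v : ι → ℝ) (c : ℝ)
    (η : ι × ι → V) (k : ι) : ic v (fun s => c • η s) k = c • ic v η k := by
  simp only [ic, smul_sum, smul_comm c]

theorem ev2_smul {V : Type} [NormedAddCommGroup V] [InnerProductSpace ℝ V] (v w : ι → ℝ) (c : ℝ)
    (η : ι × ι → V) : ev2 v w (fun s => c • η s) = c • ev2 v w η := by
  simp only [ev2, ic_smul, smul_sum, smul_comm c]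

theorem zz_smul {V : Type} [NormedAddCommGroup V] [InnerProductSpace ℝ V] (v w : ι → ℝ) (c : ℝ)
    (η : ι × ι → V) : zz v w (fun s => c • η s) = c ^ 2 * zz v w η := by
  simp only [zz, ev2_smul, ic_smul, norm_smul, mul_pow, Real.norm_eq_abs, sq_abs, ← mul_sum]; ring

variable {τ : ι → M → ℝ} {u : M → ℝ} {μ₀ ε : ℝ} (C : Cp d F F.Gam W)
include C

theorem CP.sc_ge (h : CP F τ u μ₀ x) (h0 : 0 ≤ μ₀) : 2 * μ₀ ^ 2 ≤ scal I F.e F.c F.Gam x := by
  obtain ⟨l, μ, k, -, -, h1, h2, -, h3⟩ := h.ex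
  rw [scal, sum_comm]
  simp only [h3, sf_scal (X := (F.D · u x)) (C.vol x) h.pτ (fun a => (frm F).projD a u x) h.n1 h.ort]
  nlinarith [mul_le_mul_of_nonneg_left h2 (h0.trans h1)]

/-- the pointwise inequality -/
theorem CP.key (h : CP F τ u μ₀ x) (hR : Riem F) (kf : KF d F W x) (hε : 0 < ε) (h8 : 8 * ε ≤ μ₀)
    {χ : M → ℝ} (sχ : SA I χ x) (sy : SA I y x) (pu : ∀ x, ps d.g d.pE x (y x) = y x)
    (h0 : cξ (fun z => χ z • y z) = fun _ => 0) (h0' : cξ y x = 0)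
    (ea : ∀ k, ∑ a, cov2 I F.e F.Gam (adw W) (cη y) a (a, k) x = -ε • ic (F.D · u x) (cη y · x) k)
    (ep : dir I F.e d.ρ W (cψ y) x = -ε • ∑ a, F.D a u x • d.ρ a x (cψ y x)) :
    0 ≤ lmf F u x ∧ 0 < lmf F u x + ∑ a, F.D a u x ^ 2 ∧
    2 * μ₀ * ε * (χ x ^ 2 * (ε / 4 * ‖ev2 (τ · x) (F.D · u x) (cη y · x)‖ ^ 2 +
      μ₀ / 2 * zz (τ · x) (F.D · u x) (cη y · x) + μ₀ / 8 * ‖cψ y x‖ ^ 2 +
      lmf F u x * (∑ k, ‖ic (τ · x) (cη y · x) k‖ ^ 2) / 2)) ≤
    2 * (μ₀ + ε) * (gr2 F.toPre χ x * ‖y x‖ ^ 2) -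
      2 * μ₀ * ε * dvg I F.e F.dv (mlt F (cη fun z => χ z • y z) τ u) x +
      ε * (∑ a, ∑ s, ‖cov2 I F.e F.Gam (adw W) (cη fun z => χ z • y z) a s x‖ ^ 2 +
        kA d F F.Gam W x (χ x • y x) (χ x • y x) -
        ‖((d.full F (base W 0)).adj F).app F (fun z => χ z • y z) x‖ ^ 2) := by
  have fr := frm F
  have hv := C.vol x
  obtain ⟨l, μ, k, l0, l1, h1, h2, hl, h3⟩ := h.ex
  have el : lmf F u x = l := by
    simp only [lmf, hl, ← mul_sum, sum_sub_distrib, hv.tr, ← sq, h.n1]; ring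
  have pz : ∀ z, ps d.g d.pE z (χ z • y z) = χ z • y z := fun z => by rw [map_smul, pu]
  have sz : SA I (fun z => χ z • y z) x := sχ.smul sy
  have sd : SD (F.P · · x) (d.ox x) (cη y · x) := C.sd_of (pu x)
  have sd' : ∀ z, SD (F.P · · z) (d.ox z) (cη (fun z => χ z • y z) · z) := fun z => C.sd_of (pz z)
  have ec : (cη (fun z => χ z • y z) · x) = fun s => χ x • cη y s x := funext fun s => by simp [cη]
  have pX : ∀ a, ∑ b, F.P a b x * F.D b u x = F.D a u x := fun a => fr.projD a u x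
  have pχ : ∀ a, ∑ b, F.P a b x * F.D b χ x = F.D a χ x := fun a => fr.projD a χ x
  set q : ι → ℝ := fun a => F.D a χ x - ε * χ x * F.D a u x with hq
  have pq : ∀ a, ∑ b, F.P a b x * q b = q a := fun a => by
    simp only [hq, mul_sub, sum_sub_distrib, mul_left_comm _ (ε * χ x), ← mul_sum, pX, pχ]
  have a1 : ∀ k, ∑ a, cov2 I F.e F.Gam (adw W) (cη fun z => χ z • y z) a (a, k) x =
      ic q (cη y · x) k := fun k => by
    simp only [cov2_smul sχ sy, sum_add_distrib, ← smul_sum, ea, ic, hq, sub_smul, sum_sub_distrib,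
      mul_smul (ε * χ x)]
    module
  have a2 : dir I F.e d.ρ W (cψ fun z => χ z • y z) x = ∑ a, q a • d.ρ a x (cψ y x) := by
    simp only [dir_smul sχ sy, ep, hq, sub_smul, sum_sub_distrib, mul_smul (ε * χ x), ← smul_sum]
    module
  have b4 := sq_ic hv sd h.pτ
  rw [h.n1, one_mul] at b4
  have a3 : ‖((d.full F (base W 0)).adj F).app F (fun z => χ z • y z) x‖ ^ 2 =
      (∑ a, q a ^ 2) * (4 * ∑ k, ‖ic (τ · x) (cη y · x) k‖ ^ 2 + ‖cψ y x‖ ^ 2) := by
    obtain ⟨k1, k2⟩ := Cp.adj_eqs C sz pz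
    have k3 : ∀ k, nab I F.e (adw W) k (fun _ => (0 : HS κ)) x = 0 := fun k => by simp [nab]
    rw [← real_inner_self_eq_norm_sq, inner2, inner_fm (X := HS κ)]
    simp only [k1, k2, a1, a2, h0, hR.dft C.lc, ic.eq_1 fun _ => (0 : ℝ), zero_smul, sum_const_zero,
      add_zero, k3, zero_add, real_inner_self_eq_norm_sq,
      norm_neg, norm_smul, mul_pow, Cp.sq_rho C pq (sm_of (pu x)), ← mul_sum]
    rw [mul_add, b4, ← sq_ic hv sd pq]
    norm_num
  have a4 : ∀ a j m, cov2 I F.e F.Gam (adw W) (cη fun z => χ z • y z) a (j, m) x =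
      -cov2 I F.e F.Gam (adw W) (cη fun z => χ z • y z) a (m, j) x := fun a j m => by
    have : cη (fun z => χ z • y z) (j, m) = fun z => (-1 : ℝ) • cη (fun z => χ z • y z) (m, j) z :=
      funext fun z => by rw [(sd' z).anti j m, neg_one_smul]
    simp only [cov2, this, nab_smul a contMDiffAt_const (sa_cη sz _), dv_const, Pi.zero_apply,
      (sd' x).anti j, (sd' x).anti _ m, smul_neg, sum_neg_distrib]
    module
  have a5 : ∑ k, ∑ a, τ a x • cov2 I F.e F.Gam (adw W) (cη fun z => χ z • y z) k (a, k) x =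
      ev2 (τ · x) (F.D · χ x) (cη y · x) - (ε * χ x) • ev2 (τ · x) (F.D · u x) (cη y · x) := by
    rw [sum_comm]
    simp only [← smul_sum, fun a k => a4 k a k, sum_neg_distrib, a1, smul_neg]
    rw [← ev2, ← ev2_swap sd]
    simp only [ev2, hq, sub_smul, sum_sub_distrib, mul_smul (ε * χ x), ← smul_sum]
  have a6 := h.dvg_mlt (A := adw W) (sa_cη sz) hR (C.skew_adw · x) hv (sd' x) hl
  have a7 := sum_le_sum fun k (_ : k ∈ Finset.univ) => sum_le_sum fun j (_ : j ∈ Finset.univ) =>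
    (ip_le μ₀ (F.D j u x • ic (τ · x) (cη (fun z => χ z • y z) · x) k -
      F.D k u x • ic (τ · x) (cη (fun z => χ z • y z) · x) j) _).trans (add_le_add_right
        (cs_smul (τ · x) fun a => cov2 I F.e F.Gam (adw W) (cη fun z => χ z • y z) k (a, j) x) _)
  simp only [h.n1, one_mul, sum_add_distrib, ← mul_sum, ← zz_eq] at a7
  have a8 := kA_ge hv (sd' x) h.pτ pX h.n1 h.le1 (by linarith) h1 h2
  have a9 := kf _ (pz x)
  have a10 := h.sc_ge C (by linarith)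
  have a11 : scal I F.e F.c F.Gam x = 6 * μ ^ 2 - 4 * μ * k * ∑ a, F.D a u x ^ 2 := by
    rw [scal, sum_comm]
    simp only [h3, sf_scal hv h.pτ pX h.n1 h.ort]
  have a12 := ip_le (ε * χ x / 2) (ev2 (τ · x) (F.D · u x) (cη y · x)) (ev2 (τ · x) (F.D · χ x) (cη y · x))
  have a13 := cs_smul (F.D · χ x) (ic (τ · x) (cη y · x))
  rw [← a11] at a8
  simp only [← h3] at a8
  rw [a5] at a6
  refine ⟨el ▸ l0, el ▸ l1, ?_⟩
  have := cok_num (c := χ x) (G := ‖ev2 (τ · x) (F.D · u x) (cη y · x)‖ ^ 2)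
    (Z := zz (τ · x) (F.D · u x) (cη y · x)) (p := ‖cψ y x‖ ^ 2) (l := l) (g := gr2 F.toPre χ x)
    (q := ∑ a, q a ^ 2) (k := kA d F F.Gam W x (χ x • y x) (χ x • y x))
    (T := χ x * ⟪ev2 (τ · x) (F.D · u x) (cη y · x), ev2 (τ · x) (F.D · χ x) (cη y · x)⟫_ℝ)
    (D := ∑ a, ∑ s, ‖cov2 I F.e F.Gam (adw W) (cη fun z => χ z • y z) a s x‖ ^ 2)
    hε h8 rfl zz_nonneg (sq_nonneg _) (by positivity) (sq_nonneg _) (gr2_nonneg _ _ _) h.le1
    (by
      simp only [gr2, mul_sum, ← sum_add_distrib, hq]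
      exact sum_le_sum fun a _ => by nlinarith [sq_nonneg (F.D a χ x + ε * χ x * F.D a u x)])
    (by simp only [gr2, ← sq]; rw [← ev2] at a13; linarith)
    (by
      refine a7.trans (add_le_add (by rw [ec, zz_smul]; linarith) (sum_le_sum fun a _ => ?_))
      rw [Fintype.sum_prod_type_right])
    (by
      rw [ec, zz_smul] at a8
      rw [a9, show ‖f2 _ _ (s2 _ _ (χ x • y x))‖ ^ 2 = χ x ^ 2 * ‖cψ y x‖ ^ 2 by
        simp [norm_smul, mul_pow]]
      exact le_trans (le_of_eq (by ring)) (add_le_add a8 (mul_le_mul_of_nonneg_right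
        (show μ₀ ^ 2 / 2 ≤ _ by linarith) (by positivity))))
  rw [el, a3, a6, show ‖y x‖ ^ 2 = 4 * ∑ k, ‖ic (τ · x) (cη y · x) k‖ ^ 2 + ‖cψ y x‖ ^ 2 by
    rw [nrm_Tg, show f2 _ _ (y x) = 0 from h0', b4, norm_zero, sq, mul_zero, zero_add, add_comm]]
  convert this using 4
  simp only [ec, ev2_smul, ic_smul, inner_sub_left, real_inner_smul_left, real_inner_smul_right,
    norm_smul, mul_pow, Real.norm_eq_abs, sq_abs, ← mul_sum, real_inner_self_eq_norm_sq,
    real_inner_comm (ev2 _ (F.D · u x) _)]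
  ring

variable [T2Space M] [BorelSpace M] [F.μ.IsOpenPosMeasure] {S : Set M} {χ : ℕ → M → ℝ}
  (hR : Riem F) (hχ : Cut I S χ) (sy : ∀ x ∈ S, SA I y x) (pu : ∀ x, ps d.g d.pE x (y x) = y x)
  (hc : ∀ x ∈ S, CP F τ u μ₀ x) (kf : ∀ x ∈ S, KF d F W x) (hε : 0 < ε) (h8 : 8 * ε ≤ μ₀)
include hR hχ sy pu hc kf hε h8

theorem cok_core (h0 : ∀ x ∈ S, cξ y x = 0) (ea : ∀ x ∈ S, ∀ k,
      ∑ a, cov2 I F.e F.Gam (adw W) (cη y) a (a, k) x = -ε • ic (F.D · u x) (cη y · x) k)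
    (ep : ∀ x ∈ S, dir I F.e d.ρ W (cψ y) x = -ε • ∑ a, F.D a u x • d.ρ a x (cψ y x))
    (hs : Small F.toPre χ fun x => ‖y x‖ ^ 2) {x : M} (hx : x ∈ S) : y x = 0 := by
  have fr := frm F
  have m0 : 0 < μ₀ := by linarith
  have zχ : ∀ n x, x ∉ S → χ n x = 0 := fun n x hx =>
    image_eq_zero_of_notMem_tsupport fun h => hx (hχ.supp n h)
  let z : ℕ → M → Tg ι κ := fun n x => χ n x • y x
  have sz : ∀ n, Sm I (z n) := fun n => sm_cut (hχ.sm n) (hχ.supp n) sy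
  have tz : ∀ n, tsupport (z n) ⊆ tsupport (χ n) := fun n => tsupport_cut _ _
  have pz : ∀ n x, ps d.g d.pE x (z n x) = z n x := fun n x => by simp only [z, map_smul, pu]
  have z0 : ∀ n, cξ (z n) = fun _ => 0 := fun n => funext fun x => by
    by_cases hx : x ∈ S
    · simp only [z, cξ, map_smul, h0 x hx, smul_zero]
    · simp [z, cξ, zχ n x hx]
  have nq : ∀ {V : Type} [NormedAddCommGroup V] [InnerProductSpace ℝ V] {f : M → V} {x : M},
      SA I f x → SA I (fun x => ‖f x‖ ^ 2) x := fun h => by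
    simp only [← real_inner_self_eq_norm_sq]; exact h.inner h
  let g : M → ℝ := fun x => 2 * μ₀ * ε * (ε / 4 * ‖ev2 (τ · x) (F.D · u x) (cη y · x)‖ ^ 2 +
    μ₀ / 2 * zz (τ · x) (F.D · u x) (cη y · x) + μ₀ / 8 * ‖cψ y x‖ ^ 2 +
    lmf F u x * (∑ k, ‖ic (τ · x) (cη y · x) k‖ ^ 2) / 2)
  have sg : ∀ x ∈ S, SA I g x := fun x hx => by
    have s1 := nq ((hc x hx).sa_ev (sa_cη (sy x hx)))
    have s2 := SA.sum Finset.univ fun k _ => nq ((hc x hx).sa_ic (sa_cη (sy x hx)) k)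
    have s3 := fun a => fr.sD a (hc x hx).su
    exact SA.mul contMDiffAt_const ((((SA.mul contMDiffAt_const s1).add (SA.mul contMDiffAt_const
      ((SA.mul (SA.sum _ fun a _ => (s3 a).pow 2) s2).sub s1))).add (SA.mul contMDiffAt_const
      (nq (sa_cψ (sy x hx))))).add ((SA.mul ((SA.sum _ fun a _ => (fr.sD a (s3 a)).sub
        (SA.sum _ fun k _ => SA.mul (C.lc.sm a a k x) (s3 k))).div_const 3) s2).div_const 2))
  have key := fun n x (hx : x ∈ S) => (hc x hx).key C hR (kf x hx) hε h8 (hχ.sm n x) (sy x hx) pu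
    (z0 n) (h0 x hx) (ea x hx) (ep x hx)
  have t1 : ∀ x ∈ S, 0 ≤ lmf F u x * (∑ k, ‖ic (τ · x) (cη y · x) k‖ ^ 2) / 2 := fun x hx => by
    have := (key 0 x hx).1; positivity
  have g0 : ∀ x ∈ S, 0 ≤ g x := fun x hx => by
    have := t1 x hx
    have := zz_nonneg (τ := (τ · x)) (X := (F.D · u x)) (η := (cη y · x))
    positivity
  let G : ℕ → M → ℝ := fun n x => χ n x * (χ n x * g x)
  have sG : ∀ n, Sm I (G n) := fun n => sm_cut (hχ.sm n) (hχ.supp n) fun x hx =>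
    SA.mul (hχ.sm n x) (sg x hx)
  have cG : ∀ n, HasCompactSupport (G n) := fun n => (hχ.hcs n).mul_right
  let f : ℕ → ι → M → ℝ := fun n => mlt F (cη (z n)) τ u
  have ef : ∀ n k, f n k = fun x => χ n x • (χ n x * mlt F (cη y) τ u k x) := fun n k =>
    funext fun x => by
      have ec : (cη (z n) · x) = fun s => χ n x • cη y s x := funext fun s => by simp [cη, z]
      simp only [f, mlt, ec, ic_smul, ev2_smul, real_inner_smul_left, real_inner_smul_right,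
        ← mul_sum, smul_eq_mul]
      ring
  have sf : ∀ n k, Sm I (f n k) := fun n k => ef n k ▸ sm_cut (hχ.sm n) (hχ.supp n) fun x hx =>
    SA.mul (hχ.sm n x) ((hc x hx).sa_mlt (sa_cη (sy x hx)) k)
  have tf : ∀ n k, tsupport (f n k) ⊆ tsupport (χ n) := fun n k => ef n k ▸ tsupport_cut _ _
  have cf := fun n k => hcs_of_sub (hχ.hcs n) (tf n k)
  have s3 : ∀ n, Sm I fun x => gr2 F.toPre (χ n) x * ‖y x‖ ^ 2 := fun n =>
    sm_cut (sm_gr2 _ (hχ.sm n)) ((tsupport_gr2 _ _).trans (hχ.supp n)) fun x hx => nq (sy x hx)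
  have c3 : ∀ n, HasCompactSupport fun x => gr2 F.toPre (χ n) x * ‖y x‖ ^ 2 := fun n =>
    (hcs_of_sub (hχ.hcs n) (tsupport_gr2 _ _)).mul_right
  have off : ∀ n x, x ∉ tsupport (χ n) → ∀ {V : Type} [NormedAddCommGroup V] [NormedSpace ℝ V]
      (L : Tg ι κ →L[ℝ] V) (a : ι), dv I (F.e a) (fun x => L (z n x)) x = 0 ∧ z n x = 0 :=
    fun n x hx V _ _ L a => ⟨dv_eq_zero_of_notMem fun h => hx (tz n (tsupport_comp_subset
      (map_zero L) _ h)), image_eq_zero_of_notMem_tsupport fun h => hx (tz n h)⟩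
  let N : ℕ → M → ℝ := fun n x => ‖((d.full F (base W 0)).adj F).app F (z n) x‖ ^ 2
  have sN : ∀ n, Sm I (N n) := fun n x => by
    have e : N n = fun x => ∑ k, ‖-(nab I F.e (adw W) k (cξ (z n)) x + (2 : ℝ) •
        ∑ a, cov2 I F.e F.Gam (adw W) (cη (z n)) a (a, k) x)‖ ^ 2 +
          ‖dir I F.e d.ρ W (cψ (z n)) x‖ ^ 2 := funext fun x => by
      obtain ⟨k1, k2⟩ := Cp.adj_eqs C (sz n x) (pz n)
      simp only [N]
      rw [← real_inner_self_eq_norm_sq, inner2, inner_fm (X := HS κ)]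
      simp only [k1, k2, hR.dft C.lc, ic.eq_1 fun _ => (0 : ℝ), zero_smul, sum_const_zero, add_zero,
        real_inner_self_eq_norm_sq]
    rw [e]
    exact (SA.sum _ fun k _ => nq ((fr.sN (C.con_adw.sm · x) k (sa_cξ (sz n x))).add
      (SA.smul contMDiffAt_const
        (SA.sum _ fun a _ => sa_cov2 C.lc (C.con_adw.sm · x) (sa_cη (sz n x)) a _))).neg).add
      (nq (SA.sum _ fun a _ => SA.app (C.sρ a x) (fr.sN (C.con.sm · x) a (sa_cψ (sz n x)))))
  have N0 : ∀ n x, x ∉ tsupport (χ n) → N n x = 0 := fun n x hx => by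
    have := fun a => (off n x hx (.id ℝ _) a)
    simp only [ContinuousLinearMap.id_apply] at this
    simp [N, Op.app, Pre.op, F.D_def, fun a => (this a).1, image_eq_zero_of_notMem_tsupport
      fun h => hx (tz n h)]
  let K : ℕ → M → ℝ := fun n x => kA d F F.Gam W x (z n x) (z n x)
  have K0 : ∀ n x, z n x = 0 → K n x = 0 := fun n x h => by simp [K, kA, h]
  have sK : ∀ n, Sm I (K n) := fun n x => by
    have e : K n = fun x => scal I F.e F.c F.Gam x / 2 * ∑ s, ‖cη (z n) s x‖ ^ 2 +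
        2 * ∑ a, ∑ b, ∑ k, ∑ j, Rm I F.e F.c F.Gam a b k j x * ⟪cη (z n) (a, k) x, cη (z n) (b, j) x⟫_ℝ
        + scal I F.e F.c F.Gam x / 4 * ‖cψ (z n) x‖ ^ 2 := funext fun x => by
      by_cases hx : x ∈ S
      · exact kf x hx _ (pz n x)
      · have : z n x = 0 := by simp [z, zχ n x hx]
        simp [K0 n x this, this, cη, cψ]
    rw [e]
    exact ((SA.mul ((C.lc.sScal fr x).div_const 2) (SA.sum _ fun s _ => nq (sa_cη (sz n x) s))).add
      (SA.mul contMDiffAt_const (SA.sum _ fun a _ => SA.sum _ fun b _ => SA.sum _ fun k _ =>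
        SA.sum _ fun j _ => SA.mul (C.lc.sRm fr a b k j x) ((sa_cη (sz n x) _).inner
          (sa_cη (sz n x) _))))).add (SA.mul ((C.lc.sScal fr x).div_const 4) (nq (sa_cψ (sz n x))))
  let B : ℕ → M → ℝ := fun n x => ∑ a, ‖nab I F.e (adw W) a (cξ (z n)) x‖ ^ 2 +
    ∑ a, ‖nab I F.e W a (cψ (z n)) x‖ ^ 2 +
    ∑ a, ∑ s, ‖cov2 I F.e F.Gam (adw W) (cη (z n)) a s x‖ ^ 2 + K n x
  have sB : ∀ n, Sm I (B n) := fun n x =>
    (((SA.sum _ fun a _ => nq (fr.sN (C.con_adw.sm · x) a (sa_cξ (sz n x)))).add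
      (SA.sum _ fun a _ => nq (fr.sN (C.con.sm · x) a (sa_cψ (sz n x))))).add
      (SA.sum _ fun a _ => SA.sum _ fun s _ =>
        nq (sa_cov2 C.lc (C.con_adw.sm · x) (sa_cη (sz n x)) a s))).add (sK n x)
  have B0 : ∀ n x, x ∉ tsupport (χ n) → B n x = 0 := fun n x hx => by
    have k0 : z n x = 0 := image_eq_zero_of_notMem_tsupport fun h => hx (tz n h)
    have k1 : ∀ a, dv I (F.e a) (cψ (z n)) x = 0 := fun a => (off n x hx (f2 _ _ ∘L s2 _ _) a).1
    have k2 : ∀ a s, dv I (F.e a) (cη (z n) s) x = 0 := fun a s =>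
      (off n x hx (Map77.pj _ s ∘L s2 _ _ ∘L s2 _ _) a).1
    have k3 : cψ (z n) x = 0 := by simp [cψ, k0]
    have k4 : ∀ s, cη (z n) s x = 0 := fun s => by simp [cη, k0]
    simp [B, z0, K0 n x k0, nab, cov2, k1, k2, k3, k4]
  have iN := fun n => integ (F := F) (sN n) (HasCompactSupport.intro (hχ.hcs n).isCompact (N0 n))
  have iB := fun n => integ (F := F) (sB n) (HasCompactSupport.intro (hχ.hcs n).isCompact (B0 n))
  have ky : ∀ n x, G n x ≤ 2 * (μ₀ + ε) * (gr2 F.toPre (χ n) x * ‖y x‖ ^ 2) -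
      2 * μ₀ * ε * dvg I F.e F.dv (f n) x + ε * (B n x - N n x) := fun n x => by
    by_cases hx : x ∈ tsupport (χ n)
    · refine (le_of_eq (by simp only [G, g]; ring)).trans ((key n x (hχ.supp n hx)).2.2.trans ?_)
      have k1 : 0 ≤ ∑ a, ‖nab I F.e (adw W) a (cξ (z n)) x‖ ^ 2 := by positivity
      have k2 : 0 ≤ ∑ a, ‖nab I F.e W a (cψ (z n)) x‖ ^ 2 := by positivity
      gcongr
      exact add_le_add_left (le_add_of_nonneg_left (add_nonneg k1 k2)) _
    · have e1 : ∀ a, dv I (F.e a) (f n a) x = 0 := fun a =>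
        dv_eq_zero_of_notMem fun h => hx (tf n a h)
      simp only [dvg, e1, B0 n x hx, N0 n x hx]
      simp [G, ef, gr2_zero _ hx, image_eq_zero_of_notMem_tsupport hx]
  obtain ⟨O, hO, he⟩ := hχ.one x hx
  have h4 := hs.const_mul (2 * (μ₀ + ε))
  rw [mul_zero] at h4
  have := zero_of_tendsto (μ := F.μ) (fun n => (sG n).continuous) cG
    (fun n x => by
      by_cases hx : x ∈ S
      · simp only [G, ← mul_assoc]; exact mul_nonneg (mul_self_nonneg _) (g0 x hx)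
      · simp [G, zχ n x hx]) h4 (fun n => by
      have i1 := ((integ (F := F) (s3 n) (c3 n)).const_mul (2 * (μ₀ + ε)))
      have i2 := (integ_dvg (F := F) (sf n) (cf n)).const_mul (2 * μ₀ * ε)
      refine (integral_mono (integ (sG n) (cG n)) ((i1.sub i2).add (((iB n).sub (iN n)).const_mul ε))
        (ky n)).trans ?_
      rw [integral_add' (i1.sub i2) (((iB n).sub (iN n)).const_mul ε), integral_sub' i1 i2,
        integral_const_mul, integral_const_mul, integral_const_mul, integral_dvg (sf n) (cf n),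
        integral_sub' (iB n) (iN n), ← C.boch_adj0 hR (sz n) (hcs_of_sub (hχ.hcs n) (tz n)) (pz n)]
      simp [N])
    (g := g) hO (he.mono fun n hn x hx => by simp only [G, hn x hx, one_mul])
  have k1 := t1 x hx
  have k2 := zz_nonneg (τ := (τ · x)) (X := (F.D · u x)) (η := (cη y · x))
  have k3 := (mul_eq_zero.1 this).resolve_left (by positivity)
  have k4 := sq_nonneg ‖ev2 (τ · x) (F.D · u x) (cη y · x)‖
  have k5 := sq_nonneg ‖cψ y x‖
  have k6 : ‖cψ y x‖ ^ 2 = 0 := by nlinarith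
  have k7 : (∑ a, F.D a u x ^ 2) * ∑ k, ‖ic (τ · x) (cη y · x) k‖ ^ 2 = 0 := by
    have : zz (τ · x) (F.D · u x) (cη y · x) = 0 := by nlinarith
    have : ‖ev2 (τ · x) (F.D · u x) (cη y · x)‖ ^ 2 = 0 := by nlinarith
    rw [zz] at *; linarith
  have k8 : ∑ k, ‖ic (τ · x) (cη y · x) k‖ ^ 2 = 0 :=
    (mul_eq_zero.1 (show (lmf F u x + ∑ a, F.D a u x ^ 2) * _ = 0 by nlinarith)).resolve_left
      (key 0 x hx).2.1.ne'
  have b4 := sq_ic (η := (cη y · x)) (C.vol x) (C.sd_of (pu x)) (hc x hx).pτ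
  rw [(hc x hx).n1, one_mul, k8] at b4
  rw [← norm_eq_zero, ← pow_eq_zero_iff two_ne_zero, nrm_Tg, show f2 _ _ (y x) = 0 from h0 x hx]
  simp only [norm_zero]
  linarith

end Crest.Agent.X212.Dfl49
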