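import Crest.Agent.X212.Dfl49.Cpd
import Crest.Agent.X212.Wz78.Fms

/-!
# Row 212, DFLAT (helper49), file 13: a circle times a convex cap; the multiplier identity
-/

set_option autoImplicit false
set_option linter.unusedSectionVars false
noncomputable section
open Filter Topology
open scoped ContDiff Manifold InnerProductSpace

namespace Crest.Agent.X212.Dfl49
open An Sob92 Wz78 Rdc90 Finset
open Map77 (Vol SD)

section alg
variable {ι V : Type} [Fintype ι] [NormedAddCommGroup V] [InnerProductSpace ℝ V]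
  {P : ι → ι → ℝ} {o : ι → ι → ι → ι → ℝ} {η : ι × ι → V} {τ X v w : ι → ℝ}

/-- contraction -/
def ic (v : ι → ℝ) (η : ι × ι → V) (k : ι) : V := ∑ a, v a • η (a, k)

/-- the value of a form on two vectors -/
def ev2 (v w : ι → ℝ) (η : ι × ι → V) : V := ∑ k, w k • ic v η k

/-- the squared length of `b ∧ X` -/
def zz (τ X : ι → ℝ) (η : ι × ι → V) : ℝ :=
  (∑ a, X a ^ 2) * ∑ k, ‖ic τ η k‖ ^ 2 - ‖ev2 τ X η‖ ^ 2

theorem sq_ic (h : Vol P o) (hη : SD P o η) (hv : ∀ a, ∑ b, P a b * v b = v a) :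
    4 * ∑ k, ‖ic v η k‖ ^ 2 = (∑ a, v a ^ 2) * ∑ s, ‖η s‖ ^ 2 := by
  have e : ∀ a b, ∑ c, ⟪η (a, c), η (b, c)⟫_ℝ = P a b * (∑ s, ‖η s‖ ^ 2) / 4 := fun a b => by
    have := h.quat hη hη a b
    simp only [real_inner_comm (η (a, _)) (η (b, _)), real_inner_self_eq_norm_sq] at this
    linarith
  calc _ = 4 * ∑ a, ∑ b, v a * v b * ∑ c, ⟪η (a, c), η (b, c)⟫_ℝ := by
        simp only [← real_inner_self_eq_norm_sq, ic, sum_inner, inner_sum, real_inner_smul_left,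
          real_inner_smul_right, mul_sum]
        rw [sum_comm]
        refine sum_congr rfl fun b _ => ?_
        rw [sum_comm]
        exact sum_congr rfl fun a _ => sum_congr rfl fun c _ => by rw [real_inner_comm]; ring
    _ = _ := by
        rw [sum_mul, mul_sum]
        refine sum_congr rfl fun a _ => ?_
        rw [sq (v a)]
        nth_rw 3 [← hv a]
        simp only [e, mul_sum (f := fun b => P a b * v b), sum_mul, mul_sum (a := (4 : ℝ))]
        exact sum_congr rfl fun b _ => by ring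

theorem ic_r (hη : SD P o η) (j : ι) : ∑ k, v k • η (j, k) = -ic v η j := by
  simp only [ic, hη.anti j, smul_neg, sum_neg_distrib]

theorem ic_P (hη : SD P o η) (b : ι) : ∑ k, P b k • ic v η k = ic v η b := by
  simp only [ic, smul_sum, smul_comm (P b _)]
  rw [sum_comm]
  simp only [← smul_sum, hη.pr']

theorem ev2_swap (hη : SD P o η) : ev2 v w η = -ev2 w v η := by
  simp only [ev2, ← neg_eq_iff_eq_neg.2 (ic_r hη _), smul_neg, sum_neg_distrib, neg_neg, smul_sum]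
  rw [sum_comm]
  simp only [ic, smul_sum, ← sum_neg_distrib]
  exact sum_congr rfl fun a _ => sum_congr rfl fun b _ => by
    rw [hη.anti a b, smul_comm]; simp

theorem ev2_self (hη : SD P o η) : ev2 v v η = 0 := by
  have := ev2_swap (v := v) (w := v) hη
  linear_combination (norm := module) (1 / 2 : ℝ) • this

theorem zz_eq : 2 * zz τ X η = ∑ k, ∑ j, ‖X j • ic τ η k - X k • ic τ η j‖ ^ 2 := by
  have e : ‖ev2 τ X η‖ ^ 2 = ∑ k, ∑ j, X j * X k * ⟪ic τ η k, ic τ η j⟫_ℝ := by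
    simp only [ev2, ← real_inner_self_eq_norm_sq, sum_inner, inner_sum, real_inner_smul_left,
      real_inner_smul_right]
    exact sum_congr rfl fun k _ => sum_congr rfl fun j _ => by rw [real_inner_comm]; ring
  have e'' : ∀ k j, ‖X j • ic τ η k - X k • ic τ η j‖ ^ 2 = X j ^ 2 * ‖ic τ η k‖ ^ 2 +
      X k ^ 2 * ‖ic τ η j‖ ^ 2 - 2 * (X j * X k * ⟪ic τ η k, ic τ η j⟫_ℝ) := fun k j => by
    simp only [norm_sub_sq_real, norm_smul, mul_pow, Real.norm_eq_abs, sq_abs, real_inner_smul_left,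
      real_inner_smul_right]
    ring
  simp only [e'', zz, e, sum_sub_distrib, sum_add_distrib, ← mul_sum, ← sum_mul]
  ring

theorem zz_nonneg : 0 ≤ zz τ X η := by
  have := zz_eq (τ := τ) (X := X) (η := η)
  have : 0 ≤ ∑ k, ∑ j, ‖X j • ic τ η k - X k • ic τ η j‖ ^ 2 := by positivity
  linarith

theorem sf_term (hP : Pr P) (hη : SD P o η) (μ κ : ℝ) :
    ∑ a, ∑ b, ∑ k, ∑ j, (sf P τ X μ κ b k * sf P τ X μ κ a j - sf P τ X μ κ a k * sf P τ X μ κ b j)
      * ⟪η (a, k), η (b, j)⟫_ℝ = -μ ^ 2 * ∑ s, ‖η s‖ ^ 2 + 2 * μ ^ 2 * ∑ k, ‖ic τ η k‖ ^ 2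
        + 2 * μ * κ * ∑ k, ‖ic X η k‖ ^ 2 - 2 * μ * κ * ‖ev2 τ X η‖ ^ 2 := by
  have s : ∀ (b : ι) (θ : ι → V), ∑ k, sf P τ X μ κ b k • θ k = μ • ∑ k, P b k • θ k
      - (μ * τ b) • ∑ k, τ k • θ k - (κ * X b) • ∑ k, X k • θ k := fun b θ => by
    simp only [sf, smul_sum, ← sum_sub_distrib]
    exact sum_congr rfl fun k _ => by module
  have sy : ∀ a b, sf P τ X μ κ a b = sf P τ X μ κ b a := fun a b => by
    simp only [sf, hP.symm a b]; ring
  have h0 : ∑ a, ∑ k, sf P τ X μ κ a k • η (a, k) = 0 := by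
    have : ∑ a, ∑ k, sf P τ X μ κ a k • η (a, k) = -∑ a, ∑ k, sf P τ X μ κ a k • η (a, k) := by
      nth_rw 1 [sum_comm]
      simp only [← sum_neg_distrib]
      exact sum_congr rfl fun a _ => sum_congr rfl fun b _ => by rw [hη.anti b a, sy, smul_neg]
    linear_combination (norm := module) (1 / 2 : ℝ) • this
  have h1 : ∑ a, ∑ b, ∑ k, ∑ j, sf P τ X μ κ a k * sf P τ X μ κ b j * ⟪η (a, k), η (b, j)⟫_ℝ = 0 := by
    have := congrArg (fun z => ⟪z, z⟫_ℝ) h0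
    simp only [sum_inner, inner_sum, real_inner_smul_left, real_inner_smul_right,
      inner_zero_left] at this
    rw [← this]
    refine sum_congr rfl fun a _ => ?_
    rw [sum_comm]
    exact sum_congr rfl fun k _ => sum_congr rfl fun b _ => sum_congr rfl fun j _ => by
      rw [real_inner_comm]; ring
  have h2 : ∑ a, ∑ b, ∑ k, ∑ j, sf P τ X μ κ b k * sf P τ X μ κ a j * ⟪η (a, k), η (b, j)⟫_ℝ =
      ∑ b, ∑ j, ⟪∑ k, sf P τ X μ κ b k • ∑ a, sf P τ X μ κ j a • η (a, k), η (b, j)⟫_ℝ := by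
    simp only [sum_inner, real_inner_smul_left, mul_sum]
    rw [sum_comm]
    refine sum_congr rfl fun b _ => ?_
    rw [sum_comm, sum_congr rfl fun k _ => sum_comm, sum_comm]
    exact sum_congr rfl fun j _ => sum_congr rfl fun k _ => sum_congr rfl fun a _ => by
      rw [sy j a]; ring
  have h3 : ∀ b j, ∑ k, sf P τ X μ κ b k • ∑ a, sf P τ X μ κ j a • η (a, k) =
      μ • (-μ • η (b, j) + (μ * τ b) • ic τ η j + (κ * X b) • ic X η j)
      - (μ * τ j) • (μ • ic τ η b - (κ * X b) • ev2 τ X η)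
      - (κ * X j) • (μ • ic X η b + (μ * τ b) • ev2 τ X η) := fun b j => by
    have e : ∀ k, ∑ a, sf P τ X μ κ j a • η (a, k) =
        μ • η (j, k) - (μ * τ j) • ic τ η k - (κ * X j) • ic X η k := fun k => by
      rw [s, hη.pr]; rfl
    have e1 : ∑ k, sf P τ X μ κ b k • η (j, k) =
        -μ • η (b, j) + (μ * τ b) • ic τ η j + (κ * X b) • ic X η j := by
      rw [s, hη.pr', ic_r hη, ic_r hη, hη.anti j b]; module
    have e2 : ∑ k, sf P τ X μ κ b k • ic τ η k = μ • ic τ η b - (κ * X b) • ev2 τ X η := by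
      rw [s, ic_P hη, ← ev2, ← ev2, ev2_self hη]; module
    have e3 : ∑ k, sf P τ X μ κ b k • ic X η k = μ • ic X η b + (μ * τ b) • ev2 τ X η := by
      rw [s, ic_P hη, ← ev2, ← ev2, ev2_self hη, ev2_swap hη]; module
    simp only [e, smul_sub, sum_sub_distrib, smul_comm (sf P τ X μ κ b _), ← smul_sum, e1, e2, e3]
  have k1 : ∀ v : ι → ℝ, ∑ b, ∑ j, v b * ⟪ic v η j, η (b, j)⟫_ℝ = ∑ k, ‖ic v η k‖ ^ 2 := fun v => by
    rw [sum_comm]
    simp only [← real_inner_smul_right, ← inner_sum, ← real_inner_self_eq_norm_sq]; rfl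
  have k2 : ∀ v : ι → ℝ, ∑ b, ∑ j, v j * ⟪ic v η b, η (b, j)⟫_ℝ = -∑ k, ‖ic v η k‖ ^ 2 := fun v => by
    simp only [← real_inner_smul_right, ← inner_sum, ic_r hη, inner_neg_right, sum_neg_distrib,
      real_inner_self_eq_norm_sq]
  have k3 : ∑ b, ∑ j, X b * (τ j * ⟪ev2 τ X η, η (b, j)⟫_ℝ) = -‖ev2 τ X η‖ ^ 2 := by
    simp only [← mul_sum]
    simp only [← real_inner_smul_right, ← inner_sum, ic_r hη]
    simp only [smul_neg, sum_neg_distrib, inner_neg_right, ← real_inner_self_eq_norm_sq]; rfl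
  have k4 : ∑ b, ∑ j, X j * (τ b * ⟪ev2 τ X η, η (b, j)⟫_ℝ) = ‖ev2 τ X η‖ ^ 2 := by
    rw [sum_comm]
    simp only [← mul_sum]
    simp only [← real_inner_smul_right, ← inner_sum, ← real_inner_self_eq_norm_sq]; rfl
  have h4 : ∀ b j, ⟪∑ k, sf P τ X μ κ b k • ∑ a, sf P τ X μ κ j a • η (a, k), η (b, j)⟫_ℝ =
      -μ ^ 2 * ‖η (b, j)‖ ^ 2 + μ ^ 2 * (τ b * ⟪ic τ η j, η (b, j)⟫_ℝ)
      + μ * κ * (X b * ⟪ic X η j, η (b, j)⟫_ℝ) - μ ^ 2 * (τ j * ⟪ic τ η b, η (b, j)⟫_ℝ)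
      - μ * κ * (X j * ⟪ic X η b, η (b, j)⟫_ℝ) + μ * κ * (X b * (τ j * ⟪ev2 τ X η, η (b, j)⟫_ℝ))
      - μ * κ * (X j * (τ b * ⟪ev2 τ X η, η (b, j)⟫_ℝ)) := fun b j => by
    simp only [h3, inner_sub_left, inner_add_left, real_inner_smul_left, real_inner_self_eq_norm_sq]
    ring
  simp only [sub_mul, sum_sub_distrib, h1, h2, h4, sum_add_distrib]
  simp only [← mul_sum (a := μ ^ 2), ← mul_sum (a := -μ ^ 2), ← mul_sum (a := μ * κ), k1, k2, k3, k4,
    Fintype.sum_prod_type]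
  ring

/-- the trace terms -/
theorem sf_scal (h : Vol P o) (hτ : ∀ a, ∑ b, P a b * τ b = τ a) (hX : ∀ a, ∑ b, P a b * X b = X a)
    (h1 : ∑ a, τ a ^ 2 = 1) (h0 : ∑ a, τ a * X a = 0) (μ κ : ℝ) :
    ∑ b, ∑ a, (sf P τ X μ κ b b * sf P τ X μ κ a a - sf P τ X μ κ a b * sf P τ X μ κ b a) =
      6 * μ ^ 2 - 4 * μ * κ * ∑ a, X a ^ 2 := by
  have t : ∑ a, sf P τ X μ κ a a = 3 * μ - κ * ∑ a, X a ^ 2 := by
    simp only [sf, sum_sub_distrib, ← mul_sum, h.tr, ← sq, h1]; ring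
  have e : ∀ a b, sf P τ X μ κ a b * sf P τ X μ κ b a = μ ^ 2 * (P b a * P a b)
      - 2 * μ ^ 2 * τ b * (P b a * τ a) - 2 * μ * κ * X b * (P b a * X a) + μ ^ 2 * τ b ^ 2 * τ a ^ 2
      + 2 * μ * κ * (τ b * X b) * (τ a * X a) + κ ^ 2 * X b ^ 2 * X a ^ 2 := fun a b => by
    simp only [sf, h.pr.symm a b]; ring
  simp only [sum_sub_distrib, ← mul_sum, ← sum_mul, t, e, sum_add_distrib, hτ, hX, h0, h1, h.pr.idem,
    h.tr, mul_assoc, ← sq, mul_zero, sum_const_zero]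
  ring

/-- positivity of the curvature term -/
theorem kA_ge (h : Vol P o) (hη : SD P o η) (hτ : ∀ a, ∑ b, P a b * τ b = τ a)
    (hX : ∀ a, ∑ b, P a b * X b = X a) (h1 : ∑ a, τ a ^ 2 = 1) (hx : ∑ a, X a ^ 2 ≤ 1) {μ κ μ₀ : ℝ}
    (h0 : 0 ≤ μ₀) (hμ : μ₀ ≤ μ) (hκ : κ * ∑ a, X a ^ 2 ≤ μ) :
    4 * μ₀ ^ 2 * zz τ X η ≤ (6 * μ ^ 2 - 4 * μ * κ * ∑ a, X a ^ 2) / 2 * ∑ s, ‖η s‖ ^ 2 + 2 *
      ∑ a, ∑ b, ∑ k, ∑ j, (sf P τ X μ κ b k * sf P τ X μ κ a j - sf P τ X μ κ a k * sf P τ X μ κ b j)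
        * ⟪η (a, k), η (b, j)⟫_ℝ := by
  have e1 := sq_ic h hη hτ
  have e2 := sq_ic h hη hX
  have z0 := zz_nonneg (τ := τ) (X := X) (η := η)
  have x0 : 0 ≤ ∑ a, X a ^ 2 := by positivity
  have b0 : 0 ≤ ∑ k, ‖ic τ η k‖ ^ 2 := by positivity
  have g0 := sq_nonneg ‖ev2 τ X η‖
  have k1 : μ₀ ^ 2 * zz τ X η ≤ μ ^ 2 * zz τ X η := by gcongr
  rw [sf_term h.pr hη]
  rw [h1, one_mul] at e1
  rw [← e1] at e2 ⊢
  rw [zz] at *
  generalize ∑ a, X a ^ 2 = x at *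
  generalize ∑ k, ‖ic τ η k‖ ^ 2 = b at *
  generalize ∑ k, ‖ic X η k‖ ^ 2 = g at *
  generalize ‖ev2 τ X η‖ ^ 2 = G at *
  obtain rfl : g = x * b := by linarith
  have m0 : 0 ≤ μ := h0.trans hμ
  have k2 : μ * (x * b - G) ≤ 2 * (μ - κ * x) * b + κ * (x * b - G) := by
    have : x * b ≤ b := by nlinarith
    rcases le_total 0 κ with k | k
    · nlinarith [mul_nonneg (sub_nonneg.2 hκ) (sub_nonneg.2 this), mul_nonneg (sub_nonneg.2 hκ) g0,
        mul_nonneg (mul_nonneg k (sub_nonneg.2 hx)) z0, mul_nonneg (sub_nonneg.2 hκ) b0]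
    · nlinarith [mul_nonneg m0 (sub_nonneg.2 this), mul_nonneg m0 g0, mul_nonneg m0 b0,
        mul_nonneg (neg_nonneg.2 k) g0, mul_nonneg (neg_nonneg.2 k) (mul_nonneg x0 b0)]
  nlinarith [mul_le_mul_of_nonneg_left k2 m0]

end alg

section calc'
variable {E H : Type*} [NormedAddCommGroup E] [NormedSpace ℝ E] [TopologicalSpace H]
  {I : ModelWithCorners ℝ E H} {M : Type*} [TopologicalSpace M] [ChartedSpace H M]
  {V : Type} [NormedAddCommGroup V] [InnerProductSpace ℝ V]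
  {ι : Type} [Fintype ι] [IsManifold I 1 M] {e : ι → (x : M) → TangentSpace I x}
  {P : ι → ι → M → ℝ} {c Γ : ι → ι → ι → M → ℝ} {g : ι → M → ℝ} {A : ι → M → V →L[ℝ] V}
  {θ θ' : ι → M → V} {ν : ι → M → ℝ} {η : ι × ι → M → V} {x : M} (L : LC I e P c Γ) (F : Frm I e P c)
include L F

theorem nab_pair (sν : ∀ b, SA I (ν b) x) (sθ : ∀ b, SA I (θ b) x)
    (pν : ∀ a, ∑ b, P a b x * ν b x = ν a x) (pθ : ∀ a, ∑ b, P a b x • θ b x = θ a x) (a : ι) :
    nab I e A a (fun y => ∑ b, ν b y • θ b y) x = ∑ b, ν b x • cov I e Γ A θ a b x +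
      ∑ b, (dv I (e a) (ν b) x - ∑ k, Γ a b k x * ν k x) • θ b x := by
  have h0 := F.dP_zero a x (T := fun b k => ν b x • θ k x)
    (fun b k => by simp only [smul_smul, ← sum_smul, pν])
    fun b k => by simp only [smul_comm (P k _ x), ← smul_sum, pθ]
  simp only [L.met, add_smul, sum_add_distrib] at h0
  rw [sum_comm (f := fun b k => Γ a k b x • ν b x • θ k x)] at h0
  rw [nab_sum a _ (u := fun b y => ν b y • θ b y) fun b => (sν b).smul (sθ b)]
  simp only [nab_smul a (sν _) (sθ _), cov, smul_sub, sum_sub_distrib, sub_smul,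
    sum_add_distrib, sum_smul, mul_smul, smul_sum, smul_comm (ν _ x) (Γ _ _ _ x)]
  rw [eq_neg_of_add_eq_zero_right h0]
  abel

theorem dv_pair (a : ι) (sk : Skew (A a x)) (sθ : ∀ b, SA I (θ b) x) (sθ' : ∀ b, SA I (θ' b) x)
    (pθ : ∀ a, ∑ b, P a b x • θ b x = θ a x) (pθ' : ∀ a, ∑ b, P a b x • θ' b x = θ' a x) :
    dv I (e a) (fun y => ∑ b, ⟪θ b y, θ' b y⟫_ℝ) x =
      ∑ b, ⟪cov I e Γ A θ a b x, θ' b x⟫_ℝ + ∑ b, ⟪θ b x, cov I e Γ A θ' a b x⟫_ℝ := by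
  have h0 := F.dP_zero a x (T := fun b k => ⟪θ b x, θ' k x⟫_ℝ)
    (fun b k => by simp only [smul_eq_mul, ← real_inner_smul_left, ← sum_inner, pθ])
    fun b k => by simp only [smul_eq_mul, ← real_inner_smul_right, ← inner_sum, pθ']
  simp only [L.met, add_mul, sum_add_distrib, smul_eq_mul] at h0
  rw [sum_comm (f := fun b k => Γ a k b x * ⟪θ b x, θ' k x⟫_ℝ)] at h0
  rw [dv_sum _ fun b _ => ((sθ b).inner (sθ' b)).md]
  simp only [dv_inner a sk (sθ _) (sθ' _), cov, inner_sub_left, inner_sub_right, sum_inner,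
    inner_sum, real_inner_smul_left, real_inner_smul_right, sum_add_distrib, sum_sub_distrib]
  linarith

theorem dvg_pair (hg : ∀ k, g k x = ∑ a, Γ a k a x) (sk : ∀ a, Skew (A a x))
    (sη : ∀ s, SA I (η s) x) (sθ : ∀ b, SA I (θ b) x) {o : ι → ι → ι → ι → ℝ}
    (hη : SD (P · · x) o (η · x)) (pθ : ∀ a, ∑ b, P a b x • θ b x = θ a x) :
    dvg I e g (fun a y => ∑ k, ⟪η (a, k) y, θ k y⟫_ℝ) x =
      ∑ k, ⟪∑ a, cov2 I e Γ A η a (a, k) x, θ k x⟫_ℝ +
        ∑ a, ∑ k, ⟪η (a, k) x, cov I e Γ A θ a k x⟫_ℝ := by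
  have h1 : ∀ k, ∑ a, cov2 I e Γ A η a (a, k) x =
      ∑ a, cov I e Γ A (fun k => η (a, k)) a k x + ∑ a, g a x • η (a, k) x := fun k => by
    have := L.div_sum F hg (T := fun m => η (m, k) x) fun m => hη.pr m k
    simp only [cov2, cov, sum_sub_distrib, this]; abel
  simp only [dvg, fun a => dv_pair L F a (sk a) (fun k => sη (a, k)) sθ (hη.pr' a) pθ, h1,
    inner_add_left, sum_inner, real_inner_smul_left, sum_add_distrib, mul_sum]
  rw [sum_comm (f := fun k a => g a x * _), sum_comm (f := fun k a => ⟪cov _ _ _ _ _ a k x, θ k x⟫_ℝ)]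
  ring

end calc'

section mult
variable {E : Type} [NormedAddCommGroup E] [NormedSpace ℝ E] [FiniteDimensional ℝ E]
  [MeasurableSpace E] [BorelSpace E]
  {HM : Type} [TopologicalSpace HM] {I : ModelWithCorners ℝ E HM}
  {M : Type} [TopologicalSpace M] [ChartedSpace HM M] [IsManifold I ∞ M] [MeasurableSpace M]
  {ι : Type} [Fintype ι] {F : Fr I M ι} {V : Type} [NormedAddCommGroup V] [InnerProductSpace ℝ V]
  {A : ι → M → V →L[ℝ] V} {η : ι × ι → M → V} {τ : ι → M → ℝ} {u : M → ℝ} {μ₀ l : ℝ} {x : M}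
  {o : ι → ι → ι → ι → ℝ}

variable (F τ u η) in
/-- the multiplier -/
def mlt (k : ι) (y : M) : ℝ := ⟪ic (τ · y) (η · y) k, ev2 (τ · y) (F.D · u y) (η · y)⟫_ℝ -
  F.D k u y * ((∑ j, ⟪ic (τ · y) (η · y) j, ic (τ · y) (η · y) j⟫_ℝ) / 2)

variable (h : CP F τ u μ₀ x) (sη : ∀ s, SA I (η s) x)
include h sη

theorem CP.sa_ic (k : ι) : SA I (fun y => ic (τ · y) (η · y) k) x :=
  SA.sum _ fun a _ => (h.sτ a).smul (sη _)

theorem CP.sa_ev : SA I (fun y => ev2 (τ · y) (F.D · u y) (η · y)) x :=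
  SA.sum _ fun k _ => ((frm F).sD k h.su).smul (h.sa_ic sη k)

theorem CP.sa_mlt (k : ι) : SA I (mlt F η τ u k) x :=
  ((h.sa_ic sη k).inner (h.sa_ev sη)).sub (((frm F).sD k h.su).mul
    ((SA.sum _ fun j _ => (h.sa_ic sη j).inner (h.sa_ic sη j)).div_const 2))

theorem CP.cov_ic (hη : SD (F.P · · x) o (η · x)) (j k : ι) :
    cov I F.e F.Gam A (fun k y => ic (τ · y) (η · y) k) j k x =
      ∑ a, τ a x • cov2 I F.e F.Gam A η j (a, k) x := by
  have := nab_pair (A := A) (lc_gam F) (frm F) h.sτ (θ := fun a => η (a, k)) (fun a => sη _) h.pτ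
    (fun a => hη.pr a k) j
  simp only [← F.D_def, h.par, sub_self, zero_smul, sum_const_zero, add_zero] at this
  simp only [cov, ic, this, cov2, smul_sub, sum_sub_distrib, smul_sum, smul_comm (τ _ x)]
  rw [sum_comm (f := fun m a => F.Gam j k m x • τ a x • η (a, m) x)]

/-- **the multiplier identity** -/
theorem CP.dvg_mlt (hR : Riem F) (sk : ∀ a, Skew (A a x)) (hv : Vol (F.P · · x) o)
    (hη : SD (F.P · · x) o (η · x)) (hl : ∀ a b, F.D a (F.D b u) x - ∑ k, F.Gam a b k x * F.D k u x =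
      l * (F.P a b x - τ a x * τ b x)) :
    dvg I F.e F.dv (mlt F η τ u) x = ⟪∑ k, ∑ a, τ a x • cov2 I F.e F.Gam A η k (a, k) x,
        ev2 (τ · x) (F.D · u x) (η · x)⟫_ℝ - l * (∑ j, ‖ic (τ · x) (η · x) j‖ ^ 2) / 2 +
      ∑ k, ∑ j, ⟪F.D j u x • ic (τ · x) (η · x) k - F.D k u x • ic (τ · x) (η · x) j,
        ∑ a, τ a x • cov2 I F.e F.Gam A η k (a, j) x⟫_ℝ := by
  have L := lc_gam F
  have fr := frm F
  have hg := hR.hg L x
  have sb := h.sa_ic sη
  have sX := fun k => fr.sD k h.su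
  have pX : ∀ a, ∑ b, F.P a b x * F.D b u x = F.D a u x := fun a => fr.projD a u x
  have pb := ic_P (v := (τ · x)) hη
  have sn := SA.sum univ fun j _ => (sb j).inner (sb j)
  have e1 : ∀ k, nab I F.e A k (fun y => ev2 (τ · y) (F.D · u y) (η · y)) x =
      ∑ j, F.D j u x • ∑ a, τ a x • cov2 I F.e F.Gam A η k (a, j) x + l • ic (τ · x) (η · x) k :=
    fun k => by
      have := nab_pair (A := A) L fr sX sb pX pb k
      have k0 : ∑ j, τ j x • ic (τ · x) (η · x) j = 0 := ev2_self hη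
      simp only [h.cov_ic sη hη, ← F.D_def, hl, mul_smul, sub_smul, ← smul_sum, sum_sub_distrib, pb,
        k0, smul_zero, sub_zero] at this
      exact this
  have e2 := fun k => dv_pair L fr k (sk k) sb sb pb pb
  have e3 := dv1_cov (A := A) (α := fun k y => ic (τ · y) (η · y) k) L fr hg pb
  have e4 : ∑ k, (F.D k (F.D k u) x + F.dv k x * F.D k u x) = 3 * l := by
    have k1 := L.div_sum fr hg (T := fun k => F.D k u x) pX
    have k2 := sum_congr rfl fun k (_ : k ∈ univ) => hl k k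
    simp only [sum_sub_distrib, ← mul_sum, hv.tr, ← sq, h.n1, smul_eq_mul] at k1 k2
    rw [sum_add_distrib]; linarith
  simp only [h.cov_ic sη hη, dv1] at e2 e3
  have e5 : ∀ k, dv I (F.e k) (mlt F η τ u k) x + F.dv k x * mlt F η τ u k x =
      ⟪nab I F.e A k (fun y => ic (τ · y) (η · y) k) x + F.dv k x • ic (τ · x) (η · x) k,
        ev2 (τ · x) (F.D · u x) (η · x)⟫_ℝ + l * ‖ic (τ · x) (η · x) k‖ ^ 2 -
      (F.D k (F.D k u) x + F.dv k x * F.D k u x) * ((∑ j, ‖ic (τ · x) (η · x) j‖ ^ 2) / 2) +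
      ∑ j, ⟪F.D j u x • ic (τ · x) (η · x) k - F.D k u x • ic (τ · x) (η · x) j,
        ∑ a, τ a x • cov2 I F.e F.Gam A η k (a, j) x⟫_ℝ := fun k => by
    have := dv_sub (e := F.e k) ((sb k).inner (h.sa_ev sη)).md ((sX k).mul (sn.div_const 2)).md
    erw [this]
    unfold mlt
    rw [dv_inner k (sk k) (sb k) (h.sa_ev sη), dv_mul (sX k) (sn.div_const 2), e1]
    simp only [div_eq_mul_inv]
    rw [dv_mul sn contMDiffAt_const, e2, inner_add_right, inner_sum]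
    simp only [dv_const, Pi.zero_apply, inner_add_left, inner_sub_left,
      real_inner_smul_left, real_inner_smul_right (ic _ _ _), sum_sub_distrib, ← mul_sum, real_inner_self_eq_norm_sq, F.D_def,
      real_inner_comm (ic _ _ _) (∑ a, τ a x • _)]
    ring
  simp only [dvg, e5, sum_add_distrib, sum_sub_distrib, ← sum_inner, ← sum_mul, ← mul_sum] at e3 e4 ⊢
  rw [e3, e4]
  ring

end mult

end Crest.Agent.X212.Dfl49
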