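import Crest.Agent.X212.Dfl49.Pc
import Crest.Agent.X212.G75.Dat

/-!
# Row 212, DFLAT (helper49), file 12: a circle times a convex cap.  Definitions and leaves.
-/

set_option autoImplicit false
set_option linter.unusedSectionVars false
noncomputable section
open Set Filter Topology
open scoped ContDiff Manifold InnerProductSpace

namespace Crest.Agent.X212.Dfl49
open An M Sob92 Wz78
open Rf65 (V3)

/-- the second fundamental form of a cap -/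
def sf {ι : Type} (P : ι → ι → ℝ) (τ X : ι → ℝ) (μ κ : ℝ) (a b : ι) : ℝ :=
  μ * (P a b - τ a * τ b) - κ * (X a * X b)

/-- the squared length of the normal `(2 w, -Fn')` -/
def nq2 (Fn : ℝ → ℝ) (t : ℝ) : ℝ := 4 * Fn t + deriv Fn t ^ 2

/-- the profile of a cap: concave, nondecreasing, equal to `1` above `h₁` -/
structure Pf (Fn : ℝ → ℝ) (h₁ : ℝ) : Prop where
  sm : ContDiff ℝ ∞ Fn
  mono : ∀ t, 0 ≤ deriv Fn t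
  conc : ∀ t, deriv (deriv Fn) t ≤ 0
  one : ∀ t, h₁ ≤ t → Fn t = 1
  pos : ∀ t, 0 ≤ t → 0 < nq2 Fn t

section
variable {E : Type} [NormedAddCommGroup E] [NormedSpace ℝ E] [FiniteDimensional ℝ E]
  [MeasurableSpace E] [BorelSpace E]
  {HM : Type} [TopologicalSpace HM] {I : ModelWithCorners ℝ E HM}
  {M : Type} [TopologicalSpace M] [ChartedSpace HM M] [IsManifold I ∞ M] [MeasurableSpace M]
  {ι : Type} [Fintype ι] (F : Fr I M ι)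

/-- a parallel unit form `τ`, a convex function `u`, the curvature of a convex hypersurface -/
structure CP (τ : ι → M → ℝ) (u : M → ℝ) (μ₀ : ℝ) (x : M) : Prop where
  sτ : ∀ a, SA I (τ a) x
  su : SA I u x
  pτ : ∀ a, ∑ b, F.P a b x * τ b x = τ a x
  n1 : ∑ a, τ a x ^ 2 = 1
  par : ∀ a b, F.D a (τ b) x = ∑ k, F.Gam a b k x * τ k x
  ort : ∑ a, τ a x * F.D a u x = 0
  le1 : ∑ a, F.D a u x ^ 2 ≤ 1
  ex : ∃ l μ κ : ℝ, 0 ≤ l ∧ 0 < l + ∑ a, F.D a u x ^ 2 ∧ μ₀ ≤ μ ∧ κ * ∑ a, F.D a u x ^ 2 ≤ μ ∧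
    (∀ a b, F.D a (F.D b u) x - ∑ k, F.Gam a b k x * F.D k u x = l * (F.P a b x - τ a x * τ b x)) ∧
    ∀ a b m n, Rm I F.e F.c F.Gam a b m n x =
      sf (F.P · · x) (τ · x) (F.D · u x) μ κ b m * sf (F.P · · x) (τ · x) (F.D · u x) μ κ a n -
        sf (F.P · · x) (τ · x) (F.D · u x) μ κ a m * sf (F.P · · x) (τ · x) (F.D · u x) μ κ b n

/-- `(θ, w, h)` is an isometric immersion onto `S¹ × {‖w‖² = Fn h} ⊆ ℂ × ℝ³ × ℝ` -/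
structure Rv (Fn : ℝ → ℝ) (θ : M → ℂ) (w : M → V3) (h : M → ℝ) (x : M) : Prop where
  sθ : SA I θ x
  sw : SA I w x
  sh : SA I h x
  nθ : ‖θ x‖ = 1
  nw : ‖w x‖ ^ 2 = Fn (h x)
  h0 : 0 ≤ h x
  g11 : ∀ v v' : ℂ, ∑ a, ⟪v, F.D a θ x⟫_ℝ * ⟪v', F.D a θ x⟫_ℝ =
    ⟪v, v'⟫_ℝ - ⟪v, θ x⟫_ℝ * ⟪v', θ x⟫_ℝ
  g12 : ∀ (v : ℂ) (v' : V3), ∑ a, ⟪v, F.D a θ x⟫_ℝ * ⟪v', F.D a w x⟫_ℝ = 0
  g13 : ∀ v : ℂ, ∑ a, ⟪v, F.D a θ x⟫_ℝ * F.D a h x = 0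
  g22 : ∀ v v' : V3, ∑ a, ⟪v, F.D a w x⟫_ℝ * ⟪v', F.D a w x⟫_ℝ =
    ⟪v, v'⟫_ℝ - 4 * (⟪v, w x⟫_ℝ * ⟪v', w x⟫_ℝ) / nq2 Fn (h x)
  g23 : ∀ v : V3, ∑ a, ⟪v, F.D a w x⟫_ℝ * F.D a h x = 2 * deriv Fn (h x) * ⟪v, w x⟫_ℝ / nq2 Fn (h x)
  g33 : ∑ a, F.D a h x * F.D a h x = 4 * Fn (h x) / nq2 Fn (h x)

/-- the lower bound of the principal curvature of the parallels -/
def mu0 (Fn : ℝ → ℝ) : ℝ := 2 / √(4 + deriv Fn 0 ^ 2)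

/-- **LEAF REV** -/
def RevStmt : Prop := ∀ Fn h₁ θ w h (S : Set M), Pf Fn h₁ → IsOpen S → (∀ x, ∑ a, F.P a a x = 4) →
  (∀ x ∈ S, Rv F Fn θ w h x) → ∃ τ u C, ∀ x ∈ S, CP F τ u (mu0 Fn) x ∧ 0 ≤ u x ∧ h x ≤ u x + C

end

section
open G75 Rf65
variable {κ lam : Type} [Fintype κ] [Fintype lam] [DecidableEq lam] (Lm : LM κ lam)

/-- **LEAF PSC**: base data which are a circle times a convex cap, with flat lines, inside a wall -/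
def PscStmt : Prop := ∀ (S : Scene Lm) (R : S.A) (i₀ : S.L) (β : S.Bs), S.OK → DS S i₀ R →
  ∃ β' : S.Bs, (∀ u, ∀ x ∈ (S.M.sys.w R).sd true,
      Met55.Co (Met55.atx (β'.B.r u) x) (Met55.atx (β.B.r u) x) ∧ ∀ i, (β'.b i).b u x = (β.b i).b u x) ∧
    ∃ Fn h₁, Pf Fn h₁ ∧ ∀ D : S.Dat, D.B = β'.B → D.b = β'.b → ∀ i, DS S i R → ∀ (m c : S.M.Cl) (p : Prm S.A),
      p ∈ S.M.Br c.1 → p ∈ S.M.O c.1 → p.2 R = 1 → Only S.M {a | p.2 a ≠ 0} R false →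
      ∃ θ w h C, (∀ z ∈ D.W.φ c '' (S.M.sys.w R).sd false,
        Rv ((D.Λ i).G m c p).F Fn θ w h z ∧ ∀ s, fL ((D.Λ i).B m c) ((D.Λ i).G m c p) z s = 0) ∧
        ∀ y, ∀ s ∈ Ioo (-1 : ℝ) 0, len 1 false s ≤ h (D.W.nj c R (y, s)) + C

end

end Crest.Agent.X212.Dfl49
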