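import Crest.Agent.X212.Rf65.Ps
import Crest.Agent.X212.Dfl49.Cpd

/-!
# Row 212, DFLAT (helper49), file 18: the parts of `Rf65.DfStmt`
-/

set_option autoImplicit false
set_option linter.unusedSectionVars false
noncomputable section
open Set Filter Topology Function

namespace Crest.Agent.X212.Dfl49
open An M G75 Rf65 Nd18
open An.Job (Sol)

variable {κ lam : Type} [Fintype κ] [Fintype lam] [DecidableEq lam] {Lm : LM κ lam}
  {S : Scene Lm} {D : S.Dat} {i : S.L} {Wi : Type} {r n : ℕ}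
  (J : Job Wi (D.Λ i) (S.A ⊕ Unit) S.ls r n) (c : S.M.Cl) (R : S.A) (j : ℕ) (n₀ : ℤ) (T : ℝ)

/-- faces with the one broken wall `R`, `S¹ × D³` inside -/
structure HD : Prop where
  ds : DS S i R
  jr : JR J R ∅ 0 0 j n₀ T
  c1 : c.1 = {R}
  pj : PJ J c

/-- tight solutions, flat and without spinor inside -/
structure FS (σ : Cel (S.A ⊕ Unit)) (q : Wi →₀ ℝ) (y : J.Obc c) : Prop where
  sol : Sol σ q y
  tight : y.Tight
  ntf : ¬y.TF (hp R false)
  fl : Fl y (hp R false)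

/-- **INJ**: equivalent outside ⇒ isomorphic -/
def InjD : Prop := ∀ σ ∈ J.𝒦, ∀ q y y', FS J c R σ q y → FS J c R σ q y' →
  EqP (pO J c (shX S {R}) σ R) y y' → Job.Iso y y'

/-- **SUR**: outer solutions are filled -/
def SurD : Prop := ∀ σ ∈ J.𝒦, ∀ q y, OS J c (shX S {R}) σ q R J.k y →
  ∃ y', FS J c R σ q y' ∧ EqP (pO J c (shX S {R}) σ R) y y'

variable (Lm)

/-- a property of all such faces -/
def AllD (P : ∀ {S : Scene Lm} {D : S.Dat} {i Wi r n} (J : Job Wi (D.Λ i) (S.A ⊕ Unit) S.ls r n)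
    (_ : S.M.Cl) (_ : S.A) (_ : ℤ), Prop) : Prop :=
  ∀ (S : Scene Lm) (D : S.Dat) i Wi r n (J : Job Wi (D.Λ i) (S.A ⊕ Unit) S.ls r n) c R j n₀ T,
    HD J c R j n₀ T → P J c R n₀

/-- **LEAF D-INJ** -/
def InjStmt : Prop := AllD Lm fun J c R _ => InjD J c R

/-- **LEAF D-SUR** -/
def SurStmt : Prop := AllD Lm fun J c R _ => SurD J c R

/-- **LEAF D-PAR** -/
def ParStmt : Prop := AllD Lm fun J c R n₀ => InjD J c R → SurD J c R →
  ∀ ε Adm, EpsAt J ε Adm → ParD J c Adm R n₀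

/-- **LEAF D-UQ** -/
def DuqStmt : Prop := AllD Lm fun {S} _ _ _ _ _ J c R n₀ => InjD J c R →
  ∀ ε Adm δ σ, EpsAt J ε Adm → H1R J c δ σ Adm R ∅ 0 0 n₀ →
    UqL J c δ (shX S {R}) σ Adm n₀ (fun _ _ => True) ∧ ∀ q y x, Adm q → Sol σ q y →
      FA J c σ n₀ y x → RegO J c δ (shX S {R}) σ q y x → x = R ∧ FS J c R σ q y

end Crest.Agent.X212.Dfl49
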