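import Crest.Agent.X212.Dfl49.Cpd
import Crest.Agent.X212.Rf65.Imm

/-!
# Row 212, DFLAT (helper49), file 16: the curvature of a circle times a surface of revolution
-/

set_option autoImplicit false
set_option linter.unusedSectionVars false
noncomputable section
open Filter Topology Finset
open scoped ContDiff Manifold InnerProductSpace

namespace Crest.Agent.X212.Dfl49
open An Sob92 Wz78 Map77
open Rf65 (V3 Imm sff dv_ip dv_ev_const)

/-- the ambient space -/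
abbrev V6 : Type := P2 ℂ (P2 V3 ℝ)

/-- its points -/
def v6 (a : ℂ) (b : V3) (c : ℝ) : V6 := i1 _ _ a + (i2 _ _ ∘L i1 _ _) b + (i2 _ _ ∘L i2 _ _) c

theorem ip6 (a a' : ℂ) (b b' : V3) (c c' : ℝ) :
    ⟪v6 a b c, v6 a' b' c'⟫_ℝ = ⟪a, a'⟫_ℝ + ⟪b, b'⟫_ℝ + c * c' := by
  simp [v6, inner2 (V := ℂ), inner2 (V := V3), add_assoc, mul_comm]

theorem v6_sur (v : V6) : ∃ a b c, v = v6 a b c :=
  ⟨f2 _ _ v, f2 _ _ (s2 _ _ v), s2 _ _ (s2 _ _ v), ext2 (by simp [v6]) (ext2 (by simp [v6])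
    (by simp [v6]))⟩

theorem rk6 : Module.finrank ℝ V6 = 6 := by
  rw [(WithLp.linearEquiv 2 ℝ _).finrank_eq, Module.finrank_prod, (WithLp.linearEquiv 2 ℝ _).finrank_eq]
  simp

theorem ip_cx {t : ℂ} (h : ‖t‖ = 1) (z z' : ℂ) :
    ⟪z, z'⟫_ℝ = ⟪t, z⟫_ℝ * ⟪t, z'⟫_ℝ + ⟪Complex.I * t, z⟫_ℝ * ⟪Complex.I * t, z'⟫_ℝ := by
  have : t.re * t.re + t.im * t.im = 1 := by rw [← Complex.normSq_apply, Complex.normSq_eq_norm_sq, h]; simp
  simp only [Complex.inner, Complex.mul_re, Complex.mul_im, Complex.conj_re, Complex.conj_im,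
    Complex.I_re, Complex.I_im]
  linear_combination -(z.re * z'.re + z.im * z'.im) * this

theorem ip_I (z z' : ℂ) : ⟪Complex.I * z, z'⟫_ℝ = -⟪z, Complex.I * z'⟫_ℝ := by
  simp [Complex.inner]; ring

theorem ip_II (z z' : ℂ) : ⟪Complex.I * z, Complex.I * z'⟫_ℝ = ⟪z, z'⟫_ℝ := by
  rw [ip_I, ← mul_assoc, Complex.I_mul_I, neg_one_mul, inner_neg_right, neg_neg]

theorem ip_I0 (z : ℂ) : ⟪Complex.I * z, z⟫_ℝ = 0 := by
  have := ip_I z z
  rw [real_inner_comm (Complex.I * z)] at this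
  linarith

/-- the convex function -/
def cU (Fn : ℝ → ℝ) (t : ℝ) : ℝ := ∫ s in (0 : ℝ)..t, √(nq2 Fn s) / 2

namespace Pf
variable {Fn : ℝ → ℝ} {h₁ t : ℝ} (p : Pf Fn h₁)
include p

theorem sd : ContDiff ℝ ∞ (deriv Fn) := (contDiff_infty_iff_deriv.1 p.sm).2

theorem sn : ContDiff ℝ ∞ (nq2 Fn) := (contDiff_const.mul p.sm).add (p.sd.pow 2)

theorem le1 (t : ℝ) : Fn t ≤ 1 := p.one _ (le_max_right t h₁) ▸
  monotone_of_deriv_nonneg (p.sm.differentiable (by simp)) p.mono (le_max_left _ _)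

theorem dU (t : ℝ) : HasDerivAt (cU Fn) (√(nq2 Fn t) / 2) t :=
  have c : Continuous fun s => √(nq2 Fn s) / 2 := p.sn.continuous.sqrt.div_const 2
  intervalIntegral.integral_hasDerivAt_right (c.intervalIntegrable _ _)
    (c.stronglyMeasurableAtFilter _ _) c.continuousAt

theorem sU (ht : 0 ≤ t) : ContDiffAt ℝ ∞ (cU Fn) t := by
  have o : IsOpen {t | 0 < nq2 Fn t} := isOpen_lt continuous_const p.sn.continuous
  refine ((contDiffOn_infty_iff_deriv_of_isOpen o).2 ⟨fun t _ =>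
    (p.dU t).differentiableAt.differentiableWithinAt, ?_⟩).contDiffAt (o.mem_nhds (p.pos t ht))
  rw [show deriv (cU Fn) = _ from funext fun t => (p.dU t).deriv]
  exact (p.sn.contDiffOn.sqrt fun t ht => ne_of_gt ht).div_const 2

theorem ddU (ht : 0 ≤ t) : HasDerivAt (fun s => √(nq2 Fn s) / 2)
    (deriv Fn t * (2 + deriv (deriv Fn) t) / (2 * √(nq2 Fn t))) t := by
  have := Real.sqrt_pos.2 (p.pos t ht)
  refine ((((((p.sm.differentiable (by simp)) t).hasDerivAt.const_mul 4).add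
    (((p.sd.differentiable (by simp)) t).hasDerivAt.pow 2)).sqrt (p.pos t ht).ne').div_const
    2).congr_deriv ?_
  change _ / (2 * √(nq2 Fn t)) / 2 = _
  field_simp; push_cast; ring

theorem U0 (ht : 0 ≤ t) : 0 ≤ cU Fn t :=
  intervalIntegral.integral_nonneg ht fun _ _ => by positivity

theorem Ule (ht : 0 ≤ t) : t ≤ cU Fn t + max h₁ 0 := by
  rcases le_total t (max h₁ 0) with k | k
  · linarith [p.U0 ht]
  have d := fun s => (p.dU s).sub (hasDerivAt_id s)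
  have := monotoneOn_of_deriv_nonneg (convex_Ici (max h₁ 0)) (f := fun s => cU Fn s - s)
    (fun s _ => (d s).continuousAt.continuousWithinAt)
    (fun s _ => (d s).differentiableAt.differentiableWithinAt) (fun s hs => by
      rw [show deriv (fun s => cU Fn s - s) s = _ from (d s).deriv, sub_nonneg, le_div_iff₀ two_pos]
      refine Real.le_sqrt_of_sq_le ?_
      rw [nq2, p.one s ((le_max_left _ _).trans (interior_subset hs))]
      nlinarith [sq_nonneg (deriv Fn s)]) Set.self_mem_Ici k k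
  have := p.U0 (le_max_right h₁ 0)
  simp only at *
  linarith

theorem mu_le (ht : 0 ≤ t) : mu0 Fn ≤ 2 / √(nq2 Fn t) := by
  have := antitone_of_deriv_nonpos (p.sd.differentiable (by simp)) p.conc ht
  refine div_le_div_of_nonneg_left zero_le_two (Real.sqrt_pos.2 (p.pos t ht)) (Real.sqrt_le_sqrt ?_)
  rw [nq2]
  nlinarith [p.le1 t, p.mono t]

end Pf

theorem mu0_pos (Fn : ℝ → ℝ) : 0 < mu0 Fn := by unfold mu0; positivity

variable {E : Type} [NormedAddCommGroup E] [NormedSpace ℝ E] [FiniteDimensional ℝ E]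
  [MeasurableSpace E] [BorelSpace E]
  {HM : Type} [TopologicalSpace HM] {I : ModelWithCorners ℝ E HM}
  {M : Type} [TopologicalSpace M] [ChartedSpace HM M] [IsManifold I ∞ M] [MeasurableSpace M]
  {ι : Type} [Fintype ι] {F : Fr I M ι} {Fn : ℝ → ℝ} {θ : M → ℂ} {w : M → V3} {h : M → ℝ} {x : M}
  {h₁ : ℝ}

theorem sa6 (a : SA I θ x) (b : SA I w x) (c : SA I h x) : SA I (fun y => v6 (θ y) (w y) (h y)) x :=
  ((a.clm _).add (b.clm _)).add (c.clm _)

theorem dv6 (a : SA I θ x) (b : SA I w x) (c : SA I h x) (k : ι) :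
    dv I (F.e k) (fun y => v6 (θ y) (w y) (h y)) x = v6 (F.D k θ x) (F.D k w x) (F.D k h x) := by
  refine (dv_add' ((a.clm _).add (b.clm _)) (c.clm _)).trans ?_
  refine congrArg₂ _ ((dv_add' (a.clm _) (b.clm _)).trans (congrArg₂ _ ?_ ?_)) ?_
  exacts [dv_clm _ a.md, dv_clm _ b.md, dv_clm _ c.md]

variable (θ w h) in
/-- the immersion -/
abbrev Th : M → V6 := fun y => v6 (θ y) (w y) (h y)

variable (θ) in
/-- the first normal -/
abbrev n1 : M → V6 := fun y => v6 (θ y) 0 0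

variable (Fn w h) in
/-- the second normal -/
abbrev n2 : M → V6 := fun y => v6 0 ((2 : ℝ) • w y) (-deriv Fn (h y))

variable (F θ) in
/-- the parallel form -/
abbrev tau (a : ι) (y : M) : ℝ := ⟪Complex.I * θ y, F.D a θ y⟫_ℝ

namespace Rv
variable (r : Rv F Fn θ w h x) (p : Pf Fn h₁)
include r

theorem sT : SA I (Th θ w h) x := sa6 r.sθ r.sw r.sh

theorem dT (a : ι) : dv I (F.e a) (Th θ w h) x = v6 (F.D a θ x) (F.D a w x) (F.D a h x) :=
  dv6 r.sθ r.sw r.sh a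

theorem sI : SA I (fun y => Complex.I * θ y) x := SA.mul contMDiffAt_const r.sθ

theorem n11 : ⟪n1 θ x, n1 θ x⟫_ℝ = 1 := by rw [ip6]; simp [r.nθ]

theorem n22 : ⟪n2 Fn w h x, n2 Fn w h x⟫_ℝ = nq2 Fn (h x) := by
  rw [ip6]; simp [norm_smul, mul_pow, r.nw, nq2]; ring

include p

theorem gram (v v' : V6) :
    ∑ a, ⟪v, dv I (F.e a) (Th θ w h) x⟫_ℝ * ⟪v', dv I (F.e a) (Th θ w h) x⟫_ℝ = ⟪v, v'⟫_ℝ -
      ⟪v, n1 θ x⟫_ℝ * ⟪v', n1 θ x⟫_ℝ - ⟪v, n2 Fn w h x⟫_ℝ * ⟪v', n2 Fn w h x⟫_ℝ / nq2 Fn (h x) := by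
  obtain ⟨a, b, c, rfl⟩ := v6_sur v
  obtain ⟨a', b', c', rfl⟩ := v6_sur v'
  have n := (p.pos _ r.h0).ne'
  have e : ∀ k, (⟪a, F.D k θ x⟫_ℝ + ⟪b, F.D k w x⟫_ℝ + c * F.D k h x) *
      (⟪a', F.D k θ x⟫_ℝ + ⟪b', F.D k w x⟫_ℝ + c' * F.D k h x) =
      ⟪a, F.D k θ x⟫_ℝ * ⟪a', F.D k θ x⟫_ℝ + ⟪a, F.D k θ x⟫_ℝ * ⟪b', F.D k w x⟫_ℝ +
      c' * (⟪a, F.D k θ x⟫_ℝ * F.D k h x) + ⟪a', F.D k θ x⟫_ℝ * ⟪b, F.D k w x⟫_ℝ +
      ⟪b, F.D k w x⟫_ℝ * ⟪b', F.D k w x⟫_ℝ + c' * (⟪b, F.D k w x⟫_ℝ * F.D k h x) +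
      c * (⟪a', F.D k θ x⟫_ℝ * F.D k h x) + c * (⟪b', F.D k w x⟫_ℝ * F.D k h x) +
      c * c' * (F.D k h x * F.D k h x) := fun k => by ring
  simp only [r.dT, ip6, e, sum_add_distrib, ← mul_sum, r.g11, r.g12, r.g13, r.g22, r.g23, r.g33,
    inner_zero_right, real_inner_smul_right]
  field_simp
  rw [nq2]; ring

theorem t1 (a : ι) : ⟪dv I (F.e a) (Th θ w h) x, n1 θ x⟫_ℝ = 0 := by
  have := r.gram p (n1 θ x) (n1 θ x)
  rw [r.n11, show ⟪n1 θ x, n2 Fn w h x⟫_ℝ = 0 by rw [ip6]; simp] at this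
  rw [real_inner_comm]
  exact mul_self_eq_zero.1 ((sum_eq_zero_iff_of_nonneg fun _ _ => mul_self_nonneg _).1
    (this.trans (by simp)) a (mem_univ a))

theorem t2 (a : ι) : ⟪dv I (F.e a) (Th θ w h) x, n2 Fn w h x⟫_ℝ = 0 := by
  have := r.gram p (n2 Fn w h x) (n2 Fn w h x)
  rw [r.n22, show ⟪n2 Fn w h x, n1 θ x⟫_ℝ = 0 by rw [ip6]; simp] at this
  rw [real_inner_comm]
  exact mul_self_eq_zero.1 ((sum_eq_zero_iff_of_nonneg fun _ _ => mul_self_nonneg _).1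
    (this.trans (by simp [(p.pos _ r.h0).ne'])) a (mem_univ a))

theorem iso (tr : ∑ a, F.P a a x = 4) (a b : ι) :
    ⟪dv I (F.e a) (Th θ w h) x, dv I (F.e b) (Th θ w h) x⟫_ℝ = F.P a b x := by
  have fr := frm F
  set G : ι → ι → ℝ := fun a b => ⟪dv I (F.e a) (Th θ w h) x, dv I (F.e b) (Th θ w h) x⟫_ℝ with hG
  have g1 : ∀ a b, ∑ k, G a k * G b k = G a b := fun a b => by
    simp only [hG, r.gram p, r.t1 p, r.t2 p]; simp
  have g2 : ∀ a b, ∑ k, F.P b k x * G a k = G a b := fun a b => by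
    simp only [hG, ← real_inner_smul_right, ← inner_sum, fr.projD]
  have g3 : ∑ a, G a a = 4 := by
    let b := stdOrthonormalBasis ℝ V6
    have k : ∀ v : V6, ∑ i, ⟪b i, v⟫_ℝ * ⟪b i, v⟫_ℝ = ⟪v, v⟫_ℝ := fun v => by
      rw [← b.sum_inner_mul_inner]; simp only [real_inner_comm v]
    simp only [hG, ← k (dv I _ _ x)]
    rw [sum_comm]
    simp only [r.gram p, sum_sub_distrib, ← sum_div, k, r.n11, r.n22, b.inner_eq_one]
    simp [rk6, (p.pos _ r.h0).ne']; norm_num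
  have g4 : ∑ a, ∑ k, (G a k - F.P a k x) ^ 2 = 0 := by
    have : ∀ a, ∑ k, (G a k - F.P a k x) ^ 2 = F.P a a x - G a a := fun a => by
      have e : ∀ k, (G a k - F.P a k x) ^ 2 =
          G a k * G a k - 2 * (F.P a k x * G a k) + F.P a k x * F.P k a x := fun k => by
        rw [(fr.pr x).symm k a]; ring
      simp only [e, sum_add_distrib, sum_sub_distrib, ← mul_sum, g1, g2, (fr.pr x).idem]; ring
    simp only [this, sum_sub_distrib, g3, tr, sub_self]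
  exact sub_eq_zero.1 (pow_eq_zero_iff two_ne_zero |>.1 ((sum_eq_zero_iff_of_nonneg
    fun k _ => sq_nonneg _).1 ((sum_eq_zero_iff_of_nonneg fun a _ => sum_nonneg fun k _ =>
      sq_nonneg _).1 g4 a (mem_univ a)) b (mem_univ b)))

theorem tθ (a : ι) : ⟪θ x, F.D a θ x⟫_ℝ = 0 := by
  have := r.t1 p a
  rwa [r.dT, ip6, inner_zero_right, mul_zero, add_zero, add_zero, real_inner_comm] at this

end Rv

theorem cp_of_rv (p : Pf Fn h₁) (tr : ∀ x, ∑ a, F.P a a x = 4) (e : ∀ᶠ y in 𝓝 x, Rv F Fn θ w h y) :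
    CP F (tau F θ) (fun y => cU Fn (h y)) (mu0 Fn) x := by
  have r := e.self_of_nhds
  have fr := frm F
  have L := lc_gam F
  have im : Imm I F.e F.P (Th θ w h) x := ⟨e.mono fun y k => k.sT, e.mono fun y k => k.iso p (tr y)⟩
  have n0 := p.pos _ r.h0
  have q0 := Real.sqrt_pos.2 n0
  have qq := Real.mul_self_sqrt n0.le
  have sF : SA I (fun y => -deriv Fn (h y)) x := (p.sd.contMDiff.contMDiffAt.comp x r.sh).neg
  have su : ∀ {y}, Rv F Fn θ w h y → SA I (fun y => cU Fn (h y)) y := fun k =>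
    (p.sU k.h0).contMDiffAt.comp _ k.sh
  have du : ∀ {y}, Rv F Fn θ w h y → ∀ a, F.D a (fun y => cU Fn (h y)) y =
      √(nq2 Fn (h y)) / 2 * F.D a h y := fun k a => by
    rw [Pre.D_def, dv_comp k.sh.md (p.dU _).hasFDerivAt]; simp [mul_comm, Pre.D_def]
  have tt : ∀ a b, ⟪F.D a θ x, F.D b θ x⟫_ℝ = tau F θ a x * tau F θ b x := fun a b => by
    rw [ip_cx r.nθ, r.tθ p, zero_mul, zero_add]
  have c : ∀ (a b) {N : M → V6} (f : M → ℝ), SA I N x →
      (∀ᶠ y in 𝓝 x, ⟪dv I (F.e b) (Th θ w h) y, N y⟫_ℝ = f y) →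
      F.D a f x = ⟪sff I F.e F.Gam (Th θ w h) a b x, N x⟫_ℝ + ∑ k, F.Gam a b k x *
        ⟪dv I (F.e k) (Th θ w h) x, N x⟫_ℝ + ⟪dv I (F.e b) (Th θ w h) x, dv I (F.e a) N x⟫_ℝ :=
    fun a b N f s k => by
      rw [Pre.D_def, ← dv_congr k, dv_ip _ (fr.sD b r.sT) s]
      simp only [sff, inner_sub_left, sum_inner, real_inner_smul_left, conj_trivial, sub_add_cancel]
  have z : ∀ {V : Type} [NormedAddCommGroup V] [NormedSpace ℝ V] (a) (v : V),
      F.D a (fun _ => v) x = 0 := fun a v => congrFun (dv_const v) x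
  have A : ∀ a b, ⟪sff I F.e F.Gam (Th θ w h) a b x, n1 θ x⟫_ℝ = -(tau F θ a x * tau F θ b x) :=
    fun a b => by
      have := c a b _ (sa6 r.sθ contMDiffAt_const contMDiffAt_const) (e.mono fun y k => k.t1 p b)
      rw [dv6 r.sθ contMDiffAt_const contMDiffAt_const, r.dT b, ip6, tt] at this
      simp only [r.t1 p, z, mul_zero, sum_const_zero, inner_zero_right] at this
      linarith
  have B : ∀ a b, ⟪sff I F.e F.Gam (Th θ w h) a b x, n2 Fn w h x⟫_ℝ = -(2 * (F.P a b x -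
      tau F θ a x * tau F θ b x) - (2 + deriv (deriv Fn) (h x)) * (F.D a h x * F.D b h x)) :=
    fun a b => by
      have s2 : SA I (fun y => (2 : ℝ) • w y) x := SA.smul contMDiffAt_const r.sw
      have := c a b _ (sa6 contMDiffAt_const s2 sF) (e.mono fun y k => k.t2 p b)
      have i := r.iso p (tr x) a b
      have k1 : F.D a (fun y => (2 : ℝ) • w y) x = (2 : ℝ) • F.D a w x := dv_const_smul 2 r.sw.md
      have k2 : F.D a (fun y => -deriv Fn (h y)) x = F.D a h x * -deriv (deriv Fn) (h x) :=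
        dv_comp r.sh.md (p.sd.differentiable (by simp) _).hasDerivAt.neg.hasFDerivAt
      rw [dv6 contMDiffAt_const s2 sF, r.dT b, ip6, k1, k2] at this
      rw [r.dT, r.dT, ip6, tt, real_inner_comm] at i
      simp only [r.t2 p, z, mul_zero, sum_const_zero, inner_zero_right, real_inner_smul_right] at this
      linear_combination -this - 2 * i
  have S : ∀ a b v, ⟪sff I F.e F.Gam (Th θ w h) a b x, v⟫_ℝ = _ := fun a b v => by
    have := r.gram p (sff I F.e F.Gam (Th θ w h) a b x) v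
    simp only [im.perp L fr, zero_mul, sum_const_zero, A, B] at this
    exact (sub_eq_iff_eq_add'.1 (sub_eq_zero.1 this.symm))
  have X2 : ∑ a, F.D a (fun y => cU Fn (h y)) x ^ 2 = Fn (h x) := by
    simp only [du r, mul_pow, ← mul_sum]
    simp only [sq (F.D _ h x), r.g33, div_pow, Real.sq_sqrt n0.le]
    field_simp; norm_num
  have F0 : 0 ≤ Fn (h x) := r.nw ▸ sq_nonneg _
  refine ⟨fun a => r.sI.inner (fr.sD a r.sθ), su r, fun a => ?_, ?_, fun a b => ?_, ?_,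
    X2 ▸ p.le1 _, deriv Fn (h x) / √(nq2 Fn (h x)), 2 / √(nq2 Fn (h x)),
    4 * (2 + deriv (deriv Fn) (h x)) / (nq2 Fn (h x) * √(nq2 Fn (h x))),
    div_nonneg (p.mono _) q0.le, ?_, p.mu_le r.h0, ?_, fun a b => ?_, fun a b m n => ?_⟩
  · simp only [tau, ← real_inner_smul_right, ← inner_sum, Pre.D_def, fr.projD]
  · simp only [sq, r.g11, ip_I0, ip_II]; simp [r.nθ]
  · have e1 : ∀ {y}, Rv F Fn θ w h y → ∀ b, ⟪dv I (F.e b) (Th θ w h) y, v6 (Complex.I * θ y) 0 0⟫_ℝ =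
        tau F θ b y := fun k b => by
      rw [k.dT, ip6, inner_zero_right, mul_zero, add_zero, add_zero, real_inner_comm]
    have k1 : F.D a (fun y => Complex.I * θ y) x = Complex.I * F.D a θ x :=
      dv_clm (ContinuousLinearMap.mul ℝ ℂ Complex.I) r.sθ.md
    rw [c a b _ (sa6 r.sI contMDiffAt_const contMDiffAt_const) (e.mono fun y k => e1 k b), S,
      dv6 r.sI contMDiffAt_const contMDiffAt_const, r.dT b, ip6, ip6, ip6, k1, ip_cx r.nθ (F.D b θ x)]
    simp only [e1 r, z, r.tθ p, ip_I0, ip_II, inner_zero_left, inner_zero_right, mul_zero, zero_mul,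
      add_zero, zero_add, zero_div]
  · have := r.g13 (Complex.I * θ x)
    simp only [du r, mul_left_comm _ (√(nq2 Fn (h x)) / 2), ← mul_sum, this, mul_zero]
  · rw [X2]
    refine (add_nonneg (div_nonneg (p.mono _) q0.le) F0).lt_of_ne' fun k => n0.ne' ?_
    obtain ⟨k1, k2⟩ := (add_eq_zero_iff_of_nonneg (div_nonneg (p.mono _) q0.le) F0).1 k
    rw [nq2, k2, (div_eq_zero_iff.1 k1).resolve_right q0.ne']; simp
  · rw [X2, div_mul_eq_mul_div, div_le_div_iff₀ (by positivity) q0]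
    have : 2 * (2 + deriv (deriv Fn) (h x)) * Fn (h x) ≤ nq2 Fn (h x) := by
      rw [nq2]; nlinarith [mul_nonneg F0 (neg_nonneg.2 (p.conc (h x))), sq_nonneg (deriv Fn (h x))]
    nlinarith [mul_le_mul_of_nonneg_right this q0.le]
  · have e1 : ∀ {y}, Rv F Fn θ w h y → ∀ b, ⟪dv I (F.e b) (Th θ w h) y, v6 0 0 1⟫_ℝ = F.D b h y :=
      fun k b => by rw [k.dT, ip6]; simp
    have s1 : SA I (fun y => √(nq2 Fn (h y)) / 2) x :=
      ((p.sn.contDiffAt.sqrt n0.ne').div_const 2).contMDiffAt.comp x r.sh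
    have k1 : F.D a (F.D b fun y => cU Fn (h y)) x = F.D a (fun y => √(nq2 Fn (h y)) / 2) x *
        F.D b h x + √(nq2 Fn (h x)) / 2 * F.D a (F.D b h) x :=
      (dv_congr (e.mono fun y k => du k b)).trans (dv_mul s1 (fr.sD b r.sh))
    have k2 : F.D a (fun y => √(nq2 Fn (h y)) / 2) x = F.D a h x * _ :=
      dv_comp r.sh.md (p.ddU r.h0).hasFDerivAt
    rw [k1, k2, c a b _ contMDiffAt_const (e.mono fun y k => e1 k b), S, ip6, ip6, dv_const]
    simp only [e1 r, du r, mul_left_comm _ (√(nq2 Fn (h x)) / 2), ← mul_sum, inner_zero_left,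
      inner_zero_right, Pi.zero_apply]
    generalize √(nq2 Fn (h x)) = q at *
    rw [← qq]
    field_simp
    ring
  · rw [im.gauss L fr, S b m, S a m, A, A, B, B]
    simp only [sf, du r]
    generalize √(nq2 Fn (h x)) = q at *
    rw [← qq]
    field_simp
    ring

/-- **REV** -/
theorem rev (F : Fr I M ι) : RevStmt F := fun _ _ _ _ _ _ p o tr r =>
  ⟨_, _, _, fun x hx => ⟨cp_of_rv p tr ((o.eventually_mem hx).mono r), p.U0 (r x hx).h0,
    p.Ule (r x hx).h0⟩⟩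

end Crest.Agent.X212.Dfl49
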