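import Crest.Agent.X212.Dfl49.Wk
import Crest.Agent.X212.Dfl49.Rev
import Crest.Agent.X212.Rf65.Pl
import Crest.Agent.X212.Nk89.Dic

/-!
# Row 212, DFLAT (helper49), file 17: the index of a flat connection on `S¹ × D³` vanishes
-/

set_option autoImplicit false
set_option linter.unusedSectionVars false
noncomputable section
open Set Filter Topology MeasureTheory Function
open scoped ContDiff Manifold InnerProductSpace

namespace Crest.Agent.X212.Dfl49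
open An Sob92 Wz78 Nd18 Map77 Nk89 Mod61 Cht98

section fam
variable {E : Type} [NormedAddCommGroup E] [NormedSpace ℝ E] [FiniteDimensional ℝ E]
  [MeasurableSpace E] [BorelSpace E]
  {HM : Type} [TopologicalSpace HM] {I : ModelWithCorners ℝ E HM} [I.Boundaryless]
  {M : Type} [TopologicalSpace M] [ChartedSpace HM M] [IsManifold I ∞ M] [MeasurableSpace M]
  [T2Space M] [BorelSpace M] [SecondCountableTopology M] {κ lam : Type} [Fintype κ] [Fintype lam]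
  {T : Type} [NormedAddCommGroup T] [NormedSpace ℝ T] [Subsingleton T]
  {𝔉 : Fam I M (Option κ) lam T} (h : 𝔉.OK) {o : Ref 𝔉} {y : Pnt o 0} {d : ℤ}
include h

theorem fr_full {k : ℕ} (hk : 6 ≤ k) (H : Idx k (𝔉.eq0 0 0 0) y d) :
    Fred93.Fr (((bd o).full (Fs 𝔉 y.t) (uy y)).H (Fs 𝔉 y.t) k) d := by
  obtain ⟨f, hf, H⟩ := H
  have a := adj_rem h
  have Hy := a.hy o y.ht
  have c := cb_uy h y
  have v := fun z : Pnt o 0 => a.val_f0 (n := 0) (m := 0) hk z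
  have b : ∀ z : Pnt o 0, bs z = bs y := fun z => by
    simp only [bs, Subsingleton.elim z.z y.z, Subsingleton.elim z.t y.t]
  have e := eqOn_U h (by omega) hf.1.continuousOn (a.sm_f0.continuousOn.add (continuousOn_const
    (c := f (y.pt k) - f0 o (Fs 𝔉) 0 0 0 k (y.pt k)))) fun z => Y_ext h (by omega) (by
      rw [Pi.add_apply, Prod.fst_add, Prod.fst_sub, val_add, val_sub, (v z).1, (v y).1, (hf.2 z).D, (hf.2 y).D, b]
      change eD 0 0 z = _ + (eD 0 0 y - _)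
      abel) (by
      rw [Pi.add_apply, Prod.snd_add, Prod.snd_sub, Prod.fst_add, Prod.fst_sub, val_add, val_sub,
        (v z).2.1, (v y).2.1, (hf.2 z).C, (hf.2 y).C, b]
      change eC 0 0 z = _ + (eC 0 0 y - _)
      abel) (Subsingleton.elim _ _)
  have e1 : fderiv ℝ f (y.pt k) = fderiv ℝ (f0 o (Fs 𝔉) 0 0 0 k) (y.pt k) :=
    (e.eventuallyEq_of_mem ((Map77.isOpen_U h).mem_nhds (pt_mem y))).fderiv_eq.trans
      (fderiv_add_const _)
  refine (((lop_iff h y).1 H).conj (Prm93.chg _ _ Hy.cmp).symm (Prm93.chg _ _ Hy.cmp)).congr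
    fun x => ?_
  obtain ⟨x, rfl⟩ := (Prm93.chg _ _ Hy.cmp).surjective x
  refine (Hy.toTw.chg_LH (Hy.nc_full c) x).symm.trans ?_
  simp only [ContinuousLinearMap.comp_apply, ContinuousLinearEquiv.coe_coe, TG, _root_.add_apply,
    ContinuousLinearEquiv.symm_apply_apply, e1, a.fderiv_f0 hk, sY_jY]
  exact congrArg _ (Hy.FF_eq c x)

omit [Subsingleton T] in
theorem rep_flat {c : Cfg M (Option κ) lam 0} (a : Adm0 c 𝔉.B (𝔉.G y.t)) (r : Rep c y)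
    (h0 : c.Φ = 0) (fl : ∀ x ∈ 𝔉.Om, c.m.Fg (𝔉.G y.t).F c.W x = 0) :
    uy y = base y.cfg.W 0 ∧ ∀ x ∈ 𝔉.Om, o.m.Fg (𝔉.G y.t).F y.cfg.W x = 0 := by
  obtain ⟨u, ζ, e⟩ := r
  refine ⟨congrArg _ (funext fun x => ?_), fun x hx => ?_⟩
  · by_cases hx : x ∈ 𝔉.Om'
    · exact (e.Φ x (h.sub hx)).trans (by simp [h0, cs_zero])
    · rw [← Pp_Φ h y x, Ref.Pp, indicator_of_notMem hx]; rfl
  · exact (((Eqv71.lg_refl h.B (h.G _ y.ht) h.Om.2).of_ceq (Eqv71.ad0_of a) (y.ad0 h) e).Fg hx).trans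
      (by rw [fl x hx]; exact map_zero _)

variable {E3 : Type} [NormedAddCommGroup E3] [NormedSpace ℝ E3] [FiniteDimensional ℝ E3]
  [MeasurableSpace E3] [BorelSpace E3]
  {H3 : Type} [TopologicalSpace H3] {I3 : ModelWithCorners ℝ E3 H3} [I3.Boundaryless]
  {Y : Type} [TopologicalSpace Y] [ChartedSpace H3 Y] [IsManifold I3 ∞ Y] [T2Space Y]
  [MeasurableSpace Y] [BorelSpace Y] [SecondCountableTopology Y] [CompactSpace Y]
  {D : YD I3 Y κ lam} {K : Nk D 𝔉.B (𝔉.G y.t)} {σ R δ μ₀ c₀ : ℝ} {ψ u : M → ℝ}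
  {τ : Option κ → M → ℝ}

theorem idx_fam {c : Cfg M (Option κ) lam 0} (a : Adm0 c 𝔉.B (𝔉.G y.t)) (r : Rep c y)
    (h0 : c.Φ = 0) (fl : ∀ x ∈ 𝔉.Om, c.m.Fg (𝔉.G y.t).F c.W x = 0) (one : One K σ R 𝔉.Om)
    (w : Wt (𝔉.G y.t).F 𝔉.F0 ψ) (hD : ∀ a, (𝔉.G y.t).F.Cb ((𝔉.G y.t).F.D a ψ)) (d0 : 0 < δ)
    (hψ : ∀ x, R < σ * K.tm x → ψ x = δ * (σ * K.tm x)) (hs : Sur (K.tm ⁻¹' Te σ R) 𝔉.Om)
    (hc : ∀ x ∈ 𝔉.Om, CP (𝔉.G y.t).F τ u μ₀ x) (f0 : ∀ x ∈ 𝔉.Om, ∀ s, fL 𝔉.B (𝔉.G y.t) x s = 0)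
    (h8 : 8 * δ ≤ μ₀) (co : IsPreconnected 𝔉.Om) (ne : ∀ R, ∃ x, R < σ * K.tm x)
    (le : ∀ x ∈ 𝔉.Om, ψ x ≤ δ * u x + c₀) (H : Idx 8 (𝔉.eq0 0 0 0) y d) : d = 0 := by
  obtain ⟨e, f⟩ := rep_flat h a r h0 fl
  have Hy := (adj_rem h).hy o y.ht
  have k : Fw K σ R δ 𝔉.Om 𝔉.Om' (m := o.m) y.cfg.W (Fs 𝔉 y.t) ψ :=
    ⟨one, h.B, h.G _ y.ht, o.ok, (y.ad0 h).conn, f, wt_rem w, h.Om', h.sub, d0, hψ⟩
  obtain ⟨C, t1, t2⟩ := Hy.toTw.good (Hy.nc_full (cb_uy h y))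
  have H' := fr_full h (by norm_num) H
  rw [e] at t2 H'
  exact idx_wd k.w hD (h.tameG _ y.ht).choose_spec t1 t2 (Hy.toOK.cliff_full Hy.P _) H'
    (k.ker (k.pos hc f0 h8) hs) (k.cok hc f0 h8 co ne le)

end fam

open M G75 Rf65
variable {κ lam : Type} [Fintype κ] [Fintype lam] [DecidableEq lam] {Lm : LM κ lam}
  {S : Scene Lm} {i : S.L} {R : S.A}

theorem only_of (d : DS S i R) {σ τ : Finset S.A} (h : σ ∈ S.K i) (hR : R ∈ σ) (s : τ ⊆ σ) {T : ℝ}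
    {t : S.A → ℝ} (p : S.Pt τ T t) : Only S.M {a | t a ≠ 0} R false := fun a ha => by
  obtain ⟨_, _, _, _, _, d⟩ := d
  by_cases k : a ∈ S.fz
  exacts [.inr (d.fz a k), d.out σ h hR a (s (by_contra fun e => ha (p.2.2 a e k)))]

variable {Wi : Type} {W : World S.M} {Λ : Lns W (S.N i)} {A' h : Type} [Fintype A'] [DecidableEq A']
  [Fintype h] {r n : ℕ} {J : Job Wi Λ A' h r n} {c : S.M.Cl} {δ : ℝ} {y : J.Obc c} {π : Reg S.A}

theorem ix_zero (hJ : J.OK) (d : DS S i R) (hR : R ∈ c.1) (hπ : S.M.sys.Piece c.1 π)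
    (e : π R = some false) (o : Only S.M c.1 R false) (d0 : 0 < δ) (d1 : δ ≤ dl0) (g : Go δ y {π})
    (fl : Fl y π) {Fn h₁ θ w f C} (p : Pf Fn h₁) (d8 : 8 * δ ≤ mu0 Fn)
    (rv : ∀ z ∈ W.φ c '' (S.M.sys.w R).sd false,
      Rv (J.G c y.s).F Fn θ w f z ∧ ∀ s, fL (J.B c) (J.G c y.s) z s = 0)
    (le : ∀ y, ∀ s ∈ Ioo (-1 : ℝ) 0, len 1 false s ≤ f (W.nj c R (y, s)) + C)
    {P' : Set (Reg S.A)} (s : P' ⊆ {π}) {k : ℤ} (H : Ix δ y {π} P' k) : k = 0 := by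
  obtain ⟨⟨_, br, O⟩, q, _, x, rfl, -, -, -, rp, H⟩ := H
  obtain ⟨θ', ϖ, Ξ, ρ, r', d⟩ := d
  have p1 : ∀ ρ ∈ ({π} : Set _), S.M.sys.Piece c.1 ρ := fun _ k => k ▸ hπ
  have u : W.un c {π} = W.φ c '' (S.M.sys.w R).sd false :=
    (biUnion_singleton _ _).trans (o.pc d.np _ hπ e)
  have N := endIn_J (T := T0) (θ := fun _ => y.s) hJ br O contDiff_const (An.Job.isClopen_un p1)
    (An.Job.isClopen_un fun ρ k => p1 ρ (s k)) (biUnion_subset_biUnion_left s)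
  have ha : Act J.m c R (some false) (J.Θ y.s) := ⟨d.np, br, O, hR⟩
  have hK := hJ.nk c R _ _ ha
  have one := one_W ha hK o (T := 5) (by norm_num)
  have su := (sur_W d o ha hK (T := 5) (by norm_num)).1
  have co := (d.sd ▸ (isPreconnected_univ.prod (convex_ball _ _).isPreconnected).image _
    (Ξ.toOpenPartialHomeomorph.continuousOn.mono (dd_src d)) : IsPreconnected
      ((S.M.sys.w R).sd false)).image _ ((W.φ c).contMDiffOn.continuousOn.mono (o.src W.toCaps))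
  rw [← u] at one su co rv
  obtain ⟨τ, v, C', hc⟩ := rev _ Fn h₁ θ w f _ p one.op
    (fun z => by rw [(Λ.G_ok J.m O).P]; exact (Λ.B_ok J.m c).rk z) fun z hz => (rv z hz).1
  have hψ : ∀ z, 5 < -pm false * (J.K c R _ _ ha).tm z → _ = δ * (-pm false * (J.K c R _ _ ha).tm z) :=
    fun z hz => (wψ_eq N.st N.dis (a := (⟨R, hR, d.np⟩, false)) (R := 5) (by norm_num)
      (((N.st _).mem_U (by norm_num)).2 (by rwa [wEnd_sg]))).trans (by rw [wEnd_sg])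
  obtain ⟨c₀, hc₀⟩ := (one.cpt 5).bddAbove_image (sm_wψ (jEnd (W.un c {π}) (W.un c P')
    (fun _ : T0 => y.s) br O) δ).continuous.continuousOn
  refine idx_fam (N.ends d0 d1).ok g.adm rp rfl (fun z hz => fl z ((biUnion_singleton _ _).le hz))
    one (N.ends d0 d1).wt (N.ends d0 d1).dψ d0 hψ su (fun z hz => (hc z hz).1)
    (fun z hz => (rv z hz).2) d8 co (fun t => ?_) (c₀ := max c₀ (δ * (C' + C))) (fun z hz => ?_) H
  · obtain ⟨z, -⟩ := d.pr.surj 1 (EuclideanSpace.single 0 1) (by simp)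
    have := (nk_end ha hK (te_sub ha hK (le_max_right t 0))).ge
      ⟨(z, _), ⟨trivial, max t 0 + 1, by simp [pm], rfl⟩, rfl⟩
    exact ⟨_, (le_max_left _ _).trans_lt this⟩
  · rcases le_or_gt (-pm false * (J.K c R _ _ ha).tm z) 5 with k | k
    · exact (hc₀ ⟨z, ⟨hz, k⟩, rfl⟩).trans ((le_max_left _ _).trans
        (le_add_of_nonneg_left (mul_nonneg d0.le (hc z hz).2.1)))
    · obtain ⟨⟨z', _⟩, ⟨-, t, ht, rfl⟩, rfl⟩ := (nk_end ha hK one.J).le k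
      have h1 : (J.Θ y.s).2 R = 1 := br.2 hR
      have m := li_mem le_rfl (nk_J ha hK ▸ one.J ht)
      have := le z' (li 1 false t) (by simpa [h1] using (act_Hs ha).1 (h1 ▸ m))
      refine (hψ _ k).trans_le ?_
      rw [isNk_tm_nj ha hK (h1 ▸ m), h1]
      have := mul_le_mul_of_nonneg_left (this.trans (add_le_add_left (hc _ hz).2.2 _)) d0.le
      simp only [pm, Bool.false_eq_true, if_false, Option.getD_some]
      linarith [le_max_right c₀ (δ * (C' + C))]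

variable (R) in
/-- flat connections inside the wall `R` have index `0` for the decay `δ ≤ δ₀` -/
def DixAt (D : S.Dat) (δ₀ : ℝ) : Prop := ∀ i Wi (A' h : Type) [Fintype A'] [DecidableEq A'] [Fintype h]
  r n (J : Job Wi (D.Λ i) A' h r n) (c : S.M.Cl) δ (y : J.Obc c) π, J.OK → DS S i R → R ∈ c.1 →
  S.M.sys.Piece c.1 π → π R = some false → Only S.M {a | (J.Θ y.s).2 a ≠ 0} R false →
  δ ∈ Ioc 0 δ₀ → SplAt J c δ → Go δ y {π} → Fl y π → ia δ y π = 0 ∧ idr δ y π = 0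

variable (Lm) in
/-- **DIX** -/
def DixStmt : Prop := ∀ (S : Scene Lm) (R : S.A) (i₀ : S.L) (β : S.Bs), S.OK → DS S i₀ R →
  ∃ β' : S.Bs, (∀ u, ∀ x ∈ (S.M.sys.w R).sd true,
      Met55.Co (Met55.atx (β'.B.r u) x) (Met55.atx (β.B.r u) x) ∧ ∀ i, (β'.b i).b u x = (β.b i).b u x) ∧
    ∃ δ₀ > 0, ∀ D : S.Dat, D.B = β'.B → D.b = β'.b → DixAt R D δ₀

theorem dix (H : PscStmt Lm) : DixStmt Lm := fun S R i₀ β hS d => by
  obtain ⟨β', h1, Fn, h₁, p, h2⟩ := H S R i₀ β hS d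
  refine ⟨β', h1, min dl0 (mu0 Fn / 8), lt_min dl0_pos (by linarith [mu0_pos Fn]),
    fun D e1 e2 i Wi A' h _ _ _ r n J c δ y π hJ d hR hπ e o hδ sp g fl => ?_⟩
  obtain ⟨θ, w, f, C, k1, k2⟩ := h2 D e1 e2 i d J.m c _ g.br g.O (g.br.2 hR) o
  have z : ∀ P' ⊆ {π}, ix δ y {π} P' = 0 := fun P' s => ix_zero hJ d hR hπ e
    (o.mono fun a ha k => one_ne_zero ((g.br.2 ha).symm.trans k)) hδ.1 (hδ.2.trans (min_le_left _ _))
    g fl p (by linarith [hδ.2.trans (min_le_right _ _)]) k1 k2 s (sp.ex y _ _ (fun _ k => k ▸ hπ) s g)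
  have z1 := z ∅ (empty_subset _)
  have z2 := z _ Subset.rfl
  simp only [ix, finsum_mem_singleton, finsum_mem_empty, add_zero] at z1 z2
  exact ⟨z1, by rwa [z1, zero_add] at z2⟩

end Crest.Agent.X212.Dfl49
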