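import Crest.Agent.X212.Rdc90.Pd

/-!
# Row 212, DFLAT (helper49), file 1: flat connections on a vector space have parallel sections
-/

set_option autoImplicit false
set_option linter.unusedSectionVars false
noncomputable section
open Set Function Filter Topology
open scoped ContDiff

namespace Crest.Agent.X212.Dfl49

variable {E V : Type} [NormedAddCommGroup E] [NormedSpace ℝ E]
  [NormedAddCommGroup V] [NormedSpace ℝ V] [CompleteSpace V]

/-- the curvature of a connection form -/
def Rc (B : E → E →L[ℝ] V →L[ℝ] V) (z h k : E) : V →L[ℝ] V :=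
  fderiv ℝ B z h k - fderiv ℝ B z k h + (B z h * B z k - B z k * B z h)

/-- the covariant derivative of an endomorphism field -/
def Nc (B : E → E →L[ℝ] V →L[ℝ] V) (Q : E → V →L[ℝ] V) (z h : E) : V →L[ℝ] V :=
  fderiv ℝ Q z h + (B z h * Q z - Q z * B z h)

/-- **Frobenius** -/
theorem frob {B : E → E →L[ℝ] V →L[ℝ] V} {Q : E → V →L[ℝ] V} (hB : ContDiff ℝ ∞ B)
    (hQ : ContDiff ℝ ∞ Q) (hN : ∀ z h, Nc B Q z h * Q z = 0) (hR : ∀ z h k, Rc B z h k * Q z = 0)
    (z₀ : E) {v : V} (hv : Q z₀ v = v) :
    ∃ s : E → V, ContDiff ℝ ∞ s ∧ s z₀ = v ∧ (∀ z, Q z (s z) = s z) ∧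
      ∀ z h, fderiv ℝ s z h + B z h (s z) = 0 := by
  let μ : E × ℝ → E := fun p => z₀ + p.2 • (p.1 - z₀)
  have sμ : ContDiff ℝ ∞ μ := by fun_prop
  let C : E × ℝ → V →L[ℝ] V := fun p => -(B (μ p) (p.1 - z₀))
  have sC : ContDiff ℝ ∞ C := ((hB.comp sμ).clm_apply (by fun_prop)).neg
  obtain ⟨σ, h1, h2, h3⟩ := Rdc90.exists_ode C sC v
  have dB := fun z => (hB.differentiable (by simp) z).hasFDerivAt
  have dQ := fun z => (hQ.differentiable (by simp) z).hasFDerivAt
  have dσ := fun p => (h1.differentiable (by simp) p).hasFDerivAt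
  have dμ : ∀ x r, HasDerivAt (fun r => μ (x, r)) (x - z₀) r := fun x r => by
    have := ((hasDerivAt_id r).smul_const (x - z₀)).const_add z₀
    rw [one_smul] at this
    exact this
  have cμ : ∀ x, Continuous fun r : ℝ => μ (x, r) := fun x => by fun_prop
  have q1 : ∀ x r, Q (μ (x, r)) (σ (x, r)) = σ (x, r) := fun x r => by
    have := Rdc90.ode_unique (B := fun r => C (x, r) - Nc B Q (μ (x, r)) (x - z₀))
      (f := fun r => σ (x, r) - Q (μ (x, r)) (σ (x, r))) (g := fun _ => 0) (a := 0)
      (by
        have c1 := (hQ.continuous_fderiv (by simp)).comp (cμ x)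
        have c2 := hB.continuous.comp (cμ x)
        have c3 := hQ.continuous.comp (cμ x)
        exact (sC.continuous.comp (by fun_prop)).sub ((c1.clm_apply continuous_const).add
          (((c2.clm_apply continuous_const).mul c3).sub (c3.mul (c2.clm_apply continuous_const)))))
      (fun s => by
        have k := (h3 x s).sub (((dQ _).comp_hasDerivAt s (dμ x s)).clm_apply (h3 x s))
        have k2 := congrArg (fun T : V →L[ℝ] V => T (σ (x, s))) (hN (μ (x, s)) (x - z₀))
        refine HasDerivAt.congr_deriv k ?_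
        simp only [mul_apply_eq_comp, zero_apply] at k2
        simp only [C, comp_apply]
        generalize x - z₀ = w at k2 ⊢
        simp only [sub_apply, map_sub, k2]
        simp only [Nc, add_apply, sub_apply, neg_apply, mul_apply_eq_comp, map_neg]
        abel)
      (fun s => by simpa using hasDerivAt_const s (0 : V)) (by simp [μ, h2, hv]) r
    exact (sub_eq_zero.1 this).symm
  have e1 : ∀ p, fderiv ℝ σ p (0, 1) = C p (σ p) := fun p => by
    have k : HasDerivAt (fun r : ℝ => ((p.1, r) : E × ℝ)) (0, 1) p.2 :=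
      (hasDerivAt_const _ _).prodMk (hasDerivAt_id _)
    exact ((dσ p).comp_hasDerivAt p.2 k).unique (h3 p.1 p.2)
  have d2 := fun p => ((h1.fderiv_right (m := ∞) (by simp)).differentiable (by simp) p).hasFDerivAt
  have key : ∀ x h r, fderiv ℝ σ (x, r) (h, 0) + r • B (μ (x, r)) h (σ (x, r)) = 0 := by
    intro x h r
    refine Rdc90.ode_unique (B := fun r => C (x, r))
      (f := fun r => fderiv ℝ σ (x, r) (h, 0) + r • B (μ (x, r)) h (σ (x, r))) (g := fun _ => 0)
      (a := 0) (sC.continuous.comp (by fun_prop)) (fun s => ?_)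
      (fun s => by simpa using hasDerivAt_const s (0 : V)) ?_ r
    · have k : HasDerivAt (fun r : ℝ => ((x, r) : E × ℝ)) (0, 1) s :=
        (hasDerivAt_const _ _).prodMk (hasDerivAt_id _)
      have k1 := ((d2 (x, s)).comp_hasDerivAt s k).clm_apply (hasDerivAt_const s ((h, 0) : E × ℝ))
      have k2 := (hasDerivAt_id s).smul (((((dB _).comp_hasDerivAt s (dμ x s)).clm_apply
        (hasDerivAt_const s h))).clm_apply (h3 x s))
      have sy : fderiv ℝ (fderiv ℝ σ) (x, s) (0, 1) (h, 0) =
          fderiv ℝ (fderiv ℝ σ) (x, s) (h, 0) (0, 1) :=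
        (h1.contDiffAt.isSymmSndFDerivAt (by
          simp only [minSmoothness_of_isRCLikeNormedField]; exact WithTop.coe_le_coe.2 le_top)) _ _
      have l : HasDerivAt (fun t : ℝ => ((x + t • h, s) : E × ℝ)) (h, 0) 0 := by
        simpa using (((hasDerivAt_id (0 : ℝ)).smul_const h).const_add x).prodMk
          (hasDerivAt_const 0 s)
      have l0 : (fun t : ℝ => ((x + t • h, s) : E × ℝ)) 0 = (x, s) := by simp
      have l1 := ((d2 _).comp_hasDerivAt_of_eq 0 l l0.symm).clm_apply
        (hasDerivAt_const 0 ((0, 1) : E × ℝ))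
      have l2 : HasDerivAt (fun t : ℝ => μ (x + t • h, s)) (s • h) 0 := by
        have := ((((hasDerivAt_id (0 : ℝ)).smul_const h).const_add x).sub_const z₀).const_smul s
          |>.const_add z₀
        rw [one_smul] at this
        exact this
      have l3 : HasDerivAt (fun t : ℝ => x + t • h - z₀) h 0 := by
        simpa using (((hasDerivAt_id (0 : ℝ)).smul_const h).const_add x).sub_const z₀
      have l4 := ((((dB (μ (x, s))).comp_hasDerivAt_of_eq 0 l2 (by simp)).clm_apply l3).neg).clm_apply
        ((dσ _).comp_hasDerivAt_of_eq 0 l l0.symm)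
      have l5 := l1.unique (l4.congr_of_eventuallyEq (.of_forall fun t => e1 _))
      have k3 := congrArg (fun T : V →L[ℝ] V => T (σ (x, s))) (hR (μ (x, s)) (x - z₀) h)
      simp only [mul_apply_eq_comp, zero_apply, q1] at k3
      simp only [Rc, add_apply, sub_apply, mul_apply_eq_comp] at k3
      refine HasDerivAt.congr_deriv (k1.add k2) ?_
      simp only [comp_apply, map_zero, add_zero, zero_smul, map_smul, Pi.neg_apply, neg_apply,
        add_apply, smul_apply] at l5
      simp only [comp_apply, map_zero, add_zero, sy, l5, id, one_smul, C, neg_apply, map_add,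
        map_smul, map_neg]
      have k4 := congrArg (fun u : V => s • u) k3
      simp only [smul_add, smul_sub, smul_zero] at k4
      rw [← sub_eq_zero, ← k4]
      simp only [smul_add, smul_neg]
      abel
    · have : (fun y : E => σ (y, 0)) = fun _ => v := funext h2
      have k := ((dσ (x, 0)).comp x (hasFDerivAt_prodMk_left (𝕜 := ℝ) x (0 : ℝ))).fderiv
      rw [show (σ ∘ fun y => (y, (0 : ℝ))) = fun _ => v from this, fderiv_fun_const] at k
      have := congrArg (fun T : E →L[ℝ] V => T h) k
      simpa using this.symm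
  have m1 : ∀ x, μ (x, 1) = x := fun x => by simp [μ]
  refine ⟨fun x => σ (x, 1), h1.comp (by fun_prop), ?_, fun z => by simpa [m1] using q1 z 1,
    fun z h => ?_⟩
  · have := Rdc90.ode_unique (B := fun _ => 0) (f := fun r => σ (z₀, r)) (g := fun _ => v) (a := 0)
      continuous_const (fun s => by simpa [C] using h3 z₀ s)
      (fun s => by simpa using hasDerivAt_const s v) (h2 _) 1
    exact this
  · have k := ((dσ (z, 1)).comp z (hasFDerivAt_prodMk_left (𝕜 := ℝ) z (1 : ℝ))).fderiv
    rw [show (fun x => σ (x, 1)) = σ ∘ fun y => (y, (1 : ℝ)) from rfl, k]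
    simpa [m1] using key z h 1

/-- parallel sections are determined by one value -/
theorem par_zero {B : E → E →L[ℝ] V →L[ℝ] V} (hB : Continuous B) {s : E → V}
    (hs : Differentiable ℝ s) (h : ∀ z k, fderiv ℝ s z k + B z k (s z) = 0) {z₀ : E}
    (h0 : s z₀ = 0) (z : E) : s z = 0 := by
  have dμ : ∀ r : ℝ, HasDerivAt (fun r : ℝ => z₀ + r • (z - z₀)) (z - z₀) r := fun r => by
    simpa using ((hasDerivAt_id r).smul_const (z - z₀)).const_add z₀
  have := Rdc90.ode_unique (B := fun r : ℝ => -(B (z₀ + r • (z - z₀)) (z - z₀)))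
    (f := fun r => s (z₀ + r • (z - z₀))) (g := fun _ => 0) (a := 0)
    ((hB.comp (by fun_prop)).clm_apply continuous_const).neg
    (fun r => by
      refine HasDerivAt.congr_deriv ((hs _).hasFDerivAt.comp_hasDerivAt r (dμ r)) ?_
      rw [neg_apply, eq_neg_of_add_eq_zero_left (h _ _)])
    (fun r => by simpa using hasDerivAt_const r (0 : V)) (by simpa using h0) 1
  simpa using this

end Crest.Agent.X212.Dfl49
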