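import Crest.Agent.X212.Dfl49.Fil
import Crest.Agent.X212.Dfl49.Dix
import Crest.Agent.X212.Cqn41.Pd1
import Crest.Agent.X212.Dead36.Gen
import Crest.Agent.X212.Ink3.Main

/-!
# Row 212, DFLAT (helper49), file 20: flat fillers on `Z c`; `DfAt`, `SurD`
-/

set_option autoImplicit false
set_option linter.unusedSectionVars false
noncomputable section
open Set Filter Topology Function MeasureTheory
open scoped ContDiff Manifold InnerProductSpace

namespace Crest.Agent.X212.Dfl49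
open An M G75 Rf65 Nd18 Ins26 Tmp64 Cqn41.Pd
open An.Job (Sol SolOn)
open Rdc90 (Bs)
open Dead36 (ZO)

section gen
variable {E : Type} [NormedAddCommGroup E] [NormedSpace ℝ E] [FiniteDimensional ℝ E]
  [MeasurableSpace E] [BorelSpace E]
  {HM : Type} [TopologicalSpace HM] {I : ModelWithCorners ℝ E HM} [I.Boundaryless]
  {M : Type} [TopologicalSpace M] [ChartedSpace HM M] [IsManifold I ∞ M] [MeasurableSpace M]
  [T2Space M] [BorelSpace M] [SecondCountableTopology M] {ι lam : Type} [Fintype ι] [Fintype lam]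
  {r n : ℕ} {F : Fr I M ι} {c : Cfg M ι lam r} {O : Set M} (z : ZO F c O)
  (f : ∀ x ∈ O, c.m.Fg F c.W x = 0) {x : M} (hx : x ∈ O)
include z f hx

theorem aw_zero (ξ : AW M) : c.aw F ξ x = 0 := by
  obtain ⟨_ | _, l⟩ := ξ
  · exact z.q0 _ _ l x hx
  · exact z.la (fun _ => Dead36.res_on z.cl z.bu z.ma fun _ => Dead36.res_on z.cl z.bu z.ma
      fun y hy => by simp [f y hy]) l x hx

/-- all field terms vanish on a flat piece without spinor -/
theorem tm_zero (B : Base M ι lam) (T : Tm M lam r n) :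
    c.tD B F T x = 0 ∧ c.tC B F T x = 0 := by
  have k : ∀ L, c.aws F L x = 0 := fun L => List.sum_eq_zero fun _ k =>
    let ⟨_, _, e⟩ := List.mem_map.1 k; e ▸ aw_zero z f hx _
  cases T <;> simp [Cfg.tD, Cfg.tC, k, z.sw _ x hx, z.qj _ _ _ _ _ x hx, aw_zero z f hx, cs,
    ← Pi.zero_def]

end gen

variable {κ lam : Type} [Fintype κ] [Fintype lam] [DecidableEq lam] {Lm : LM κ lam}
  {S : Scene Lm} {i : S.L} {R : S.A} {Wi : Type}

/-- flat fillers on `Z c` -/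
theorem exists_fil {W : World S.M} {Λ : Lns W (S.N i)} {m c : S.M.Cl} {p : Prm S.A}
    {X : Xs Wi κ lam} {g : X.Y.M ≃ₘ^∞⟮X.Y.I, (S.M.bn R).Y.I⟯ (S.M.bn R).Y.M}
    {K : Nk X.D (Λ.B m c) (Λ.G m c p)} (d : DS S i R) (o : Only S.M c.1 R false)
    (ha : Act m c R (some false) p) (hK : IsNk R (some false) g K) {r : ℕ}
    {x : Cfg (W.Z c).M (Option κ) (lam ⊕ lam) r} (a : x.Adm (Λ.B m c) (Λ.G m c p)) {γ}
    (hγ : Bs X.D γ) : let O := W.φ c '' (S.M.sys.w R).sd false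
    ∃ n u, n.Adm (Λ.B m c) (Λ.G m c p) ∧ Fz (Λ.G m c p).F n O ∧ Eq0 (Λ.G m c p).F x n Oᶜ u ∧
      (∀ ζ, K.Lim n γ ζ atTop ∧ ∀ d, K.ELim d n γ ζ atTop) ∧
      (dz X.D γ ≠ 0 → ∃ η, ParS (Λ.G m c p).F n O η ∧ ∀ z ∈ O, ‖η z‖ = 4) := by
  obtain ⟨θ, ϖ, Ξ, ρ, r', d⟩ := d
  have one := one_W ha hK o le_rfl
  have su := sur_W d o ha hK le_rfl
  have := (W.Z c).I.locallyCompactSpace
  have := ChartedSpace.locallyCompactSpace (W.Z c).H (W.Z c).M
  have hG := Λ.G_ok m ha.2.2.1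
  have m0 : Te (-pm false) 0 ∈ atTop := mem_of_superset (Ioi_mem_atTop 0) fun s hs => by
    simpa [pm] using hs
  obtain ⟨n, u, a1, f, e, st⟩ := exists_std (Λ.B_ok m c) hG hγ.adm
    ⟨fun x _ => hγ.flat x, fun x _ => hγ.zr x.1⟩ one.clopen (isOpen_Te _ _) m0 one.J one.sub su.2
    (frs_W d o m) ((admOn_univ.2 a).mono (subset_univ _))
  obtain ⟨v, q⟩ := pi_std hγ Bki64.isEnd_top one.op a1 f (isOpen_Te _ _) (ord_Te _ _) m0 one.J
    one.sub (st 1)
  refine ⟨n, u, a1, f, e, lims_pi hγ a1 (isOpen_Te _ _) m0 one.J (f.pb one.J one.sub) q, fun k => ?_⟩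
  have := (S.M.bn R).con
  have := g.symm.toHomeomorph.surjective.connectedSpace g.symm.continuous
  obtain ⟨ξ, x1, x2⟩ := unit_par hγ k
  exact un_pi (Λ.B_ok m c) hG.P hγ one.op ((d.sd ▸ (isPreconnected_univ.prod
    (convex_ball _ _).isPreconnected).image _ (Ξ.toOpenPartialHomeomorph.continuousOn.mono (dd_src d)) :
      IsPreconnected ((S.M.sys.w R).sd false)).image _
        ((W.φ c).contMDiffOn.continuousOn.mono (o.src W.toCaps))) a1 f.F (isOpen_Te _ _)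
    (nk_image K one.J ▸ (univ_nonempty.prod (Filter.nonempty_of_mem m0)).image _) one.J one.sub su.1 q x1 x2

variable {D : S.Dat} {r n : ℕ} {J : Job Wi (D.Λ i) (S.A ⊕ Unit) S.ls r n} {c : S.M.Cl} {j : ℕ}
  {n₀ : ℤ} {T : ℝ} {σ : Cel (S.A ⊕ Unit)} {s : S.A ⊕ Unit → ℝ}

theorem only_gx (g : GX J {R} none j n₀ T) (d : DS S i R) (hR : R ∈ c.1) (hσ : σ ∈ J.𝒦)
    (h1 : s ∈ Job.cl σ) (h2 : Sys.inf (J.Θ s).2 = c.1) : Only S.M {a | (J.Θ s).2 a ≠ 0} R false := by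
  obtain ⟨τ, o, σ', rfl, t1, t2, -⟩ := g.cell σ hσ
  have p := g.par τ o hσ s h1
  refine only_of d t2 (t1 (by_contra fun k => ?_)) t1 p
  obtain ⟨_, _, _, _, _, d⟩ := d
  exact one_ne_zero ((h2.ge hR).symm.trans (p.2.2 R k fun e =>
    let ⟨_, hx⟩ := (S.M.sys.w R).ne false
    (S.M.sys.w R).not_mem_sd hx.2 (d.fz R e hx.1)))

open Classical in
/-- **DfAt** -/
theorem dfAt {δ δ₀ : ℝ} (g : GX J {R} none j n₀ T) (d : DS S i R) (hR : R ∈ c.1)
    (ry : ∀ β, Bs (J.xs R).D β → dz (J.xs R).D β ≠ 0) (X : DixAt R D δ₀) (hδ : δ ∈ Ioc 0 δ₀)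
    (sp : SplAt J c δ) : DfAt J c δ R := by
  refine ⟨fun σ hσ y π γ h1 h2 hπ e a hγ => ?_, fun σ hσ z π h1 h2 hπ e =>
    X i Wi _ _ r n J c δ z π g.ok d hR hπ e (only_gx g d hR hσ h1 h2) hδ sp⟩
  have ov := Job.ov_of h1 h2
  have br := g.ok.memBr hσ ov
  have o := (only_gx g d hR hσ h1 h2).mono fun a (ha : a ∈ c.1) k => one_ne_zero ((br.2 ha).symm.trans k)
  have np : ¬S.M.pin R := let ⟨_, _, _, _, _, d⟩ := d; d.np
  have ha : Act J.m c R (some false) (J.Θ y.s) := ⟨np, br, g.ok.memO hσ ov, hR⟩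
  obtain ⟨⟨m, A, Φ, z⟩, u, a1, f, e0, l, un⟩ := exists_fil d o ha (g.ok.nk c R _ _ ha)
    (x := y.x.con) ⟨a.ok, a.conn, a.sm, a.pos, .inl rfl⟩ hγ
  obtain rfl : Φ = 0 := funext fun x => (Classical.em _).elim (f.Φ x) fun k => (e0.Φ x k).trans (map_zero _)
  obtain rfl : z = 0 := Subsingleton.elim _ _
  rw [← o.pc np _ hπ e] at f un
  have k : ∀ i ∈ EdP c {π}, i = (⟨R, hR, np⟩, false) := by
    rintro ⟨⟨a, a1, a2⟩, b⟩ ⟨_, rfl, k⟩
    obtain rfl := (o a a1).resolve_right fun q =>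
      let ⟨_, hx⟩ := (S.M.sys.w a).ne b
      (S.M.sys.w R).not_mem_sd (hπ.adj a b k hx R false e) (q hx.1)
    obtain rfl := Option.some.inj (k.symm.trans e)
    rfl
  refine ⟨⟨y.s, ⟨m, A, 0, y.x.z⟩, ∅, fun _ => 0, update y.β R fun _ => γ, y.ζ, y.k, y.j, y.l⟩, rfl,
    ⟨br, ha.2.2.1, ⟨a1.ok, a1.conn, a1.sm, a1.pos⟩, fun i hi => ?_, fun i hi => ?_, ?_⟩, f.F,
    (un (ry γ hγ)).imp fun _ k => ⟨⟨k.1.sm, k.1.mem, k.1.par⟩, k.2⟩, ?_⟩
  · obtain rfl := k i hi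
    simpa using hγ
  · obtain rfl := k i hi
    exact fun _ => ⟨δ + 1, lt_add_one _, by simpa using (l 1).2 _⟩
  · exact (integrableOn_congr_fun (g := 0) (fun x hx => by
      simp [Md.kd, show m.Fg (J.G c y.s).F A x = 0 from f.F x ((Cqn41.Pd.un_one _).le hx)])
      (Job.isClopen_un fun _ k => k ▸ hπ).2.measurableSet).2 integrableOn_zero
  · simpa using! Eq0.cfgIso (Eq0.refl (admOn_univ.2 hγ.adm.adm)) hγ.ok.B hγ.adm.adm hγ.adm.adm

/-- **SUR** -/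
theorem sur (h : HD J c R j n₀ T) (wl : WlStmt (J.xs R).D) : SurD J c R := fun σ hσ q y H => by
  classical
  have g := h.jr.gx
  have hJ := g.ok
  have ov := H.sol.ov
  have ha : ∀ b, Act J.m c R (some b) (J.Θ y.s) := fun _ =>
    ⟨HD.np h, hJ.memBr hσ ov, hJ.memO hσ ov, HD.mem h⟩
  have en : (pO J c (shX S {R}) σ R).En R true := ⟨_, rfl, hp_self R _⟩
  have cr := H.sol.crit R (HD.cyl h) true en
  obtain ⟨b, py⟩ := h.pj.py R (HD.cyl h)
  have nl := fun a => g.nil a (by simp)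
  obtain ⟨x, u, a1, f, e, l, -⟩ := exists_fil h.ds (HD.only h) (ha false) (hJ.nk c R _ _ (ha false))
    H.sol.adm ((wl _ b (hJ.xs R).1.yd (nl R).1 py).1 _ cr)
  have p1 := pc_one h.c1 true
  have e' : D.W.un c {hp R true} = (D.W.pc c (hp R false))ᶜ :=
    (Cqn41.Pd.un_one _).trans (pc_compl h.c1)
  have ins : ∀ z ∉ D.W.un c {hp R true}, z ∈ D.W.pc c (hp R false) := fun z k =>
    by_contra fun m => k (e'.ge m)
  rw [← pc_in h] at f e
  rw [← e'] at e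
  have hB := (D.Λ i).B_ok J.m c
  have hG := hJ.G_ok hσ ov
  have cl := Job.isClopen_un (W := D.W) p1
  have e1 := e.cEq hB ((admOn_univ.2 H.sol.adm).mono (subset_univ _))
    ((admOn_univ.2 a1).mono (subset_univ _))
  have lm := e.lm cl.2 hB hG H.sol.adm a1
  have rl := fun l => Cnt93.rel_refl hB (hJ.cut_sub (c := c) (nb_out h l))
  have ev := fun l => (Cnt93.eqv_iff lm (rl l)).2 ⟨1, rfl (a := Cnt93.Rh _ _ _ _ u 1 (y.ψ l))⟩
  have s := H.sol.re hJ hσ (g.loc.pok σ hσ c _ _ _ p1 Subset.rfl) (Eqv71.ad0 a1)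
    (fun z hz => f.Φ z (ins z hz))
    (Eqv71.ceq_symm_id hB hG cl.2 (Eqv71.ad0 H.sol.adm) (Eqv71.ad0 a1) e1)
    fun l _ => Cnt93.eqv_symm (ψ := id) lm (rl l) rfl (ev l)
  have z : ZO (J.G c y.s).F x (D.W.pc c (hp R false)) := ⟨Cyl58.isClopen_pc _ (pc_hp h.c1 _),
    Mp86.bumps_of_tame _ (hJ.tame hσ ov).choose_spec, Mp86.mc_W a1.conn, Mp86.mc_adW a1.conn, f.Φ⟩
  have t := Ink3.τ_nil (J := J) c y.s (fun a => (nl a).1) (fun a w => congrFun (nl a).2 w) q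
  have kd : ∀ z ∈ D.W.pc c (hp R false), x.m.kd (J.B c) (J.G c y.s).F x.W z = 0 := fun z hz => by
    simp [Md.kd, show x.m.Fg (J.G c y.s).F x.W z = 0 from f.F z hz]
  have i2 : IntegrableOn (x.m.kd (J.B c) (J.G c y.s).F x.W) (D.W.pc c (hp R false))
    (J.G c y.s).F.μ := (integrableOn_congr_fun kd z.cl.2.measurableSet).2 integrableOn_zero
  have i1 := (e' ▸ s.int).union i2
  rw [compl_union_self, integrableOn_univ] at i1
  have cy : ∀ a ∈ cylW c, a = R := fun a k => by simpa [h.c1] using k.1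
  refine ⟨⟨y.s, x, univ, _, fun a _ => y.β a true, fun a _ => y.ζ a true * 1⁻¹, 0, 0, 0⟩,
    ⟨⟨s.cell, s.inf, ⟨a1, fun z' => ?_, fun z' => ?_, s.S⟩, fun l _ => Job.unc_of p1 (nb_out h l),
      fun l _ => s.cut l ⟨trivial, nb_out h l⟩, by simp, fun a b k => ?_, fun a k _ => ?_,
      fun a k => ?_, i1, ?_⟩, ⟨rfl, fun _ _ => rfl⟩, fun ⟨z, k, k'⟩ => k' (f.Φ z k), f.F⟩,
    fun _ _ => rfl, u, 1, e1, fun l _ => ev l⟩
  · refine (Classical.em _).elim (s.D z') fun k => ?_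
    replace k := ins z' k
    have := fun a => (Wz78.nab_congr (e := (J.G c y.s).F.e) (A := x.W) a (v := fun _ => 0)
      (eventually_of_mem (z.cl.2.mem_nhds k) f.Φ)).trans (c := 0) (by simp [Wz78.nab])
    simp [Cfg.eD, t, fsum, Pt.smul, tmP, (tm_zero z f.F k _ _).1, Wz78.dir, this]
  · refine (Classical.em _).elim (s.C z') fun k => ?_
    replace k := ins z' k
    simp [Cfg.eC, t, fsum, Pt.smul, tmP, (tm_zero z f.F k _ _).2, f.Φ z' k, Md.mu, Md.q, rk1,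
      show x.m.Fg (J.G c y.s).F x.W z' = 0 from f.F z' k, ← Pi.zero_def]
  · obtain rfl := cy a ⟨k.2.2.2, k.1⟩
    cases b
    exacts [(l _).1, s.lim _ true k en]
  · obtain rfl := cy a k
    exact cr
  · exact .nil _ _
  · have := integral_add_compl z.cl.2.measurableSet i1
    rw [setIntegral_eq_zero_of_forall_eq_zero kd, zero_add, ← e'] at this
    have k := this.symm.trans (setIntegral_congr_fun cl.2.measurableSet fun _ k => lm.kd k)
    rw [Cqn41.Pd.un_one] at k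
    simpa using! k.trans H.lev

end Crest.Agent.X212.Dfl49
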