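import Crest.Agent.X212.Dfl49.Wk
import Crest.Agent.X212.Dgr80.Wk
import Crest.Agent.X212.Mp86.Wd
import Crest.Agent.X212.Rd78.Bas
import Crest.Agent.X212.Grp76.Gm

/-!
# Row 212, DFLAT (helper49), file 21: `L²` estimates for the perturbed kernel
-/

set_option autoImplicit false
set_option linter.unusedSectionVars false
noncomputable section
open Set Filter Topology MeasureTheory Function
open scoped ContDiff Manifold InnerProductSpace NNReal

namespace Crest.Agent.X212.Dfl49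
open An Sob92 Wz78 Rdc90 Kah60 Map77 Nk89 Mod61
open Dgr80 (LB)
open Grp76 (Nice)

section meas
variable {X V : Type*} [MeasurableSpace X] {μ : Measure X} [NormedAddCommGroup V] {O : Set X}
  {u v w : X → V} {a b : ℝ}

theorem lb_add (hO : MeasurableSet O) (hu : LB (μ.restrict O) (fun x => ‖u x‖ ^ 2) a)
    (hv : LB (μ.restrict O) (fun x => ‖v x‖ ^ 2) b) (hw : AEStronglyMeasurable w (μ.restrict O))
    (e : ∀ x ∈ O, w x = u x + v x) : LB (μ.restrict O) (fun x => ‖w x‖ ^ 2) (2 * a + 2 * b) := by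
  have k := (hu.mul zero_le_two).add (hv.mul zero_le_two)
  have l : ∀ᵐ x ∂μ.restrict O, ‖w x‖ ^ 2 ≤ 2 * ‖u x‖ ^ 2 + 2 * ‖v x‖ ^ 2 :=
    ae_restrict_of_forall_mem hO fun x hx => by
      have := pow_le_pow_left₀ (norm_nonneg _) (e x hx ▸ norm_add_le (u x) (v x)) 2
      nlinarith [sq_nonneg (‖u x‖ - ‖v x‖)]
  have i := k.1.mono' (hw.norm.pow 2) (l.mono fun x hx => (Real.norm_of_nonneg (sq_nonneg _)).trans_le hx)
  exact ⟨i, (integral_mono_ae i k.1 l).trans k.2⟩

theorem lb_smul [NormedSpace ℝ V] (hu : LB μ (fun x => ‖u x‖ ^ 2) a) (s : ℝ) :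
    LB μ (fun x => ‖s • u x‖ ^ 2) (s ^ 2 * a) := by
  simpa only [norm_smul, mul_pow, Real.norm_eq_abs, sq_abs] using hu.mul (sq_nonneg s)

end meas

theorem slope0 {Y : Type*} [NormedAddCommGroup Y] [NormedSpace ℝ Y] {w : ℝ → Y}
    (h : HasDerivAt w 0 0) (C : ℝ) :
    Tendsto (fun s : ℝ => C * ‖s⁻¹ • (w s - w 0)‖ ^ 2) (𝓝[≠] 0) (𝓝 0) := by
  simpa using (h.tendsto_slope_zero.norm.pow 2).const_mul C

variable {E : Type} [NormedAddCommGroup E] [NormedSpace ℝ E] [FiniteDimensional ℝ E]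
  [MeasurableSpace E] [BorelSpace E]
  {HM : Type} [TopologicalSpace HM] {I : ModelWithCorners ℝ E HM} [I.Boundaryless]
  {M : Type} [TopologicalSpace M] [ChartedSpace HM M] [IsManifold I ∞ M] [MeasurableSpace M]
  [T2Space M] [BorelSpace M] [SecondCountableTopology M] {ι lam : Type} [Fintype ι] [Fintype lam]

theorem zero_of_lb (F : Pre I M ι) {V : Type} [NormedAddCommGroup V] {O : Set M} (hO : IsOpen O)
    {u : M → V} (hu : Continuous u) (h : LB (F.μ.restrict O) (fun x => ‖u x‖ ^ 2) 0) :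
    ∀ x ∈ O, u x = 0 := fun x hx => by
  have := Cht98.openPos F
  simpa using Measure.eqOn_open_of_ae_eq ((integral_eq_zero_iff_of_nonneg (fun _ => sq_nonneg _)
    h.1).1 (h.2.antisymm (integral_nonneg fun _ => sq_nonneg _))) hO
    (hu.norm.pow 2).continuousOn continuousOn_const hx

section gauge
variable {B : Base M ι lam} {G : Geo I M ι lam} {m : Md M ι lam} {W : m.Cn} {C : ℕ → ℝ} {d D : ℝ}

/-- the Weitzenboeck inequality for square integrable spinors -/
theorem coer (hB : B.OK I) (hG : G.OK B) (H : m.OK I B) (c : m.IsConn B G W) (hT : G.F.Tame C)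
    {N : Set M} (hp : ∀ x ∈ N, Lns95.PosP B G d x)
    (hA : ∀ x ∈ N, m.p2 B x (m.Fg G.F W x) = 0) (d0 : 0 ≤ d) {u : M → m.V} (hu : Sm I u)
    (hN : ∀ x ∉ N, u x = 0) (pu : ∀ x, m.pp B x (u x) = u x)
    (iu : Integrable (fun x => ‖u x‖ ^ 2) G.F.μ)
    (hD : LB G.F.μ (fun x => ‖dir I G.F.e m.ρ W u x‖ ^ 2) D) :
    d * ∫ x, ‖u x‖ ^ 2 ∂G.F.μ ≤ 2 * D := by
  have : LocallyCompactSpace M := Manifold.locallyCompact_of_finiteDimensional I
  let X := CompactExhaustion.choice M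
  choose χ h1 h2 h3 h4 using fun n => hT.exh _ (X.isCompact n)
  have k : Cut I univ χ := ⟨fun n => (h1 n).1, h2, fun _ => subset_univ _, fun x _ =>
    let ⟨j, hj⟩ := X.exists_mem_nhds x
    ⟨_, hj, (eventually_ge_atTop j).mono fun n hn y hy => h4 n y (X.subset hn hy)⟩⟩
  have b : ∀ n x, gr2 G.F.toPre (χ n) x ≤ ∑ _ : ι, C 1 * C 1 := fun n x =>
    Finset.sum_le_sum fun a _ => by
      rw [← abs_mul_abs_self]
      exact mul_self_le_mul_self (abs_nonneg _) ((h1 n).2 1 [a] le_rfl x)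
  have s := (small_of_int k isOpen_univ b iu.integrableOn).const_mul 2 |>.const_add (2 * D)
  have su : ∀ n, Sm I fun x => χ n x • u x := fun n => (h1 n).1.smul hu
  have cu : ∀ n, HasCompactSupport fun x => χ n x • u x := fun n => (h2 n).smul_right
  have n2 : ∀ {v : M → m.V}, Sm I v → Continuous fun x => ‖v x‖ ^ 2 := fun h => h.continuous.norm.pow 2
  have sd : ∀ {v : M → m.V}, Sm I v → Sm I (dir I G.F.e m.ρ W v) := fun h x =>
    (hG.P ▸ c.cc).dir_sm (frm G.F) (h x)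
  rw [mul_zero, add_zero] at s
  rw [← integral_const_mul]
  refine (LB.lim (f := fun n x => d * ‖χ n x • u x‖ ^ 2) ((n2 hu).const_mul d).measurable
    (fun _ => by positivity) (fun n => ((n2 (su n)).const_mul d).measurable)
    (fun _ _ => by positivity) (fun n => ⟨((n2 (su n)).integrable_of_hasCompactSupport
      ((cu n).comp_left (g := fun v : m.V => ‖v‖ ^ 2) (by simp))).const_mul d, ?_⟩) s fun x => ?_).2
  · have i : Integrable (fun x => gr2 G.F.toPre (χ n) x * ‖u x‖ ^ 2) G.F.μ :=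
      ((sm_gr2 _ (h1 n).1).continuous.mul (n2 hu)).integrable_of_hasCompactSupport
        (hcs_of_sub (h2 n) (tsupport_gr2 _ _)).mul_right
    have l := ((hD.mul zero_le_two).add (LB.mul ⟨i, le_rfl⟩ zero_le_two)).mono
      (n2 (sd (su n))).aestronglyMeasurable (fun _ => sq_nonneg _) fun x => by
        have e : dir I G.F.e m.ρ W (fun y => χ n y • u y) x =
            χ n x • dir I G.F.e m.ρ W u x + ∑ a, G.F.D a (χ n) x • m.ρ a x (u x) := by
          simp only [dir, nab_smul _ ((h1 n).1 x) (hu x), map_add, map_smul, Finset.sum_add_distrib,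
            Finset.smul_sum, Pre.D_def, add_comm]
        have a1 := Mp86.norm_cl (hB.pr x) (H.cl x) (fun a => H.ρsk a x) (H.psym x) (H.pidem x)
          (fun a => G.F.D a (χ n) x) (u x)
        have a2 : ‖χ n x • dir I G.F.e m.ρ W u x‖ ^ 2 ≤ ‖dir I G.F.e m.ρ W u x‖ ^ 2 := by
          rw [norm_smul, mul_pow, Real.norm_of_nonneg (h3 n x).1]
          exact mul_le_of_le_one_left (sq_nonneg _) (pow_le_one₀ (h3 n x).1 (h3 n x).2)
        have a3 := pow_le_pow_left₀ (norm_nonneg _) (e ▸ norm_add_le _ _) 2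
        simp only [gr2, ← sq]
        nlinarith [sq_nonneg (‖χ n x • dir I G.F.e m.ρ W u x‖ -
          ‖∑ a, G.F.D a (χ n) x • m.ρ a x (u x)‖)]
    have := Lns95.low_asd hB hG H c hp hA (su n) (cu n) (fun x hx => by simp [hN x hx])
      fun x => by rw [map_smul, pu]
    rw [integral_const_mul]
    exact (le_add_of_nonneg_left (integral_nonneg fun _ => by positivity)).trans (this.trans l.2)
  · obtain ⟨O, a1, a2⟩ := k.one x trivial
    exact tendsto_const_nhds.congr' (a2.mono fun n hn => by simp [hn x (mem_of_mem_nhds a1)])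

variable (G W) in
/-- the differential of a form -/
def dF (β : M → Fm ι m.A) (z : M) : Fm (ι × ι) m.A :=
  WithLp.toLp 2 fun s => ed I G.F.e G.F.c (m.adW W) (fun a y => β y a) s.1 s.2 z

/-- the square of a form -/
def qF (β : M → Fm ι m.A) (z : M) : Fm (ι × ι) m.A :=
  WithLp.toLp 2 fun s => adc (opL (β z s.1)) (β z s.2)

theorem Fg_line (H : m.OK I B) (c : m.IsConn B G W) {β : M → Fm ι m.A} (sβ : Sm I β)
    (g : ∀ x a, β x a ∈ m.gS x) (s : ℝ) {z : M} (fl : m.Fg G.F W z = 0) :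
    m.Fg G.F (m.addC W fun z => s • β z) z = s • dF G W β z + s ^ 2 • qF β z :=
  fm_ext fun ⟨a, b⟩ => by
    have s1 : ∀ a, SA I (fun y => β y a) z := fun a => SA.comp (sβ z) a
    rw [Rd78.Fg_addC H c (α := fun z => s • β z) (fun z => SA.smul contMDiffAt_const (sβ z))
      (fun z a => Submodule.smul_mem _ _ (g z a)), fl]
    simp only [dF, qF, ed, PiLp.smul_apply, nab_csmul _ s (s1 _), PiLp.add_apply, map_smul,
      smul_sub, Finset.smul_sum, ← adcL_apply, PiLp.zero_apply, zero_add,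
      _root_.smul_apply, smul_smul, sq, mul_comm s]

end gauge

variable {T : Type} [NormedAddCommGroup T] [NormedSpace ℝ T] {𝔉 : Fam I M ι lam T} (h : 𝔉.OK)
  {t : T} (ht : t ∈ 𝔉.Q)
include h ht

theorem mu_le : ∃ c : ℝ≥0, (𝔉.G t).F.μ ≤ c • 𝔉.F0.μ := by
  obtain ⟨ρ, h1, h2⟩ := h.dens
  obtain ⟨C, hC⟩ := h1.cb t ht
  refine ⟨(C 0).toNNReal, (h2 t ht).2.trans_le ?_⟩
  have : (𝔉.F0.μ.withDensity fun x => ENNReal.ofReal (ρ t x)) ≤
      𝔉.F0.μ.withDensity fun _ => ENNReal.ofReal (C 0) :=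
    withDensity_mono (.of_forall fun x =>
      ENNReal.ofReal_le_ofReal ((le_abs_self _).trans (hC.2 0 [] le_rfl x)))
  rwa [withDensity_const] at this

theorem wt_fs : ∃ ψ, Wt (𝔉.G t).F (Fs 𝔉 t) ψ := by
  obtain ⟨ρ, h1, h2⟩ := h.dens
  have p := (h2 t ht).1
  have s : Sm I fun x => Real.log (ρ t x) / 2 := fun x =>
    (((Real.contDiffAt_log.2 (p x).ne').contMDiffAt).comp x
      ((h1.cb t ht).choose_spec.1 x)).div_const 2
  have e : 𝔉.F0.μ = wm (𝔉.G t).F.μ (-fun x => Real.log (ρ t x) / 2) := by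
    rw [(h2 t ht).2, ← wm_neg (μ := 𝔉.F0.μ) s.continuous]
    congr 1
    rw [wm_neg s.continuous, wm]
    exact congrArg _ (funext fun x => by rw [mul_div_cancel₀ _ two_ne_zero, Real.exp_log (p x)])
  have w := wt_wt (𝔉.G t).F s.neg
  exact ⟨_, ⟨s.neg, rfl, e⟩, rfl, rfl, fun a x => Met55.dvg_eq isOpen_univ
    (fun y _ => (𝔉.G t).F.sm a y) (fun f h1 h2 _ => e ▸ (wt _ _ s.neg).ibp a f h1 h2)
    (fun y _ => (wt _ _ s.neg).dv_sm a y) (mem_univ x)⟩

theorem int_sq {V : Type} [NormedAddCommGroup V] [NormedSpace ℝ V] {u : M → V}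
    (hu : Nice 𝔉.F0.toPre u) : Integrable (fun x => ‖u x‖ ^ 2) (𝔉.G t).F.μ :=
  let ⟨_, k⟩ := mu_le h ht
  (((memLp_two_iff_integrable_sq_norm hu.sm.continuous.aestronglyMeasurable).1
    (hu.2 0)).smul_measure_nnreal).mono_measure k

theorem lb_val {V : Type} [NormedAddCommGroup V] [InnerProductSpace ℝ V] [CompleteSpace V] {k : ℕ}
    (hk : 4 ≤ k) (P : M → V →L[ℝ] V) (O : Set M) : ∃ C, ∀ e : 𝔉.F0.H k P,
      LB ((𝔉.G t).F.μ.restrict O) (fun x => ‖𝔉.F0.val k P e x‖ ^ 2) (C * ‖e‖ ^ 2) := by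
  obtain ⟨c, hc⟩ := mu_le h ht
  refine ⟨c, fun e => ?_⟩
  have i := Is.val (sup0 h) hk e
  have j := (memLp_two_iff_integrable_sq_norm i.memLp.1).1 i.memLp
  have l := (Measure.restrict_le_self (s := O)).trans hc
  refine ⟨j.smul_measure_nnreal.mono_measure l, (integral_mono_measure l
    (.of_forall fun _ => sq_nonneg _) j.smul_measure_nnreal).trans ?_⟩
  rw [integral_smul_nnreal_measure]
  refine mul_le_mul_of_nonneg_left ?_ c.2
  refine Eq.trans_le ?_ (pow_le_pow_left₀ (norm_nonneg _) (norm_toL2_le e) 2)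
  rw [← real_inner_self_eq_norm_sq, L2.inner_def]
  exact integral_congr_ae (i.mono fun x hx => by simp [hx])

theorem nice_nab {V : Type} [NormedAddCommGroup V] [NormedSpace ℝ V] {A : ι → M → V →L[ℝ] V}
    (hA : ∀ a, 𝔉.F0.Cb (A a)) {u : M → V} (hu : Nice 𝔉.F0.toPre u) (a : ι) :
    Nice 𝔉.F0.toPre (nab I (𝔉.G t).F.e A a u) := by
  have := (Nice.sum Finset.univ fun c => Nice.bil (ContinuousLinearMap.lsmul ℝ ℝ)
    ((h.sS a c).cb t ht) (hu.D c)).add (hu.app (hA a))
  refine (congrArg _ (funext fun x => ?_)).mp this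
  exact congrArg (· + _) (congrFun ((h.mix t ht).D a u) x).symm

end Crest.Agent.X212.Dfl49
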