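import Crest.Agent.X212.Dfl49.Tk1
import Crest.Agent.X212.Top36.Kap
import Crest.Agent.X212.Map77.Fin

/-!
# Row 212, DFLAT (helper49), file 22: the perturbed kernel in a family
-/

set_option autoImplicit false
set_option linter.unusedSectionVars false
noncomputable section
open Set Filter Topology MeasureTheory Function
open scoped ContDiff Manifold InnerProductSpace NNReal

namespace Crest.Agent.X212.Dfl49
open An Sob92 Wz78 Rdc90 Kah60 Map77 Nk89 Mod61 Nd18 M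
open Dgr80 (LB)
open Grp76 (Nice)

variable {κ lam : Type} [Fintype κ] [Fintype lam] {Z : Mf 4} {T : Type} [NormedAddCommGroup T]
  [NormedSpace ℝ T] {𝔉 : Fam Z.I Z.M (Option κ) lam T} {δ R ε : ℝ} {o : Ref 𝔉} {r : ℕ}
  {x : Pnt o r} {Ω : Set Z.M}

/-- **KD** in a family -/
theorem kd_fam (h : 𝔉.OK) (hΩ : IsClopen Ω) {d : ℝ} (hε : 4 * ε ^ 2 < d)
    (hp : ∀ z ∈ Ω, Lns95.PosP 𝔉.B (𝔉.G x.t) d z)
    (fl : ∀ z ∈ Ω, o.m.Fg (𝔉.G x.t).F x.cfg.W z = 0) {φ : Z.M → o.m.V}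
    (hφ : φ ∈ Mod61.Hs 𝔉.F0.toPre o.Pp) (h0 : ∀ z ∉ Ω, φ z = 0) {w : ℝ → 𝔉.F0.H 8 o.Pm}
    (hw : HasDerivAt w 0 0) {τ : ℝ → Z.M → o.m.V} (e0 : ∀ z ∈ Ω, 𝔉.F0.val 8 _ (w 0) z = 0)
    (e : ∀ s, ∀ z ∈ Ω, 𝔉.F0.val 8 _ (w s) z =
      s • dir Z.I (𝔉.G x.t).F.e o.m.ρ x.cfg.W φ z - τ s z)
    (hτ : ∀ (s : ℝ) D, LB ((𝔉.G x.t).F.μ.restrict Ω) (fun z => ‖s • φ z‖ ^ 2) D →
      LB ((𝔉.G x.t).F.μ.restrict Ω) (fun z => ‖τ s z‖ ^ 2) (ε ^ 2 * D)) : φ = 0 := by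
  obtain ⟨n, pφ⟩ := (Grp76.hs_iff h).1 hφ
  have hG := h.G _ x.ht
  have c := (x.ad0 h).conn
  have i := int_sq h x.ht n
  obtain ⟨C, hC⟩ := lb_val h x.ht (by norm_num : 4 ≤ 8) o.Pm Ω
  have sd : Sm Z.I (dir Z.I (𝔉.G x.t).F.e o.m.ρ x.cfg.W φ) := fun z =>
    (hG.P ▸ c.cc).dir_sm (frm _) (n.sm z)
  have N : LB ((𝔉.G x.t).F.μ.restrict Ω) (fun z => ‖φ z‖ ^ 2) (∫ z, ‖φ z‖ ^ 2 ∂(𝔉.G x.t).F.μ) :=
    ⟨i.integrableOn, setIntegral_le_integral i (.of_forall fun _ => sq_nonneg _)⟩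
  have k : ∀ s : ℝ, s ≠ 0 → LB ((𝔉.G x.t).F.μ.restrict Ω)
      (fun z => ‖dir Z.I (𝔉.G x.t).F.e o.m.ρ x.cfg.W φ z‖ ^ 2)
      (2 * (C * ‖s⁻¹ • (w s - w 0)‖ ^ 2) + 2 * (ε ^ 2 * ∫ z, ‖φ z‖ ^ 2 ∂(𝔉.G x.t).F.μ)) :=
    fun s hs => (lb_add hΩ.2.measurableSet (hC (s⁻¹ • (w s - w 0)))
      (lb_smul (hτ s _ (lb_smul N s)) s⁻¹) sd.continuous.aestronglyMeasurable fun z hz => by
        rw [val_smul, val_sub, Pi.smul_apply, Pi.sub_apply, e0 z hz, e s z hz, _root_.sub_zero,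
          ← smul_add, sub_add_cancel, inv_smul_smul₀ hs]).le (le_of_eq (by field_simp))
  have l := ge_of_tendsto (((slope0 hw C).const_mul 2).add_const _)
    (eventually_nhdsWithin_of_forall fun s hs => (k s hs).2)
  have z0 : ∀ z ∉ Ω, ‖dir Z.I (𝔉.G x.t).F.e o.m.ρ x.cfg.W φ z‖ ^ 2 = 0 := fun z hz => by
    have : φ =ᶠ[𝓝 z] fun _ => 0 := mem_of_superset (hΩ.compl.2.mem_nhds hz) h0
    simp only [dir, nab_congr _ this]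
    simp [nab]
  have a := coer h.B hG o.ok c (h.tameG _ x.ht).choose_spec hp
    (fun z hz => by rw [fl z hz, map_zero]) (by nlinarith [sq_nonneg ε]) n.sm h0
    (fun z => ind_fix (pφ z)) i ⟨IntegrableOn.integrable_of_forall_notMem_eq_zero (k 1 one_ne_zero).1 z0,
      (setIntegral_eq_integral_of_forall_compl_eq_zero z0).symm.trans_le l⟩
  have b : 0 ≤ ∫ z, ‖φ z‖ ^ 2 ∂(𝔉.G x.t).F.μ := integral_nonneg fun _ => sq_nonneg _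
  exact funext fun z => (em (z ∈ Ω)).elim (zero_of_lb _ hΩ.2 n.sm.continuous (N.le (by nlinarith)) z)
    (h0 z)

variable (x) in
/-- the variation in the frame of the parameter -/
def tl (α : Z.M → Fm (Option κ) o.m.A) (z : Z.M) : Fm (Option κ) o.m.A :=
  idx (𝔉.S x.t z) (.id ℝ _) (α z)

variable {α : Z.M → Fm (Option κ) o.m.A}

theorem nice_tl (h : 𝔉.OK) (hα : α ∈ Mod61.Hs 𝔉.F0.toPre o.P1) : Nice 𝔉.F0.toPre (tl x α) :=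
  Nice.fm fun a => by
    simpa only [tl, Wz78.idx_apply] using! Nice.sum Finset.univ fun b =>
      Nice.bil (ContinuousLinearMap.lsmul ℝ ℝ) ((h.sS a b).cb _ x.ht)
        (((Grp76.hs_iff h).1 hα).1.clm (Grp76.pj o.m.A b))

theorem tl_mem (h : 𝔉.OK) (hα : α ∈ Mod61.Hs 𝔉.F0.toPre o.P1) (z : Z.M) (a : Option κ) :
    tl x α z a ∈ o.m.gS z := by
  rw [tl, Wz78.idx_apply]
  exact Submodule.sum_mem _ fun b _ => Submodule.smul_mem _ _ (idx_mem (((Grp76.hs_iff h).1 hα).2 z) b)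

/-- **KC** in a family, the curvature rows -/
theorem kc_clo (X : Ends 𝔉 δ) (l : X.Lit o R) (hΩ : IsClopen Ω) (sub : Ω ⊆ 𝔉.Om)
    (fl : ∀ z ∈ Ω, o.m.Fg (𝔉.G x.t).F x.cfg.W z = 0) (hα : α ∈ Mod61.Hs 𝔉.F0.toPre o.P1)
    {w : ℝ → 𝔉.F0.H 8 o.P2} (hw : HasDerivAt w 0 0)
    {τ : ℝ → Z.M → Fm (Option κ × Option κ) o.m.A} (e0 : ∀ z ∈ Ω, 𝔉.F0.val 8 _ (w 0) z = 0)
    (e : ∀ s, ∀ z ∈ Ω, 𝔉.F0.val 8 _ (w s) z =
      o.m.p2 𝔉.B z (o.m.Fg (𝔉.G x.t).F (o.W x.t (x.α + s • α)) z) - τ s z)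
    (hτ : ∀ (s : ℝ) D, LB ((𝔉.G x.t).F.μ.restrict Ω)
      (fun z => ‖o.m.Fg (𝔉.G x.t).F (o.W x.t (x.α + s • α)) z‖ ^ 2) D →
      LB ((𝔉.G x.t).F.μ.restrict Ω) (fun z => ‖τ s z‖ ^ 2) (ε ^ 2 * D)) (hε : ε ^ 2 ≤ 1 / 8) :
    ∀ z ∈ Ω, dF (m := o.m) (𝔉.G x.t) x.cfg.W (tl x α) z = 0 := by
  have h := X.ok
  have hG := h.G _ x.ht
  have c : o.m.IsConn 𝔉.B (𝔉.G x.t) x.cfg.W := (x.ad0 h).conn
  have m := hΩ.2.measurableSet
  have n := nice_tl (x := x) h hα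
  have n1 : ∀ a, Nice 𝔉.F0.toPre fun y => tl x α y a := fun a => n.clm (Grp76.pj o.m.A a)
  have cW : ∀ a, 𝔉.F0.Cb (o.m.adW x.cfg.W a) := fun a => Cb_clm adcL (by
    simpa only [uy, oa_base] using! Cb_clm (oa a) (cb_uy h x))
  set θ := dF (m := o.m) (𝔉.G x.t) x.cfg.W (tl x α)
  set q := qF (m := o.m) (tl x α)
  have nθ : Nice 𝔉.F0.toPre θ := Nice.fm fun s =>
    ((nice_nab h x.ht cW (n1 _) _).sub (nice_nab h x.ht cW (n1 _) _)).sub (Nice.sum _ fun l =>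
      Nice.bil (ContinuousLinearMap.lsmul ℝ ℝ) ((h.sc _ _ l).cb _ x.ht) (n1 l))
  have nq : Nice 𝔉.F0.toPre q := Nice.fm fun s =>
    (n1 s.2).app (Cb_clm (adcL ∘L opL) (n1 s.1).1)
  let y : ℝ → Pnt o r := fun s =>
    ⟨x.α + s • α, x.φ, x.z, x.t, add_mem x.hα (Submodule.smul_mem _ _ hα), x.hφ, x.ht⟩
  have cs : ∀ s : ℝ, o.m.IsConn 𝔉.B (𝔉.G x.t) (o.W x.t (x.α + s • α)) := fun s => ((y s).ad0 h).conn
  have eF : ∀ s : ℝ, ∀ z ∈ Ω, o.m.Fg (𝔉.G x.t).F (o.W x.t (x.α + s • α)) z =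
      s • θ z + s ^ 2 • q z := fun s z hz => by
    have e1 : o.W x.t (x.α + s • α) = o.m.addC x.cfg.W fun z => s • tl x α z := by
      funext a z
      simp only [tl, Pnt.cfg, Ref.W, Md.addC, Pi.add_apply, Pi.smul_apply, map_add, map_smul,
        PiLp.add_apply, PiLp.smul_apply, add_assoc]
    exact e1 ▸ Fg_line o.ok c n.sm (tl_mem h hα) s (fl z hz)
  have kd0 : ∀ s : ℝ, ∫ z in Ω, o.m.kd 𝔉.B (𝔉.G x.t).F (o.W x.t (x.α + s • α)) z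
      ∂(𝔉.G x.t).F.μ = 0 := fun s =>
    ((Top36.kapStmt T 𝔉 δ X o R r (y s) Ω l hΩ sub).trans
      (Top36.kapStmt T 𝔉 δ X o R r x Ω l hΩ sub).symm).trans
      (setIntegral_eq_zero_of_forall_eq_zero fun z hz => by
        have := norm_Fg_sq hG c h.B (x := z)
        rw [fl z hz] at this
        simpa using this)
  obtain ⟨C, hC⟩ := lb_val h x.ht (by norm_num : 4 ≤ 8) o.P2 Ω
  have Lθ : LB ((𝔉.G x.t).F.μ.restrict Ω) _ _ := ⟨(int_sq h x.ht nθ).integrableOn, le_rfl⟩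
  have Lq : LB ((𝔉.G x.t).F.μ.restrict Ω) _ _ := ⟨(int_sq h x.ht nq).integrableOn, le_rfl⟩
  have k1 : ∀ s : ℝ, LB ((𝔉.G x.t).F.μ.restrict Ω)
      (fun z => ‖o.m.Fg (𝔉.G x.t).F (o.W x.t (x.α + s • α)) z‖ ^ 2) (8 * (C * ‖w s - w 0‖ ^ 2)) :=
    fun s => by
    have sF := (Mp86.sm_Fg h.B hG o.ok (cs s)).continuous
    have a1 := (lb_add m (lb_smul Lθ s) (lb_smul Lq (s ^ 2)) sF.aestronglyMeasurable (eF s)).1
    have a2 := lb_add m (hC (w s - w 0)) (hτ s _ ⟨a1, le_rfl⟩)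
      (w := fun z => o.m.p2 𝔉.B z (o.m.Fg (𝔉.G x.t).F (o.W x.t (x.α + s • α)) z))
      ((Std94.sm_p2 h.B o.ok).continuous.clm_apply sF).aestronglyMeasurable fun z hz => by
        rw [val_sub, Pi.sub_apply, e0 z hz, e s z hz, _root_.sub_zero, sub_add_cancel]
    have a3 := integral_sub a1 (a2.1.const_mul 2)
    simp only [norm_Fg_sq hG (cs s) h.B, add_sub_cancel_left, integral_const_mul, kd0] at a3
    simp only [← norm_Fg_sq hG (cs s) h.B] at a3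
    refine ⟨a1, ?_⟩
    linarith [a2.2, mul_le_mul_of_nonneg_right hε (LB.nonneg ⟨a1, le_rfl⟩ fun _ => sq_nonneg _)]
  have k2 : ∀ s : ℝ, s ≠ 0 → ∫ z in Ω, ‖θ z‖ ^ 2 ∂(𝔉.G x.t).F.μ ≤
      16 * (C * ‖s⁻¹ • (w s - w 0)‖ ^ 2) + 2 * (s ^ 2 * ∫ z in Ω, ‖q z‖ ^ 2 ∂(𝔉.G x.t).F.μ) :=
    fun s hs => (lb_add m (lb_smul (k1 s) s⁻¹) (lb_smul Lq (-s))
      nθ.sm.continuous.aestronglyMeasurable fun z hz => by
        rw [eF s z hz, smul_add, inv_smul_smul₀ hs, sq, mul_smul, inv_smul_smul₀ hs, neg_smul,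
          add_neg_cancel_right]).2.trans_eq (by
      rw [norm_smul, mul_pow, Real.norm_eq_abs, sq_abs]; ring)
  have t0 : Tendsto (fun s : ℝ => 2 * (s ^ 2 * ∫ z in Ω, ‖q z‖ ^ 2 ∂(𝔉.G x.t).F.μ)) (𝓝[≠] 0)
      (𝓝 0) := tendsto_nhdsWithin_of_tendsto_nhds (Continuous.tendsto' (by fun_prop) _ _ (by simp))
  exact zero_of_lb _ hΩ.2 nθ.sm.continuous ⟨Lθ.1, by
    simpa using ge_of_tendsto (((slope0 hw C).const_mul 16).add t0)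
      (eventually_nhdsWithin_of_forall k2)⟩

/-- the gauge row -/
theorem kc_row (h : 𝔉.OK) (hα : α ∈ Mod61.Hs 𝔉.F0.toPre o.P1)
    (e : Nk89.row 8 x (ofV _ 9 _ α, 0) = 0) : ∃ w : Z.M → ℝ, Sm Z.I w ∧ ∀ z,
      dv1 Z.I (𝔉.G x.t).F.e (𝔉.G x.t).F.dv (o.m.adW x.cfg.W) (fun a y => tl x α y a) z +
        ∑ a, (𝔉.G x.t).F.D a w z • tl x α z a = 0 := by
  obtain ⟨ψ, w⟩ := wt_fs h x.ht
  have hG := h.G _ x.ht
  have Hy := (adj_rem h).hy o x.ht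
  have c0 : Cp (bd o) (𝔉.G x.t).F (𝔉.G x.t).F.Gam x.cfg.W :=
    (cp_of h.B hG o.ok (x.ad0 h).conn).ind h.Om h.Om'
  have cp := cpw c0 w
  let v : o.C r 8 := (ofV _ 9 _ α, 0, 0)
  have e1 : 𝔉.F0.val _ _ (sC o r 8 x.t v) = fun z => i1 _ _ (tl x α z) := funext fun z => by
    refine (val_SH h (by norm_num) x.ht (jC o r 8 v) z).trans ?_
    rw [val_jC h (by norm_num), val_ofV hα (by norm_num), val_zero]
    exact ext2 (by simp [SC, tl]) (by simp [SC])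
  have pu : ∀ z, (bd o).pC z (i1 _ _ (tl x α z)) = i1 _ _ (tl x α z) := fun z => by
    have := val_proj (sup0 h) (by norm_num : 4 ≤ 9) (sC o r 8 x.t v) z
    rwa [e1] at this
  have su : Sm Z.I fun z => i1 _ o.m.V (tl x α z) := fun z => SA.clm _ ((nice_tl h hα).sm z)
  have e4 : sig (Fs 𝔉) 8 x v = 0 := e
  have e2 := (val_zero.symm.trans (congrArg _ e4.symm)).trans ((Hy.toTw.val (Hy.nc_row (cb_uy h x))
    (by norm_num : 4 ≤ 8) (sC o r 8 x.t v)).trans (congrArg _ e1))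
  refine ⟨fun y => 2 * ψ y, contMDiff_const.mul w.sm, fun z => ?_⟩
  have e3 := cp.full_row (su z) pu x.cfg.Φ
  simp only [Op.app, Bd.full, op_pair, map_add, f2_i1, f2_i2, add_zero,
    dft_wt w (riem_of_vol hG.vol)] at e3
  rw [dv1_cov (lc_gam _) (frm _) (fun k => dv_gam hG.vol z k) (c0.P_fa (pu z))]
  simpa [rk1] using! e3.symm.trans (congrFun e2 z).symm

end Crest.Agent.X212.Dfl49
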