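import Crest.Agent.X212.Dfl49.Ex
import Crest.Agent.X212.Loc8.Sc
import Crest.Agent.X212.Rf65.Imm

/-!
# Row 212, DFLAT (helper49), file 10: the topology of `S¹ × D³`, frames from coordinates
-/

set_option autoImplicit false
set_option linter.unusedSectionVars false
noncomputable section
open Set Function Filter Topology Metric
open scoped ContDiff Manifold InnerProductSpace Real

namespace Crest.Agent.X212.Dfl49
open An Sob92 Pj41 Std94 Hz56

/-- the model space of the ball -/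
abbrev W3 : Type := EuclideanSpace ℝ (Fin 3)

/-- a shell -/
def sh (J : Set ℝ) : Set W3 := {v | ‖v‖ ∈ J}

section top
variable {Y X : Type} [TopologicalSpace Y] [TopologicalSpace X] {J : Set ℝ} {b : ℝ}

theorem sur_slab' {U : Set Y} {A J : Set ℝ} (hU : IsOpen U) (hA : IsOpen A) (hJ : IsOpen J)
    (cA : A.OrdConnected) (cJ : J.OrdConnected) (ne : A.Nonempty) (hAJ : A ⊆ J) :
    Sur (U ×ˢ A) (U ×ˢ J) := by
  have := (sur_slab (Y := U) hA hJ cA cJ ne hAJ).image'
    (hU.isOpenEmbedding_subtypeVal.prodMap (IsOpenEmbedding.id (X := ℝ))) (prod_mono subset_rfl hAJ)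
  simpa [prodMap_image_prod] using this

theorem isOpen_sh (hJ : IsOpen J) : IsOpen (sh J) := hJ.preimage continuous_norm

variable (hJ : IsOpen J) (cJ : J.OrdConnected) (ne : J.Nonempty) (hb : J ⊆ Ioo 0 b)
include hJ cJ ne hb

theorem sur_sh {θ : Y → Circle} {ϖ : Y → W3} (n : ∀ y, ‖ϖ y‖ = 1)
    (oe : IsOpenEmbedding fun p : Y × ℝ => (θ p.1, Real.exp p.2 • ϖ p.1))
    (su : ∀ z v, ‖v‖ = 1 → ∃ y, θ y = z ∧ ϖ y = v) {A : Set Circle} (hA : IsOpen A) :
    Sur (A ×ˢ sh J) (A ×ˢ ball 0 b) := by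
  have cθ : Continuous θ := (oe.continuous.comp (.prodMk_left 0)).fst
  have im : ∀ K ⊆ Ioi (0 : ℝ), (fun p : Y × ℝ => (θ p.1, Real.exp p.2 • ϖ p.1)) ''
      ((θ ⁻¹' A) ×ˢ (Real.exp ⁻¹' K)) = A ×ˢ sh K := fun K hK => by
    refine Subset.antisymm ?_ fun p hp => ?_
    · rintro _ ⟨p, hp, rfl⟩
      exact ⟨hp.1, by simpa [sh, norm_smul, n] using hp.2⟩
    · have h0 : 0 < ‖p.2‖ := hK hp.2
      obtain ⟨y, h1, h2⟩ := su p.1 (‖p.2‖⁻¹ • p.2) (norm_smul_inv_norm (norm_pos_iff.1 h0))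
      refine ⟨(y, Real.log ‖p.2‖), ⟨show θ y ∈ A from h1 ▸ hp.1, ?_⟩, ?_⟩
      · simpa [Real.exp_log h0, sh] using hp.2
      · simp [h1, h2, Real.exp_log h0, smul_smul, h0.ne']
  have s1 := (sur_slab' (hA.preimage cθ) (hJ.preimage Real.continuous_exp)
    ((isOpen_Ioo (a := 0) (b := b)).preimage Real.continuous_exp) (cJ.preimage_mono Real.exp_monotone)
    (ordConnected_Ioo.preimage_mono Real.exp_monotone)
    (ne.elim fun r hr => ⟨Real.log r, by simpa [Real.exp_log (hb hr).1] using hr⟩)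
    (preimage_mono hb)).image' oe (prod_mono subset_rfl (preimage_mono hb))
  rw [im J (hb.trans Ioo_subset_Ioi_self), im _ Ioo_subset_Ioi_self] at s1
  have e : A ×ˢ sh (Ioo 0 b) = A ×ˢ ball 0 b ∩ {p | p.2 ≠ 0} := by
    ext p; simp [sh, and_assoc, and_comm]
  have o : IsOpen (A ×ˢ ball (0 : W3) b) := hA.prod isOpen_ball
  have := Hz56.locConn (M := Circle) (𝓡 1)
  refine s1.trans (sur_nsep o (hA.prod (isOpen_sh isOpen_Ioo)) (e ▸ inter_subset_left) ?_ ?_)
    (prod_mono subset_rfl fun v hv => hb hv) (e ▸ inter_subset_left)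
  · rw [e]
    exact fun p hp => o.inter_closure ⟨hp, ((dense_univ.prod (dense_compl_singleton (0 : W3))).mono
      fun q hq => hq.2) p⟩
  · rintro ⟨z, v⟩ hp k
    obtain rfl : v = 0 := by_contra fun h => k (e ▸ ⟨hp, h⟩)
    exact e ▸ (nsep_prod (by simp) z).inter (o.mem_nhds hp)

omit hJ in
theorem sh_eq : sh J = (fun p : ℝ × W3 => p.1 • p.2) '' (J ×ˢ sphere 0 1) := by
  refine Subset.antisymm (fun v hv => ?_) ?_
  · have h0 : 0 < ‖v‖ := (hb hv).1
    exact ⟨(‖v‖, ‖v‖⁻¹ • v), ⟨hv, by simpa using norm_smul_inv_norm (𝕜 := ℝ) (norm_pos_iff.1 h0)⟩,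
      by simp [smul_smul, h0.ne']⟩
  · rintro _ ⟨p, ⟨h1, h2⟩, rfl⟩
    simpa [sh, norm_smul, mem_sphere_zero_iff_norm.1 h2, abs_of_pos (hb h1).1] using h1

theorem sur_pt (t : ℝ) {x : Circle × W3} (hx : x ∈ (Circle.exp '' Ioo t (t + 2 * π)) ×ˢ sh J) :
    Sur {x} ((Circle.exp '' Ioo t (t + 2 * π)) ×ˢ sh J) := by
  have := Hz56.locConn (M := Circle) (𝓡 1)
  obtain ⟨r, hr⟩ := ne
  refine Loc8.sur_of_h1 ((isLocalHomeomorph_circleExp.isOpenMap _ isOpen_Ioo).prod (isOpen_sh hJ))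
    ((isPreconnected_Ioo.image _ Circle.exp.continuous.continuousOn).prod ?_) (fun G _ => ?_) hx
  · rw [sh_eq cJ ⟨r, hr⟩ hb]
    exact (cJ.isPreconnected.prod (isPreconnected_sphere (by
      rw [← Module.finrank_eq_rank]; simp) _ _)).image _ (by fun_prop)
  have c : ContinuousOn (fun v : W3 => ‖v‖⁻¹) (sh J) :=
    continuous_norm.continuousOn.inv₀ fun _ hv => (hb hv).1.ne'
  have h1 : H1 G (sh J) := (h1_sphere' (E := W3) (by simp)).of_deform (f := fun v => ‖v‖⁻¹ • v)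
    (g := fun v => r • v) (H := fun p => ((1 - p.2) * r + p.2 * ‖p.1‖) • ‖p.1‖⁻¹ • p.1)
    (c.smul continuousOn_id)
    (fun v hv => by simpa using norm_smul_inv_norm (𝕜 := ℝ) (norm_pos_iff.1 (hb hv).1))
    (by fun_prop) (fun v hv => by
      simpa [sh, norm_smul, mem_sphere_zero_iff_norm.1 hv, abs_of_pos (hb hr).1] using hr)
    (ContinuousOn.smul (f := fun p : W3 × ℝ => (1 - p.2) * r + p.2 * ‖p.1‖) (by fun_prop)
      ((c.comp continuousOn_fst fun _ h => (mem_prod.1 h).1).smul continuousOn_fst))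
    (fun p hp => by
      have k := cJ.convex hr hp.1 (sub_nonneg.2 hp.2.2) hp.2.1 (sub_add_cancel _ _)
      rw [sh, mem_ofPred, norm_smul, norm_smul, norm_inv, norm_norm, inv_mul_cancel₀ (hb hp.1).1.ne',
        mul_one]
      exact (Real.norm_of_nonneg (hb k).1.le).symm ▸ k)
    (fun _ _ => by simp) fun v hv => by simp [smul_smul, (hb hv).1.ne']
  have := (h1.convex_prod (convex_Ioo t (t + 2 * π))).image ((op_exp isOpen_Ioo).prodMap (op_id _))
    (((Circle.exp_injOn_Ico (by simp)).mono Ioo_subset_Ico_self).prodMap (injOn_id _))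
  rwa [prodMap_image_prod, image_id] at this

theorem sur_ct {θ : Y → Circle} {ϖ : Y → W3} (n : ∀ y, ‖ϖ y‖ = 1)
    (oe : IsOpenEmbedding fun p : Y × ℝ => (θ p.1, Real.exp p.2 • ϖ p.1))
    (su : ∀ z v, ‖v‖ = 1 → ∃ y, θ y = z ∧ ϖ y = v) (e : OpenPartialHomeomorph (Circle × W3) X)
    (hs : univ ×ˢ ball 0 b ⊆ e.source) :
    Sur (e '' (univ ×ˢ sh J)) (e '' (univ ×ˢ ball 0 b)) ∧
      Ct (e '' (univ ×ˢ sh J)) (e '' (univ ×ˢ ball 0 b)) := by
  have k : sh J ⊆ ball 0 b := fun v hv => mem_ball_zero_iff.2 (hb hv).2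
  have s : ∀ A, A ×ˢ ball (0 : W3) b ⊆ e.source := fun A =>
    (prod_mono (subset_univ A) subset_rfl).trans hs
  have i : ∀ {A A' B B'}, B ⊆ ball (0 : W3) b → B' ⊆ ball 0 b →
      e '' (A ×ˢ B) ∩ e '' (A' ×ˢ B') = e '' ((A ∩ A') ×ˢ (B ∩ B')) := fun h h' => by
    rw [← prod_inter_prod, e.injOn.image_inter ((prod_mono subset_rfl h).trans (s _))
      ((prod_mono subset_rfl h').trans (s _))]
  let A : ℝ → Set Circle := fun t => Circle.exp '' Ioo t (t + 2 * π)
  have o : ∀ t, IsOpen (A t) := fun t => isLocalHomeomorph_circleExp.isOpenMap _ isOpen_Ioo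
  have p := Real.pi_pos
  obtain ⟨v, hv⟩ : (sh J).Nonempty := ne.elim fun r hr =>
    ⟨EuclideanSpace.single 0 r, by simpa [sh, abs_of_pos (hb hr).1] using hr⟩
  have m : ∀ t, (Circle.exp (t + π), v) ∈ A t ×ˢ sh J := fun t =>
    ⟨⟨_, ⟨by linarith, by linarith⟩, rfl⟩, hv⟩
  have u : A 0 ∪ A (-π) = univ := eq_univ_of_forall fun z => by
    have h1 := Complex.neg_pi_lt_arg z
    have h2 := Complex.arg_le_pi z
    rcases h2.eq_or_lt with h | h
    · exact .inl ⟨_, ⟨by linarith, by linarith⟩, Circle.exp_arg z⟩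
    · exact .inr ⟨_, ⟨h1, by linarith⟩, Circle.exp_arg z⟩
  have q : ∀ t, e '' (univ ×ˢ sh J) ∩ e '' (A t ×ˢ ball 0 b) = e '' (A t ×ˢ sh J) := fun t => by
    rw [i k subset_rfl, univ_inter, inter_eq_left.2 k]
  have r : ∀ t, Sur {e (Circle.exp (t + π), v)} (e '' (A t ×ˢ sh J)) := fun t =>
    image_singleton ▸ (sur_pt hJ cJ ne hb t (m t)).image e ((prod_mono subset_rfl k).trans (s _))
      (singleton_subset_iff.2 (m t))
  refine ⟨(sur_sh hJ cJ ne hb n oe su isOpen_univ).image e hs (prod_mono subset_rfl k),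
    e '' (A 0 ×ˢ ball 0 b), e '' (A (-π) ×ˢ ball 0 b), _, _,
    e.isOpen_image_of_subset_source ((o _).prod isOpen_ball) (s _),
    e.isOpen_image_of_subset_source ((o _).prod isOpen_ball) (s _),
    by rw [← image_union, ← union_prod, u], q _ ▸ mem_image_of_mem _ (m _),
    q _ ▸ mem_image_of_mem _ (m _), q _ ▸ r _, q _ ▸ r _, ?_⟩
  rw [i subset_rfl subset_rfl, inter_self, i k subset_rfl, univ_inter, inter_eq_left.2 k]
  exact (sur_sh hJ cJ ne hb n oe su ((o _).inter (o _))).image e (s _) (prod_mono subset_rfl k)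

end top

variable {E : Type} [NormedAddCommGroup E] [NormedSpace ℝ E] [FiniteDimensional ℝ E]
  [MeasurableSpace E] [BorelSpace E]
  {HM : Type} [TopologicalSpace HM] {I : ModelWithCorners ℝ E HM} [I.Boundaryless]
  {M : Type} [TopologicalSpace M] [ChartedSpace HM M] [IsManifold I ∞ M]
  [MeasurableSpace M] {ι : Type} [Fintype ι] {lam : Type} [Fintype lam]
  {B : Base M ι lam} {S : Set M}

/-- frames from four independent fields -/
theorem frs_of (hB : B.OK I) (hS : IsOpen S) {A : M → Matrix ι (Fin 4) ℝ} {s : M → Eu lam}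
    (sA : ∀ x ∈ S, MSm I A x) (pA : ∀ x ∈ S, ∀ a i, ∑ b, B.P a b x * A x b i = A x a i)
    (iA : ∀ x ∈ S, ∀ c, (A x).mulVec c = 0 → c = 0) (ss : ∀ x ∈ S, FSm I s x)
    (n : ∀ x ∈ S, ‖s x‖ = 1) (l : ∀ x ∈ S, B.l x (s x) = s x) : Frs I B S := by
  classical
  have g := fun x hx => gram_posDef (Prj.one) (a := A x) fun c _ => iA x hx c
  let U : M → Fin 4 → ι → ℝ := fun x i a => nrm 1 (A x) a i
  have sU : ∀ x ∈ S, ∀ i a, FSm I (fun y => U y i a) x := fun x hx i a =>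
    MSm.nrm (p := fun _ => 1) (MSm.const _) (sA x hx) (.of_forall fun _ => Prj.one) (g x hx) a i
  have uo : ∀ x ∈ S, ON (fun a b => B.P a b x) (U x) := fun x hx => by
    have := nrm_piso (q := Matrix.of fun a b => B.P a b x) Prj.one
      ⟨by ext a b; simp [(hB.pr x).symm a b], by ext a b; simp [Matrix.mul_apply, (hB.pr x).idem]⟩
      (Matrix.mul_one _) (by ext a i; exact pA x hx a i) (g x hx) (by simp [Matrix.trace, hB.rk])
    exact ⟨fun i k => by
      simpa [Matrix.mul_apply, Matrix.one_apply] using congrFun (congrFun this.src i) k,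
      fun b c => by simpa [Matrix.mul_apply] using congrFun (congrFun this.tgt b) c⟩
  let c : M → ℝ := fun y => ct (U y) (fun a b c d => B.o a b c d y) 0 1 2 3
  have sc : ∀ x ∈ S, ContinuousAt c x := fun x hx => ContMDiffAt.continuousAt (I := I) (n := ∞)
    (I' := 𝓘(ℝ, ℝ)) (Kl.fsum (K := smAt I x) _ fun b => Kl.fsum _ fun c => Kl.fsum _ fun d =>
      Kl.fsum _ fun e => Kl.mul (Kl.mul (Kl.mul (Kl.mul (sU x hx 0 b) (sU x hx 1 c)) (sU x hx 2 d))
        (sU x hx 3 e)) (hB.so b c d e x))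
  have c0 : ∀ x ∈ S, c x ≠ 0 := fun x hx h => by
    have e := hB.onm x
    have z : ct (U x) (fun a b c d => B.o a b c d x) = 0 := by
      funext i j k l; rw [((altx hB x).ct _).eq_eps]; exact mul_eq_zero_of_left h _
    have z' : ∀ a b c d, B.o a b c d x = 0 := fun a b c d => by
      rw [(uo x hx).ct_back (altx hB x) (fun a b c d => hB.oP a b c d x) a b c d, z]; simp [ct]
    simp [z'] at e
  let ε : M → Fin 4 → ℝ := fun y i => if i = 0 ∧ c y < 0 then -1 else 1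
  have ε2 : ∀ y i, ε y i * ε y i = 1 := fun y i => by simp only [ε]; split_ifs <;> simp
  refine ⟨fun y i a => ε y i * U y i a, s, fun x hx => ⟨fun i a => ?_, ss x hx,
    ON.of ⟨fun i k => ?_, fun a b => ?_⟩ (altx hB x) (fun a b c d => hB.oP a b c d x) (hB.onm x) ?_,
    (plx hB x).lf (n x hx) (l x hx)⟩⟩
  · refine ((contMDiffAt_const (c := ε x i)).mul (sU x hx i a)).congr_of_eventuallyEq ?_
    rcases (c0 x hx).lt_or_gt with h | h
    · exact ((sc x hx).eventually_lt_const h).mono fun y hy => by simp [ε, h, hy]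
    · exact ((sc x hx).eventually_const_lt h).mono fun y hy => by simp [ε, h.not_gt, hy.not_gt]
  · simp only [fun a => mul_mul_mul_comm (ε x i) (U x i a) (ε x k), ← Finset.mul_sum, (uo x hx).on]
    split_ifs with h
    exacts [by rw [h, ε2, one_mul], mul_zero _]
  · simp only [fun i => mul_mul_mul_comm (ε x i) (U x i a) (ε x i), ε2, one_mul, (uo x hx).P]
  · have : ct (fun i a => ε x i * U x i a) (fun a b c d => B.o a b c d x) 0 1 2 3 = ε x 0 * c x := by
      simp [ct, c, ε, Finset.mul_sum, mul_assoc]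
    rw [this]
    rcases (c0 x hx).lt_or_gt with h | h
    · simp [ε, h]
    · simpa [ε, h.not_gt] using h

theorem dv_circ {θ : M → ℂ} {x : M} (h : FSm I θ x) (n : ∀ᶠ y in 𝓝 x, ‖θ y‖ = 1)
    (ξ : (x : M) → TangentSpace I x) :
    dv I ξ θ x = ⟪Complex.I * θ x, dv I ξ θ x⟫_ℝ • (Complex.I * θ x) := by
  have k := Rf65.dv_ip ξ h h
  rw [Rf65.dv_ev_const (r := 1) (n.mono fun y hy => by rw [real_inner_self_eq_norm_sq, hy, one_pow])]
    at k
  have n1 : Complex.normSq (θ x) = 1 := by rw [← Complex.sq_norm, n.self_of_nhds, one_pow]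
  generalize dv I ξ θ x = w at k ⊢
  simp [Complex.normSq_apply] at k n1
  refine Complex.ext ?_ ?_ <;> simp
  · linear_combination -(θ x).re / 2 * k - w.re * n1
  · linear_combination -(θ x).im / 2 * k - w.im * n1

/-- frames from coordinates `(θ, v)` with values in `S¹ × ℝ³` -/
theorem frs_crd (h4 : Module.finrank ℝ E = 4) (hB : B.OK I) (F : Fr I M ι) (hP : F.P = B.P)
    (hS : IsOpen S) {θ : M → ℂ} {v : M → W3} {s : M → Eu lam} (sθ : ∀ x ∈ S, FSm I θ x)
    (nθ : ∀ x ∈ S, ‖θ x‖ = 1) (sv : ∀ x ∈ S, FSm I v x)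
    (i : ∀ x ∈ S, ∀ ξ : E, dv I (fun _ => ξ) θ x = 0 → dv I (fun _ => ξ) v x = 0 → ξ = 0)
    (ss : ∀ x ∈ S, FSm I s x) (n : ∀ x ∈ S, ‖s x‖ = 1) (l : ∀ x ∈ S, B.l x (s x) = s x) :
    Frs I B S := by
  let L : M → E →ₗ[ℝ] Fin 4 → ℝ := fun x => LinearMap.pi (Fin.cons
    ((innerSL ℝ (Complex.I * θ x) ∘L mfderiv I 𝓘(ℝ, ℂ) θ x : E →L[ℝ] ℝ) : E →ₗ[ℝ] ℝ) fun k =>
      ((EuclideanSpace.proj k ∘L mfderiv I 𝓘(ℝ, W3) v x : E →L[ℝ] ℝ) : E →ₗ[ℝ] ℝ))
  refine frs_of hB hS (A := fun x => .of fun a i => L x (F.e a x) i) (fun x hx a i => ?_)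
    (fun x _ a i => ?_) (fun x hx c hc => ?_) ss n l
  · refine Fin.cases ?_ (fun k => ?_) i
    · exact Kl.inner (K := smAt I x) (Kl.clm (K := smAt I x) (.mul ℝ ℂ Complex.I) (sθ x hx))
        ((Wz78.frm F).sD a (sθ x hx))
    · exact Kl.clm (K := smAt I x) (EuclideanSpace.proj k) ((Wz78.frm F).sD a (sv x hx))
  · conv_rhs => rw [Matrix.of_apply, ← F.P_e a x]
    erw [map_sum]
    simp only [Finset.sum_apply, hP, Matrix.of_apply]
    exact Finset.sum_congr rfl fun b _ => (congrFun ((L x).map_smul _ _) i).symm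
  · have k : Surjective (L x) := (LinearMap.injective_iff_surjective_of_finrank_eq_finrank
      (by simp [h4])).1 ((injective_iff_map_eq_zero _).2 fun ξ h => i x hx ξ (by
        rw [dv_circ (sθ x hx) ((hS.eventually_mem hx).mono nθ)]
        exact smul_eq_zero_of_left (congrFun h 0) _) (by ext k; exact congrFun h k.succ))
    obtain ⟨ξ, rfl⟩ := k c
    have : (dotProductBilin ℝ ℝ).flip (L x ξ) ∘ₗ L x = 0 :=
      LinearMap.ext_on_range (F.span x) fun a => congrFun hc a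
    exact dotProduct_self_eq_zero.1 (DFunLike.congr_fun this ξ)

end Crest.Agent.X212.Dfl49
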